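import Vale.Agent.N236.Defs
import Mathlib.LinearAlgebra.Matrix.Notation
import Mathlib.Data.Matrix.Basic
import Mathlib.Algebra.MvPolynomial.CommRing
import Mathlib.LinearAlgebra.TensorProduct.Basic
import Mathlib.LinearAlgebra.Basis.VectorSpace
import Mathlib.Algebra.Algebra.Subalgebra.Centralizer
import Mathlib.Tactic

/-!
# P236, Milnor's algebra: universal property, derivations, and an injectivity criterion
-/

open Finset TensorProduct

namespace Vale.Agent.N236

/-- the ground field -/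
abbrev F3 : Type := ZMod 3

variable {s : ℕ}

section lift

variable {B : Type*} [Ring B] [Algebra F3 B]

/-- the universal property -/
noncomputable def lift (f : Gen s → B)
    (h : ∀ a b, f a * f b = (-1 : F3) ^ (wt a * wt b) • (f b * f a)) : Cb s →ₐ[F3] B :=
  RingQuot.liftAlgHom F3 ⟨FreeAlgebra.lift F3 f, by
    rintro _ _ ⟨a, b⟩
    rw [map_smul, map_mul, map_mul, FreeAlgebra.lift_ι_apply, FreeAlgebra.lift_ι_apply]
    exact h a b⟩

theorem lift_gen (f : Gen s → B) (h) (a : Gen s) : lift f h (gen a) = f a :=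
  (RingQuot.liftAlgHom_mkAlgHom_apply F3 _ _ _).trans (FreeAlgebra.lift_ι_apply _ _)

theorem face_gen (j : ℕ) (a : Gen s) : face s j (gen a) = img j a :=
  (RingQuot.liftAlgHom_mkAlgHom_apply F3 _ _ _).trans (FreeAlgebra.lift_ι_apply _ _)

@[elab_as_elim]
theorem Cb.ind {P : Cb s → Prop} (h0 : ∀ r : F3, P (algebraMap _ _ r)) (h1 : ∀ a, P (gen a))
    (hm : ∀ x y, P x → P y → P (x * y)) (ha : ∀ x y, P x → P y → P (x + y)) (z : Cb s) : P z := by
  let π : FreeAlgebra F3 (Gen s) →ₐ[F3] Cb s := RingQuot.mkAlgHom F3 (Rel s)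
  obtain ⟨x, rfl⟩ : ∃ x, π x = z := RingQuot.mkAlgHom_surjective F3 (Rel s) z
  induction x using FreeAlgebra.induction with
  | grade0 r => rw [AlgHom.commutes]; exact h0 r
  | grade1 a => exact h1 a
  | mul a b h h' => rw [map_mul]; exact hm _ _ h h'
  | add a b h h' => rw [map_add]; exact ha _ _ h h'

theorem hom_ext {f g : Cb s →ₐ[F3] B} (h : ∀ a, f (gen a) = g (gen a)) : f = g := by
  ext z
  induction z using Cb.ind with
  | h0 r => rw [AlgHom.commutes, AlgHom.commutes]
  | h1 a => exact h a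
  | hm x y hx hy => rw [map_mul, map_mul, hx, hy]
  | ha x y hx hy => rw [map_add, map_add, hx, hy]

theorem one_mem_Deg : (1 : Cb s) ∈ Deg s 0 := Submodule.subset_span ⟨[], by simp, by simp⟩

/-- induction over homogeneous elements -/
@[elab_as_elim]
theorem Cb.hind {P : Cb s → Prop} (h0 : P 0) (h1 : ∀ t x, x ∈ Deg s t → P x)
    (ha : ∀ x y, P x → P y → P (x + y)) (z : Cb s) : P z := by
  have key : z ∈ ⨆ t, Deg s t := by
    induction z using Cb.ind with
    | h0 r =>
      rw [Algebra.algebraMap_eq_smul_one]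
      exact Submodule.smul_mem _ _ (Submodule.mem_iSup_of_mem 0 one_mem_Deg)
    | h1 a => exact Submodule.mem_iSup_of_mem _ (gen_mem a)
    | hm x y hx hy =>
      induction hx using Submodule.iSup_induction' with
      | mem t x hx =>
        induction hy using Submodule.iSup_induction' with
        | mem t' y hy => exact Submodule.mem_iSup_of_mem _ (mul_mem_Deg hx hy rfl)
        | zero => simp
        | add y y' _ _ h h' => rw [mul_add]; exact add_mem h h'
      | zero => simp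
      | add y y' _ _ h h' => rw [add_mul]; exact add_mem h h'
    | ha x y hx hy => exact add_mem hx hy
  induction key using Submodule.iSup_induction' with
  | mem t x hx => exact h1 t x hx
  | zero => exact h0
  | add y y' _ _ h h' => exact ha _ _ h h'

/-- An algebra map which respects the degrees of the generators respects all degrees. -/
theorem map_Deg (f : Cb s →ₐ[F3] B) (G : ℤ → Submodule F3 B) (h1 : 1 ∈ G 0)
    (hm : ∀ a b x y, x ∈ G a → y ∈ G b → x * y ∈ G (a + b)) (h : ∀ a, f (gen a) ∈ G (wt a))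
    {t : ℤ} {x : Cb s} (hx : x ∈ Deg s t) : f x ∈ G t := by
  refine (Submodule.span_le.2 ?_ : Deg s t ≤ (G t).comap f.toLinearMap) hx
  rintro _ ⟨l, rfl, rfl⟩
  change f (l.map gen).prod ∈ G (l.map wt).sum
  clear hx
  induction l with
  | nil => simpa using h1
  | cons a l ih => simpa using hm _ _ _ _ (h a) ih

end lift

theorem map_Deg' {s' : ℕ} (f : Cb s →ₐ[F3] Cb s') (h : ∀ a, f (gen a) ∈ Deg s' (wt a)) {t : ℤ}
    {x : Cb s} (hx : x ∈ Deg s t) : f x ∈ Deg s' t :=
  map_Deg f (Deg s') one_mem_Deg (fun _ _ _ _ hx hy => mul_mem_Deg hx hy rfl) h hx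

theorem face_mem (j : ℕ) {t : ℤ} {x : Cb s} (hx : x ∈ Deg s t) : face s j x ∈ Deg (s + 1) t :=
  map_Deg' _ (fun a => face_gen j a ▸ img_mem j a) hx

/-- a map of algebras given by homogeneous values -/
noncomputable def hlift {s' : ℕ} (f : Gen s → Cb s') (h : ∀ a, f a ∈ Deg s' (wt a)) :
    Cb s →ₐ[F3] Cb s' := lift f fun a b => comm_of_mem (h a) (h b)

theorem hlift_gen {s' : ℕ} (f : Gen s → Cb s') (h) (a : Gen s) : hlift f h (gen a) = f a :=
  lift_gen _ _ _

theorem sq_sign (n : ℤ) : (-1 : F3) ^ n * (-1 : F3) ^ n = 1 := by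
  rw [← mul_zpow]
  simp

theorem odd_tau (k : Fin s) (i : ℕ) : Odd (wt (k, i, true)) := ⟨3 ^ i - 1, by simp [wt]; ring⟩

theorem even_xi (k : Fin s) (i : ℕ) : Even (wt (k, i, false)) := even_two_mul _

theorem sign_odd (a : ℤ) {b : ℤ} (h : Odd b) : (-1 : F3) ^ (a * b) = (-1 : F3) ^ a := by
  rw [mul_comm, zpow_mul, h.neg_one_zpow]

/-- the sign automorphism -/
noncomputable def sg (s : ℕ) : Cb s →ₐ[F3] Cb s :=
  hlift (fun a => (-1 : F3) ^ wt a • gen a) fun a => Submodule.smul_mem _ _ (gen_mem a)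

theorem sg_gen (a : Gen s) : sg s (gen a) = (-1 : F3) ^ wt a • gen a := hlift_gen _ _ _

theorem sg_of_mem {t : ℤ} {x : Cb s} (hx : x ∈ Deg s t) : sg s x = (-1 : F3) ^ t • x := by
  induction hx using Submodule.span_induction with
  | mem x hx =>
    obtain ⟨l, rfl, rfl⟩ := hx
    induction l with
    | nil => simp
    | cons a l ih =>
      rw [List.map_cons, List.prod_cons, map_mul, ih, sg_gen, List.map_cons, List.sum_cons,
        zpow_add₀ (by decide), smul_mul_smul_comm]
  | zero => simp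
  | add x y _ _ h h' => rw [map_add, h, h', smul_add]
  | smul r x _ h => rw [map_smul, h, smul_comm]

theorem sg_sg (x : Cb s) : sg s (sg s x) = x := by
  induction x using Cb.hind with
  | h0 => simp
  | h1 t x hx => rw [sg_of_mem hx, map_smul, sg_of_mem hx, smul_smul, sq_sign, one_smul]
  | ha x y h h' => rw [map_add, map_add, h, h']

theorem tau_mul (k : Fin s) (i : ℕ) (x : Cb s) : tau k i * x = sg s x * tau k i := by
  induction x using Cb.hind with
  | h0 => simp
  | h1 t x hx =>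
    rw [sg_of_mem hx, tau, comm_of_mem (gen_mem _) hx, mul_comm (wt _), sign_odd _ (odd_tau k i),
      smul_mul_assoc]
  | ha x y h h' => rw [map_add, mul_add, add_mul, h, h']

theorem eq_zero_of_neg {M : Type*} [AddCommGroup M] [Module F3 M] {x : M} (h : x = -x) : x = 0 := by
  have h1 : (2 : F3) • x = 0 := by rw [two_smul, add_eq_zero_iff_eq_neg]; exact h
  exact (smul_eq_zero.1 h1).resolve_left (by decide)

theorem tau_sq (k : Fin s) (i : ℕ) : tau k i * tau k i = 0 := by
  apply eq_zero_of_neg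
  conv_lhs => rw [tau_mul]
  rw [tau, sg_gen, (odd_tau k i).neg_one_zpow, neg_one_smul, neg_mul]

theorem xi_comm (k : Fin s) (i : ℕ) (x : Cb s) : xi k i * x = x * xi k i := by
  induction x using Cb.hind with
  | h0 => simp
  | h1 t x hx =>
    rw [comm_of_mem (xi_mem k i) hx, ((even_two_mul _).mul_right t).neg_one_zpow, one_smul]
  | ha x y h h' => rw [mul_add, add_mul, h, h']

/-! ### Derivations -/

section der

variable {B : Type*} [Ring B] [Algebra F3 B]

/-- twisted derivations -/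
def IsDer {A : Type*} [Ring A] [Algebra F3 A] (φ ψ : A →ₐ[F3] B) (D : A →ₗ[F3] B) : Prop :=
  ∀ x y, D (x * y) = D x * φ y + ψ x * D y

theorem IsDer.one {A : Type*} [Ring A] [Algebra F3 A] {φ ψ : A →ₐ[F3] B} {D : A →ₗ[F3] B}
    (h : IsDer φ ψ D) : D 1 = 0 := by
  have h1 := h 1 1
  rwa [one_mul, map_one φ, map_one ψ, mul_one, one_mul, left_eq_add] at h1

theorem IsDer.ext {φ ψ : Cb s →ₐ[F3] B} {D D' : Cb s →ₗ[F3] B} (h : IsDer φ ψ D)
    (h' : IsDer φ ψ D') (hg : ∀ a, D (gen a) = D' (gen a)) (x : Cb s) : D x = D' x := by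
  induction x using Cb.ind with
  | h0 r => rw [Algebra.algebraMap_eq_smul_one, map_smul, map_smul, h.one, h'.one]
  | h1 a => exact hg a
  | hm x y hx hy => rw [h, h', hx, hy]
  | ha x y hx hy => rw [map_add, map_add, hx, hy]

/-- the matrix form of the partial derivative with respect to `τ_i` in the factor `k` -/
noncomputable def rho (k : Fin s) (i : ℕ) : Cb s →ₐ[F3] Matrix (Fin 2) (Fin 2) (Cb s) :=
  lift (fun a => !![sg s (gen a), if a = (k, i, true) then 1 else 0; 0, gen a]) fun a b => by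
    have h := comm_of_mem (gen_mem a) (gen_mem b)
    have h1 := congrArg (sg s) h
    rw [map_smul, map_mul, map_mul] at h1
    rw [Matrix.mul_fin_two, Matrix.mul_fin_two, Matrix.smul_of]
    simp only [Matrix.smul_cons, Matrix.smul_empty, mul_zero, zero_mul, add_zero, zero_add,
      smul_zero, ← h, ← h1]
    congr 3
    split_ifs with h2 h3 h3
    · subst h2 h3
      simp [sg_gen, (odd_tau k i).neg_one_zpow]
    · subst h2
      simp [sg_gen, sign_odd _ (odd_tau k i)]
    · subst h3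
      simp [sg_gen, mul_comm (wt (k, i, true)), sign_odd _ (odd_tau k i), smul_smul, sq_sign]
    · simp

/-- the partial derivative with respect to `τ_i` in the factor `k` -/
noncomputable def pd (k : Fin s) (i : ℕ) : Cb s →ₗ[F3] Cb s where
  toFun x := rho k i x 0 1
  map_add' x y := by rw [map_add, Matrix.add_apply]
  map_smul' r x := by rw [map_smul, Matrix.smul_apply, RingHom.id_apply]

theorem rho_eq (k : Fin s) (i : ℕ) (x : Cb s) :
    rho k i x 0 0 = sg s x ∧ rho k i x 1 0 = 0 ∧ rho k i x 1 1 = x := by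
  induction x using Cb.ind with
  | h0 r => simp [Algebra.algebraMap_eq_smul_one]
  | h1 a => simp [rho, lift_gen]
  | hm x y hx hy => simp [Matrix.mul_apply, hx, hy]
  | ha x y hx hy => simp [hx, hy]

theorem isDer_pd (k : Fin s) (i : ℕ) : IsDer (AlgHom.id F3 _) (sg s) (pd k i) := fun x y => by
  change rho k i (x * y) 0 1 = rho k i x 0 1 * y + sg s x * rho k i y 0 1
  rw [map_mul, Matrix.mul_apply, Fin.sum_univ_two, (rho_eq k i x).1, (rho_eq k i y).2.2, add_comm]

theorem pd_mul (k : Fin s) (i : ℕ) (x y : Cb s) :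
    pd k i (x * y) = pd k i x * y + sg s x * pd k i y := isDer_pd k i x y

theorem pd_gen (k : Fin s) (i : ℕ) (a : Gen s) :
    pd k i (gen a) = if a = (k, i, true) then 1 else 0 := by
  change rho k i (gen a) 0 1 = _
  simp [rho, lift_gen]

theorem pd_xi (k : Fin s) (i : ℕ) (k' : Fin s) : ∀ n, pd k i (xi k' n) = 0
  | 0 => (isDer_pd k i).one
  | n + 1 => by simp [xi, pd_gen]

theorem pd_pow (k : Fin s) (i : ℕ) {x : Cb s} (h : pd k i x = 0) (n : ℕ) : pd k i (x ^ n) = 0 := by
  induction n with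
  | zero => rw [pow_zero]; exact (isDer_pd k i).one
  | succ n ih => rw [pow_succ, pd_mul, ih, h, zero_mul, mul_zero, add_zero]

end der

/-! ### The tensor decomposition -/

/-- the first factor -/
noncomputable def fst (s : ℕ) : Cb 1 →ₐ[F3] Cb (s + 1) :=
  hlift (fun a => gen (0, a.2)) fun ⟨_, i, b⟩ => b.rec (gen_mem (0, i, false)) (gen_mem (0, i, true))

theorem fst_gen (a : Gen 1) : fst s (gen a) = gen (0, a.2) := hlift_gen _ _ _

theorem fst_mem {t : ℤ} {x : Cb 1} (hx : x ∈ Deg 1 t) : fst s x ∈ Deg (s + 1) t :=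
  map_Deg' _ (fun ⟨_, i, b⟩ => by
    rw [fst_gen]
    exact b.rec (gen_mem (0, i, false)) (gen_mem (0, i, true))) hx

theorem face_zero_gen (a : Gen s) : face s 0 (gen a) = gen (a.1.succ, a.2) := by
  rw [face_gen, img, if_pos (Nat.zero_le _)]

/-- the multiplication `A ⊗ A^{⊗ s} → A^{⊗ (s + 1)}` -/
noncomputable def mm (s : ℕ) : Cb 1 ⊗[F3] Cb s →ₗ[F3] Cb (s + 1) :=
  (LinearMap.mul' F3 _).comp (TensorProduct.map (fst s).toLinearMap (face s 0).toLinearMap)

theorem mm_tmul (a : Cb 1) (c : Cb s) : mm s (a ⊗ₜ c) = fst s a * face s 0 c := by simp [mm]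

theorem mm_surjective (s : ℕ) : Function.Surjective (mm s) := by
  have key : ∀ (g : Gen (s + 1)) (y : Cb 1 ⊗[F3] Cb s), gen g * mm s y ∈ LinearMap.range (mm s) := by
    rintro ⟨k, g⟩ y
    induction y with
    | zero => simp
    | add y y' h h' => rw [map_add, mul_add]; exact add_mem h h'
    | tmul a c =>
      rw [mm_tmul]
      induction k using Fin.cases with
      | zero => exact ⟨(gen (0, g) * a) ⊗ₜ c, by rw [mm_tmul, map_mul, fst_gen, mul_assoc]⟩
      | succ k =>
        induction a using Cb.hind with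
        | h0 => simp
        | h1 t a ha =>
          rw [← mul_assoc, comm_of_mem (gen_mem _) (fst_mem ha), smul_mul_assoc]
          exact Submodule.smul_mem _ _ ⟨a ⊗ₜ (gen (k, g) * c), by
            rw [mm_tmul, map_mul, face_zero_gen, mul_assoc]⟩
        | ha x y h h' => rw [map_add, add_mul, mul_add]; exact add_mem h h'
  intro z
  change z ∈ LinearMap.range (mm s)
  induction z using Cb.hind with
  | h0 => exact zero_mem _
  | ha x y h h' => exact add_mem h h'
  | h1 t x hx =>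
    refine (Submodule.span_le.2 ?_ : Deg (s + 1) t ≤ LinearMap.range (mm s)) hx
    rintro _ ⟨l, -, rfl⟩
    induction l with
    | nil => exact ⟨1 ⊗ₜ 1, by simp [mm_tmul]⟩
    | cons g l ih =>
      obtain ⟨y, hy⟩ := ih
      rw [List.map_cons, List.prod_cons, ← hy]
      exact key g y

/-! ### An injectivity criterion -/

/-- the subalgebra generated by all `ξ_i` and the `τ_i`, `i < n` -/
noncomputable def fil (n : ℕ) : Subalgebra F3 (Cb 1) :=
  Algebra.adjoin F3 {x | ∃ a : Gen 1, (a.2.2 = true → a.2.1 < n) ∧ x = gen a}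

theorem gen_mem_fil {n : ℕ} {a : Gen 1} (h : a.2.2 = true → a.2.1 < n) : gen a ∈ fil n :=
  Algebra.subset_adjoin ⟨a, h, rfl⟩

theorem fil_mono {m n : ℕ} (h : m ≤ n) : fil m ≤ fil n :=
  Algebra.adjoin_mono fun _ ⟨a, ha, hx⟩ => ⟨a, fun h' => (ha h').trans_le h, hx⟩

theorem exists_fil (z : Cb 1) : ∃ n, z ∈ fil n := by
  induction z using Cb.ind with
  | h0 r => exact ⟨0, algebraMap_mem _ r⟩
  | h1 a => exact ⟨a.2.1 + 1, gen_mem_fil fun _ => Nat.lt_succ_self _⟩
  | hm x y hx hy =>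
    obtain ⟨m, hm⟩ := hx
    obtain ⟨n, hn⟩ := hy
    exact ⟨max m n, mul_mem (fil_mono (le_max_left _ _) hm) (fil_mono (le_max_right _ _) hn)⟩
  | ha x y hx hy =>
    obtain ⟨m, hm⟩ := hx
    obtain ⟨n, hn⟩ := hy
    exact ⟨max m n, add_mem (fil_mono (le_max_left _ _) hm) (fil_mono (le_max_right _ _) hn)⟩

theorem sg_fil {n : ℕ} {z : Cb 1} (h : z ∈ fil n) : sg 1 z ∈ fil n := by
  refine (Algebra.adjoin_le ?_ : fil n ≤ (fil n).comap (sg 1)) h
  rintro _ ⟨a, ha, rfl⟩
  change sg 1 (gen a) ∈ fil n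
  rw [sg_gen]
  exact Subalgebra.smul_mem _ (gen_mem_fil ha) _

theorem sg_fil_zero {z : Cb 1} (h : z ∈ fil 0) : sg 1 z = z := by
  refine (Algebra.adjoin_le ?_ : fil 0 ≤ AlgHom.equalizer (sg 1) (AlgHom.id _ _)) h
  rintro _ ⟨⟨k, i, b⟩, ha, rfl⟩
  cases b
  · change sg 1 (gen _) = gen _
    rw [sg_gen, (even_xi k i).neg_one_zpow, one_smul]
  · exact absurd (ha rfl) (Nat.not_lt_zero _)

theorem pd_fil {n m : ℕ} {z : Cb 1} (h : z ∈ fil n) (hm : n ≤ m) : pd 0 m z = 0 := by
  induction h using Algebra.adjoin_induction with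
  | mem x hx =>
    obtain ⟨a, ha, rfl⟩ := hx
    rw [pd_gen, if_neg]
    rintro rfl
    exact absurd (ha rfl) (not_lt.2 hm)
  | algebraMap r => rw [Algebra.algebraMap_eq_smul_one, map_smul, (isDer_pd 0 m).one, smul_zero]
  | add x y _ _ h h' => rw [map_add, h, h', add_zero]
  | mul x y _ _ h h' => rw [pd_mul, h, h', zero_mul, mul_zero, add_zero]

theorem fil_succ {n : ℕ} {z : Cb 1} (h : z ∈ fil (n + 1)) :
    ∃ a ∈ fil n, ∃ b ∈ fil n, z = a + b * tau 0 n := by
  induction h using Algebra.adjoin_induction with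
  | mem x hx =>
    obtain ⟨⟨k, i, b⟩, ha, rfl⟩ := hx
    by_cases h : b = true → i < n
    · exact ⟨_, gen_mem_fil (a := (k, i, b)) h, 0, zero_mem _, by simp⟩
    · rw [Classical.not_imp] at h
      obtain ⟨rfl, h⟩ := h
      obtain rfl : i = n := by have : i < n + 1 := ha rfl; omega
      obtain rfl : k = 0 := Subsingleton.elim _ _
      exact ⟨0, zero_mem _, 1, one_mem _, by simp [tau]⟩
  | algebraMap r => exact ⟨_, algebraMap_mem _ r, 0, zero_mem _, by simp⟩
  | add x y _ _ h h' =>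
    obtain ⟨a, ha, b, hb, rfl⟩ := h
    obtain ⟨a', ha', b', hb', rfl⟩ := h'
    exact ⟨_, add_mem ha ha', _, add_mem hb hb', by rw [add_mul]; abel⟩
  | mul x y _ _ h h' =>
    obtain ⟨a, ha, b, hb, rfl⟩ := h
    obtain ⟨a', ha', b', hb', rfl⟩ := h'
    refine ⟨_, mul_mem ha ha', _, add_mem (mul_mem ha hb') (mul_mem hb (sg_fil ha')), ?_⟩
    have h1 : tau (0 : Fin 1) n * (b' * tau 0 n) = 0 := by
      rw [← mul_assoc, tau_mul 0 n b', mul_assoc, tau_sq, mul_zero]
    rw [add_mul, mul_add, mul_add, mul_assoc b, mul_assoc b, h1, tau_mul 0 n a', add_mul, mul_zero,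
      add_zero, mul_assoc, mul_assoc, add_assoc]

theorem pd_dec {n : ℕ} {a b : Cb 1} (ha : a ∈ fil n) (hb : b ∈ fil n) :
    pd 0 n (a + b * tau 0 n) = sg 1 b := by
  rw [map_add, pd_mul, pd_fil ha le_rfl, pd_fil hb le_rfl, tau, pd_gen, if_pos rfl, zero_mul,
    zero_add, zero_add, mul_one]

theorem wt_pos (a : Gen s) : 0 < wt a := by
  obtain ⟨k, i, b⟩ := a
  have h : (1 : ℤ) ≤ 3 ^ i := one_le_pow₀ (by norm_num)
  cases b <;> simp only [wt, pow_succ] <;> omega

theorem sum_wt_nonneg (l : List (Gen s)) : 0 ≤ (l.map wt).sum :=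
  List.sum_nonneg fun x hx => by
    obtain ⟨a, -, rfl⟩ := List.mem_map.1 hx
    exact (wt_pos a).le

theorem word_fil (n : ℕ) (l : List (Gen 1)) (h : (l.map wt).sum < 2 * 3 ^ n - 1) :
    (l.map gen).prod ∈ fil n := by
  induction l with
  | nil => exact one_mem _
  | cons a l ih =>
    rw [List.map_cons, List.sum_cons] at h
    have h1 := wt_pos a
    have h2 := sum_wt_nonneg l
    refine mul_mem (gen_mem_fil ?_) (ih (by omega))
    obtain ⟨k, i, b⟩ := a
    rintro (rfl : b = true)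
    by_contra h3
    have h4 : (3 : ℤ) ^ n ≤ 3 ^ i := pow_le_pow_right₀ (by norm_num) (not_lt.1 h3)
    simp only [wt] at h
    omega

theorem deg_dec (n : ℕ) {z : Cb 1} (h : z ∈ Deg 1 (2 * 3 ^ n - 1)) :
    ∃ a ∈ fil n, ∃ c : F3, z = a + c • tau 0 n := by
  induction h using Submodule.span_induction with
  | mem x hx =>
    obtain ⟨l, hl, rfl⟩ := hx
    cases l with
    | nil => exact ⟨1, one_mem _, 0, by simp⟩
    | cons a l =>
      rw [List.map_cons, List.sum_cons] at hl
      have h1 := wt_pos a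
      by_cases h : a.2.2 = true → a.2.1 < n
      · exact ⟨_, mul_mem (gen_mem_fil h) (word_fil n l (by omega)), 0, by simp⟩
      · obtain ⟨k, i, b⟩ := a
        rw [Classical.not_imp] at h
        obtain ⟨rfl : b = true, h⟩ := h
        have h4 : (3 : ℤ) ^ n ≤ 3 ^ i := pow_le_pow_right₀ (by norm_num) (not_lt.1 h)
        obtain rfl : k = 0 := Subsingleton.elim _ _
        simp only [wt] at hl
        cases l with
        | nil =>
          have h5 : (3 : ℤ) ^ i = 3 ^ n := by
            rw [List.map_nil, List.sum_nil] at hl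
            omega
          obtain rfl : i = n := (pow_right_injective₀ (by norm_num) (by norm_num) h5)
          exact ⟨0, zero_mem _, 1, by simp [tau]⟩
        | cons b l =>
          have h5 := wt_pos b
          have h6 := sum_wt_nonneg l
          rw [List.map_cons, List.sum_cons] at hl
          omega
  | zero => exact ⟨0, zero_mem _, 0, by simp⟩
  | add x y _ _ h h' =>
    obtain ⟨a, ha, b, rfl⟩ := h
    obtain ⟨a', ha', b', rfl⟩ := h'
    exact ⟨_, add_mem ha ha', b + b', by rw [add_smul]; abel⟩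
  | smul r x _ h =>
    obtain ⟨a, ha, b, rfl⟩ := h
    exact ⟨_, Subalgebra.smul_mem _ ha r, r * b, by rw [smul_add, mul_smul]⟩

/-- the augmentation -/
noncomputable def eps : Cb s →ₐ[F3] F3 := lift (fun _ => 0) fun _ _ => by simp

theorem eps_gen (a : Gen s) : eps (gen a) = 0 := lift_gen _ _ _

theorem eps_deg {t : ℤ} (ht : t ≠ 0) {z : Cb s} (h : z ∈ Deg s t) : eps z = 0 := by
  refine (Submodule.span_le.2 ?_ : Deg s t ≤ LinearMap.ker eps.toLinearMap) h
  rintro _ ⟨l, rfl, rfl⟩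
  cases l with
  | nil => exact absurd rfl ht
  | cons a l =>
    change eps (gen a * _) = 0
    rw [map_mul, eps_gen, zero_mul]

theorem pd_deg (k : Fin s) (i : ℕ) {t : ℤ} {z : Cb s} (h : z ∈ Deg s t) :
    pd k i z ∈ Deg s (t - (2 * 3 ^ i - 1)) := by
  refine (Submodule.span_le.2 ?_ : Deg s t ≤ (Deg s _).comap (pd k i)) h
  rintro _ ⟨l, rfl, rfl⟩
  change pd k i (l.map gen).prod ∈ Deg s ((l.map wt).sum - _)
  clear h
  induction l with
  | nil => rw [List.map_nil (f := gen), List.prod_nil, (isDer_pd k i).one]; exact zero_mem _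
  | cons a l ih =>
    rw [List.map_cons (f := gen), List.prod_cons, pd_mul, sg_gen, smul_mul_assoc, pd_gen,
      List.map_cons, List.sum_cons]
    refine add_mem ?_ (Submodule.smul_mem _ _ (mul_mem_Deg (gen_mem a) ih (by ring)))
    split_ifs with h
    · subst h
      rw [one_mul]
      exact Submodule.subset_span ⟨l, by simp [wt], rfl⟩
    · rw [zero_mul]
      exact zero_mem _

/-- the coefficient of `τ_n` -/
noncomputable def QQ (n : ℕ) : Cb 1 →ₗ[F3] F3 := eps.toLinearMap ∘ₗ pd 0 n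

theorem QQ_apply (n : ℕ) (z : Cb 1) : QQ n z = eps (pd 0 n z) := rfl

/-- the augmentation of the first factor -/
noncomputable def e1 : Cb 2 →ₐ[F3] Cb 1 :=
  hlift (fun a => if a.1 = 0 then 0 else gen (0, a.2)) fun ⟨_, i, b⟩ => by
    split_ifs
    · exact zero_mem _
    · exact b.rec (gen_mem (0, i, false)) (gen_mem (0, i, true))

theorem e1_gen (a : Gen 2) : e1 (gen a) = if a.1 = 0 then 0 else gen (0, a.2) := hlift_gen _ _ _

theorem e1_fst (a : Cb 1) : e1 (fst 1 a) = algebraMap _ _ (eps a) :=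
  AlgHom.congr_fun (hom_ext (f := e1.comp (fst 1)) (g := (Algebra.ofId _ _).comp eps) fun a => by
    simp [fst_gen, e1_gen, eps_gen]) a

theorem e1_face (a : Cb 1) : e1 (face 1 0 a) = a :=
  AlgHom.congr_fun (hom_ext (f := e1.comp (face 1 0)) (g := AlgHom.id _ _) fun ⟨k, a⟩ => by
    obtain rfl : k = 0 := Subsingleton.elim _ _
    simp [face_zero_gen, e1_gen]) a

theorem sg_comm {s' : ℕ} (f : Cb s →ₐ[F3] Cb s') (h : ∀ t x, x ∈ Deg s t → f x ∈ Deg s' t)
    (x : Cb s) : sg s' (f x) = f (sg s x) := by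
  induction x using Cb.hind with
  | h0 => simp
  | h1 t x hx => rw [sg_of_mem hx, sg_of_mem (h t x hx), map_smul]
  | ha x y h h' => simp only [map_add, h, h']

theorem pd_fst (n : ℕ) (a : Cb 1) : pd 0 n (fst 1 a) = fst 1 (pd 0 n a) := by
  refine IsDer.ext (φ := fst 1) (ψ := (fst 1).comp (sg 1))
    (D := pd 0 n ∘ₗ (fst 1).toLinearMap) (D' := (fst 1).toLinearMap ∘ₗ pd 0 n)
    (fun x y => ?_) (fun x y => ?_) (fun ⟨k, a⟩ => ?_) a
  · simp [pd_mul, sg_comm (fst 1) fun _ _ => fst_mem]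
  · simp [pd_mul]
  · obtain rfl : k = 0 := Subsingleton.elim _ _
    simp only [LinearMap.comp_apply, AlgHom.toLinearMap_apply, fst_gen, pd_gen, Prod.mk.injEq,
      true_and]
    split_ifs <;> simp

theorem pd_face (n : ℕ) (a : Cb 1) : pd 0 n (face 1 0 a) = 0 := by
  refine IsDer.ext (φ := face 1 0) (ψ := (sg 2).comp (face 1 0))
    (D := pd 0 n ∘ₗ (face 1 0).toLinearMap) (D' := 0)
    (fun x y => ?_) (fun x y => ?_) (fun ⟨k, a⟩ => ?_) a
  · simp [pd_mul]
  · simp
  · simp [face_zero_gen, pd_gen]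

theorem e1_pd_mm (n : ℕ) (a c : Cb 1) : e1 (pd 0 n (mm 1 (a ⊗ₜ c))) = QQ n a • c := by
  rw [mm_tmul, pd_mul, pd_face, mul_zero, add_zero, map_mul, pd_fst, e1_fst, e1_face, QQ_apply,
    Algebra.smul_def]

theorem face_one_gen (a : ℕ × Bool) : face 1 1 (gen (0, a)) = cop ((0 : Fin 1), a) := by
  rw [face_gen, img, if_neg (by simp), if_pos (by simp)]

theorem e1_xi : ∀ i, e1 (xi 0 i) = if i = 0 then 1 else 0
  | 0 => map_one _
  | i + 1 => by simp [xi, e1_gen]

theorem e1_xi' : ∀ i, e1 (xi 1 i) = xi 0 i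
  | 0 => map_one _
  | i + 1 => by simp [xi, e1_gen]

theorem e1_sum (n : ℕ) (g : ℕ → Cb 2) :
    e1 (∑ p ∈ antidiagonal n, xi 0 p.1 ^ 3 ^ p.2 * g p.2) = e1 (g n) := by
  rw [map_sum, Finset.sum_eq_single (0, n)]
  · simp [xi]
  · rintro ⟨a, b⟩ hp hne
    have h : a ≠ 0 := fun h => hne (by simp_all)
    simp [e1_xi, h]
  · simp

theorem e1_cop (z : Cb 1) : e1 (face 1 1 z) = z :=
  AlgHom.congr_fun (hom_ext (f := e1.comp (face 1 1)) (g := AlgHom.id _ _) fun ⟨k, i, b⟩ => by
    obtain rfl : k = 0 := Subsingleton.elim _ _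
    rw [AlgHom.comp_apply, face_one_gen]
    cases b
    · exact (e1_sum (i + 1) (xi 1)).trans (e1_xi' _)
    · refine (map_add _ _ _).trans ?_
      refine (congrArg₂ (· + ·) (e1_gen _) (e1_sum i (tau 1))).trans ?_
      simp [tau, e1_gen]) z

theorem e1_pd_cop (n : ℕ) (z : Cb 1) : e1 (pd 0 n (face 1 1 z)) = pd 0 n z := by
  refine IsDer.ext (φ := AlgHom.id _ _) (ψ := sg 1)
    (D := e1.toLinearMap ∘ₗ pd 0 n ∘ₗ (face 1 1).toLinearMap) (D' := pd 0 n)
    (fun x y => ?_) (isDer_pd 0 n) (fun ⟨k, i, b⟩ => ?_) z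
  · simp [pd_mul, sg_comm (face 1 1) fun _ _ => face_mem 1, e1_cop]
  · obtain rfl : k = 0 := Subsingleton.elim _ _
    change e1 (pd 0 n (face 1 1 _)) = _
    rw [face_one_gen, pd_gen]
    cases b
    · simp [cop, pd_mul, pd_pow, pd_xi]
    · simp only [cop, map_add, map_sum, pd_mul, tau, pd_gen]
      simp only [pd_pow _ _ (pd_xi _ _ _ _), Prod.mk.injEq]
      split_ifs <;> simp_all

/-- the polynomials in the `ξ_i` -/
noncomputable def evP : MvPolynomial ℕ ℤ →+* Cb 1 :=
  (Subring.center (Cb 1)).subtype.comp (MvPolynomial.eval₂Hom (Int.castRingHom _) fun i =>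
    ⟨xi 0 (i + 1), Subring.mem_center_iff.2 fun x => (xi_comm 0 (i + 1) x).symm⟩)

theorem evP_X (i : ℕ) : evP (MvPolynomial.X i) = xi 0 (i + 1) := by simp [evP]

theorem three_cb : (3 : Cb s) = 0 := by
  rw [← map_ofNat (algebraMap F3 (Cb s)) 3, show (3 : F3) = 0 from rfl, map_zero]

theorem exists_evP {z : Cb 1} (h : z ∈ fil 0) : ∃ p, evP p = z := by
  induction h using Algebra.adjoin_induction with
  | mem x hx =>
    obtain ⟨⟨k, i, b⟩, ha, rfl⟩ := hx
    obtain rfl : k = 0 := Subsingleton.elim _ _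
    cases b
    · exact ⟨_, evP_X i⟩
    · exact absurd (ha rfl) (Nat.not_lt_zero _)
  | algebraMap r =>
    obtain ⟨m, rfl⟩ := ZMod.intCast_surjective r
    exact ⟨m, by simp⟩
  | add x y _ _ h h' =>
    obtain ⟨p, rfl⟩ := h
    obtain ⟨q, rfl⟩ := h'
    exact ⟨_, map_add _ _ _⟩
  | mul x y _ _ h h' =>
    obtain ⟨p, rfl⟩ := h
    obtain ⟨q, rfl⟩ := h'
    exact ⟨_, map_mul _ _ _⟩

/-- **The injectivity criterion.** -/
theorem inj_crit {B B' : Type*} [Ring B] [Algebra F3 B] [Ring B'] [Algebra F3 B']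
    (Φ : Cb 1 →ₐ[F3] B) (Φ' : Cb 2 →ₐ[F3] B') (K : B ⊗[F3] B →ₗ[F3] B')
    (hK : Function.Injective K) (hKm : ∀ a c, K (Φ a ⊗ₜ Φ c) = Φ' (mm 1 (a ⊗ₜ c)))
    (hΔ : ∀ z, Φ z = 0 → Φ' (face 1 1 z) = 0) (pj : ℤ → B →+ B)
    (hpj : ∀ t t' z, z ∈ Deg 1 t → pj t' (Φ z) = if t = t' then Φ z else 0)
    (hP : ∀ p, Φ (evP p) = 0 → 3 ∣ p) (h0 : Φ (tau 0 0) ≠ 0) : Function.Injective Φ := by
  have hmap : ∀ y, K (TensorProduct.map Φ.toLinearMap Φ.toLinearMap y) = Φ' (mm 1 y) := by
    intro y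
    induction y with
    | zero => simp
    | tmul a c => exact hKm a c
    | add y y' h h' => simp only [map_add, h, h']
  have hten : ∀ z y, Φ z = 0 → mm 1 y = face 1 1 z →
      TensorProduct.map Φ.toLinearMap Φ.toLinearMap y = 0 := fun z y hz hy =>
    hK (by rw [hmap, hy, hΔ z hz, map_zero])
  have hq : ∀ n, (∀ z, Φ z = 0 → QQ n z = 0) → ∃ q : B →ₗ[F3] F3, ∀ z, q (Φ z) = QQ n z := by
    intro n h
    obtain ⟨q, hq⟩ := LinearMap.exists_extend ((LinearMap.ker Φ.toLinearMap).liftQ (QQ n) h ∘ₗ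
      Φ.toLinearMap.quotKerEquivRange.symm.toLinearMap)
    refine ⟨q, fun z => ?_⟩
    have h1 := LinearMap.congr_fun hq ⟨Φ z, z, rfl⟩
    refine h1.trans ?_
    exact congrArg _ (Φ.toLinearMap.quotKerEquivRange_symm_apply_image z _)
  have hpd : ∀ n, (∀ z, Φ z = 0 → QQ n z = 0) → ∀ z, Φ z = 0 → Φ (pd 0 n z) = 0 := by
    intro n h z hz
    obtain ⟨q, hq⟩ := hq n h
    obtain ⟨y, hy⟩ := mm_surjective 1 (face 1 1 z)
    have h1 : ∀ y, Φ (e1 (pd 0 n (mm 1 y))) = TensorProduct.lid F3 B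
        (q.rTensor B (TensorProduct.map Φ.toLinearMap Φ.toLinearMap y)) := by
      intro y
      induction y with
      | zero => simp
      | tmul a c => simp [e1_pd_mm, hq]
      | add y y' h h' => simp only [map_add, h, h']
    rw [← e1_pd_cop, ← hy, h1, hten z y hz hy, map_zero, map_zero]
  have hred : ∀ n z, Φ z = 0 → ∃ a ∈ fil n, ∃ c : F3, Φ (a + c • tau 0 n) = 0 ∧ sg 1 a = -a ∧
      QQ n z = c := by
    intro n z hz
    have h1 : ∀ z, ∃ z' ∈ Deg 1 (2 * 3 ^ n - 1), Φ z' = pj (2 * 3 ^ n - 1) (Φ z) ∧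
        QQ n z' = QQ n z := by
      intro z
      induction z using Cb.hind with
      | h0 => exact ⟨0, zero_mem _, by simp, rfl⟩
      | h1 t x hx =>
        by_cases h : t = 2 * 3 ^ n - 1
        · exact ⟨x, h ▸ hx, by rw [hpj t _ x hx, if_pos h], rfl⟩
        · refine ⟨0, zero_mem _, by rw [hpj t _ x hx, if_neg h, map_zero], ?_⟩
          rw [map_zero, QQ_apply, eps_deg (sub_ne_zero.2 h) (pd_deg 0 n hx)]
      | ha x y h h' =>
        obtain ⟨a, ha, h1, h2⟩ := h
        obtain ⟨b, hb, h3, h4⟩ := h'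
        exact ⟨a + b, add_mem ha hb, by simp only [map_add, h1, h3], by simp only [map_add, h2, h4]⟩
    obtain ⟨z', hz', h2, h3⟩ := h1 z
    obtain ⟨a, ha, c, rfl⟩ := deg_dec n hz'
    refine ⟨a, ha, c, by rw [h2, hz, map_zero], ?_, ?_⟩
    · have h4 : a ∈ Deg 1 (2 * 3 ^ n - 1) := by
        simpa using sub_mem hz' (Submodule.smul_mem _ c (gen_mem (0, n, true)) :
          c • tau 0 n ∈ Deg 1 (2 * 3 ^ n - 1))
      have h5 : Odd (2 * 3 ^ n - 1 : ℤ) := odd_tau (0 : Fin 1) n
      rw [sg_of_mem h4, h5.neg_one_zpow, neg_one_smul]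
    · rw [← h3, QQ_apply, map_add, pd_fil ha le_rfl, map_smul, tau, pd_gen, if_pos rfl]
      simp
  have hz0 : ∀ z ∈ fil 0, Φ z = 0 → z = 0 := fun z hz h => by
    obtain ⟨p, rfl⟩ := exists_evP hz
    obtain ⟨q, rfl⟩ := hP p h
    rw [map_mul, map_ofNat, three_cb, zero_mul]
  have key : ∀ n, (∀ i < n, ∀ z, Φ z = 0 → QQ i z = 0) ∧ ∀ z ∈ fil n, Φ z = 0 → z = 0 := by
    intro n
    induction n with
    | zero => exact ⟨fun i hi => absurd hi (Nat.not_lt_zero i), hz0⟩
    | succ n ih =>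
      have h1 : ∀ z, Φ z = 0 → QQ n z = 0 := by
        intro z hz
        obtain ⟨a, ha, c, h2, h3, h4⟩ := hred n z hz
        have h5 : ∀ k ≤ n, a ∈ fil k → a = 0 := by
          intro k
          induction k with
          | zero => exact fun _ h => eq_zero_of_neg ((sg_fil_zero h).symm.trans h3)
          | succ k ihk =>
            intro hk h
            obtain ⟨a', ha', b, hb, h6⟩ := fil_succ h
            have h7 := hpd k (ih.1 k hk) _ h2
            rw [map_add, map_smul, tau, pd_gen, if_neg (by simp; omega), smul_zero, add_zero, h6,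
              pd_dec ha' hb] at h7
            have h8 := ih.2 _ (fil_mono (by omega) (sg_fil hb)) h7
            rw [← sg_sg b, h8, map_zero, zero_mul, add_zero] at h6
            exact ihk (by omega) (h6 ▸ ha')
        rw [h5 n le_rfl ha, zero_add] at h2
        rw [h4]
        cases n with
        | zero => exact (smul_eq_zero.1 ((map_smul Φ _ _).symm.trans h2)).resolve_right h0
        | succ n =>
          obtain ⟨q, hq⟩ := hq 0 (ih.1 0 (Nat.succ_pos n))
          have h6 := hten _ (c • (tau 0 (n + 1) ⊗ₜ 1 + ∑ p ∈ antidiagonal (n + 1),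
            (xi 0 p.1 ^ 3 ^ p.2) ⊗ₜ tau 0 p.2)) h2 (by
              have h7 : ∀ i, fst 1 (xi 0 i) = xi 0 i := fun i => by
                cases i
                · exact map_one _
                · exact fst_gen _
              rw [map_smul, map_smul, tau, face_one_gen]
              simp [mm_tmul, cop, tau, fst_gen, face_zero_gen, h7])
          have h7 := congrArg (fun y => TensorProduct.rid F3 B (q.lTensor B y)) h6
          have h8 : QQ 0 1 = 0 := by rw [QQ_apply, (isDer_pd 0 0).one, map_zero]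
          have h9 : ∀ i, QQ 0 (tau 0 i) = if i = 0 then 1 else 0 := fun i => by
            rw [QQ_apply, tau, pd_gen]
            by_cases h : i = 0 <;> simp [h]
          simp only [map_smul, map_add, map_sum, TensorProduct.map_tmul, AlgHom.toLinearMap_apply,
            LinearMap.lTensor_tmul, TensorProduct.rid_tmul, hq, h8, h9, map_zero] at h7
          rw [Finset.sum_eq_single (n + 1, 0) (by
            rintro ⟨a, b⟩ hp hne
            have h : b ≠ 0 := fun h => hne (by simp_all)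
            simp [h]) (by simp)] at h7
          obtain ⟨m, rfl⟩ := ZMod.intCast_surjective c
          obtain ⟨p, hp⟩ := hP (MvPolynomial.C m * MvPolynomial.X n) (by
            simpa [evP_X, Int.cast_smul_eq_zsmul] using h7)
          have h10 := congrArg (MvPolynomial.eval fun _ => (1 : ℤ)) hp
          rw [(ZMod.intCast_zmod_eq_zero_iff_dvd m 3).2 ⟨MvPolynomial.eval (fun _ => (1 : ℤ)) p, by
            simpa using h10⟩]
      refine ⟨fun i hi => (Nat.lt_succ_iff_lt_or_eq.1 hi).elim (ih.1 i) (· ▸ h1), fun z hz h => ?_⟩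
      obtain ⟨a, ha, b, hb, rfl⟩ := fil_succ hz
      have h2 := hpd n h1 _ h
      rw [pd_dec ha hb] at h2
      have h3 := ih.2 _ (sg_fil hb) h2
      rw [← sg_sg b, h3, map_zero, zero_mul, add_zero] at h ⊢
      exact ih.2 a ha h
  refine (injective_iff_map_eq_zero Φ).2 fun z hz => ?_
  obtain ⟨n, hn⟩ := exists_fil z
  exact (key n).2 z hn hz

end Vale.Agent.N236
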