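import Vale.Agent.N236.Alg
import Mathlib.RingTheory.TwoSidedIdeal.Kernel
import Mathlib.Algebra.Algebra.ZMod
import Mathlib.Algebra.Module.ZMod
import Mathlib.Algebra.Field.NegOnePow

/-!
# P236: the cobar complex in the free ring and the cobar complex as a quotient
-/

open Finset FreeRing

namespace Vale.Agent.N236

/-- the free ring -/
abbrev FA : Type := FreeRing (ℕ × ℕ × Bool)

variable {s : ℕ} {t : ℤ} {z : FA}

/-- the generators of the first `s` factors -/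
abbrev up (a : Gen s) : ℕ × ℕ × Bool := (a.1, a.2)

theorem wt_up (a : Gen s) : Xt.wt (up a) = wt a := by
  obtain ⟨k, i, _ | _⟩ := a <;> simp [Xt.wt, wt]

/-- the projection onto the tensor power -/
noncomputable def prj (s : ℕ) : FA →+* Cb s :=
  FreeRing.lift fun a => if h : a.1 < s then gen (⟨a.1, h⟩, a.2) else 0

theorem prj_ι {k : ℕ} (h : k < s) (a : ℕ × Bool) : prj s (of (k, a)) = gen (⟨k, h⟩, a) :=
  (lift_of _ _).trans (dif_pos h)

theorem prj_up (a : Gen s) : prj s (of (up a)) = gen a := prj_ι a.1.2 _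

theorem prj_ι_mem (a : ℕ × ℕ × Bool) : prj s (of a) ∈ Deg s (Xt.wt a) := by
  by_cases h : a.1 < s
  · have := gen_mem (⟨a.1, h⟩, a.2)
    rwa [← wt_up, ← prj_up] at this
  · rw [prj, lift_of, dif_neg h]
    exact zero_mem _

theorem sign_smul {B : Type} [Ring B] [Algebra F3 B] (n : ℤ) (x : B) :
    (-1 : F3) ^ n • x = (n.negOnePow : ℤ) • x := by
  rw [← Int.cast_smul_eq_zsmul F3, Int.cast_negOnePow]

theorem prj_Idl (h : z ∈ Xt.Idl) : prj s z = 0 := by
  refine (TwoSidedIdeal.mem_ker _).1 ((TwoSidedIdeal.span_le.2 ?_ :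
    Xt.Idl ≤ TwoSidedIdeal.ker (prj s)) h)
  rintro _ (rfl | ⟨a, b, rfl⟩)
  · exact (TwoSidedIdeal.mem_ker _).2 ((map_ofNat _ 3).trans three_cb)
  rw [SetLike.mem_coe, TwoSidedIdeal.mem_ker, map_sub, sub_eq_zero]
  simp only [Units.smul_def, map_mul, map_zsmul]
  exact (comm_of_mem (prj_ι_mem a) (prj_ι_mem b)).trans (sign_smul _ _)

theorem prj_mem (h : z ∈ Xt.Deg s t) : prj s z ∈ Deg s t := by
  refine ((AddSubgroup.closure_le _).2 ?_ :
    Xt.Deg s t ≤ (Deg s t).toAddSubgroup.comap (prj s).toAddMonoidHom) h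
  rintro _ ⟨l, -, rfl, rfl⟩
  change prj s (l.map of).prod ∈ Deg s (l.map Xt.wt).sum
  clear h
  induction l with
  | nil => simpa using one_mem_Deg
  | cons a l ih =>
    rw [List.map_cons, List.map_cons, List.prod_cons, map_mul, List.sum_cons]
    exact mul_mem_Deg (prj_ι_mem a) ih rfl

theorem exists_prj {y : Cb s} (h : y ∈ Deg s t) : ∃ z ∈ Xt.Deg s t, prj s z = y := by
  refine (Submodule.span_le.2 ?_ : Deg s t ≤
    AddSubgroup.toZModSubmodule 3 ((Xt.Deg s t).map (prj s).toAddMonoidHom)) h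
  rintro _ ⟨l, rfl, rfl⟩
  refine ⟨((l.map up).map of).prod, AddSubgroup.subset_closure ⟨l.map up, ?_, ?_, rfl⟩, ?_⟩
  · simp only [List.mem_map]
    rintro _ ⟨a, -, rfl⟩
    exact a.1.2
  · simp [Function.comp_def, wt_up]
  · simp [map_list_prod, Function.comp_def, prj_up]

/-- the subring of the first `s` factors -/
noncomputable def Sub (s : ℕ) : Subring FA := .closure (Set.range fun a : Gen s => of (up a))

theorem ι_mem_Sub {k : ℕ} (h : k < s) (a : ℕ × Bool) : of (k, a) ∈ Sub s :=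
  Subring.subset_closure ⟨(⟨k, h⟩, a), rfl⟩

theorem xi_mem_Sub {k : ℕ} (h : k < s) (i : ℕ) : Xt.xi k i ∈ Sub s := by
  rw [Xt.xi]
  split_ifs
  exacts [one_mem _, ι_mem_Sub h _]

theorem mem_Sub (h : z ∈ Xt.Deg s t) : z ∈ Sub s := by
  refine ((AddSubgroup.closure_le _).2 ?_ : Xt.Deg s t ≤ (Sub s).toAddSubgroup) h
  rintro _ ⟨l, hl, -, rfl⟩
  refine Subring.list_prod_mem (Sub s) ?_
  simp only [List.mem_map]
  rintro _ ⟨a, ha, rfl⟩
  exact ι_mem_Sub (hl a ha) a.2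

theorem Idl_of (h : z ∈ Sub s) (h0 : prj s z = 0) : z ∈ Xt.Idl := by
  let m : FA →+* Xt.Idl.ringCon.Quotient := RingCon.mk' _
  have hm : ∀ {x y}, x - y ∈ Xt.Idl → m x = m y := fun h =>
    (RingCon.eq _).2 ((TwoSidedIdeal.rel_iff _ _ _).2 h)
  let _ : Algebra F3 Xt.Idl.ringCon.Quotient := ZMod.algebra' _ (ringChar _) (ringChar.dvd (by
    rw [← map_natCast m, ← map_zero m]
    exact hm (TwoSidedIdeal.subset_span (.inl (by simp)))))
  let i : Cb s →ₐ[F3] Xt.Idl.ringCon.Quotient := lift (fun a => m (of (up a))) fun a b => by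
    rw [sign_smul, ← wt_up, ← wt_up, ← map_mul,
      hm (TwoSidedIdeal.subset_span (.inr ⟨up a, up b, rfl⟩))]
    simp only [Units.smul_def, map_mul, map_zsmul]
  have h1 : i (prj s z) = m z := RingHom.eqOn_set_closure (f := i.toRingHom.comp (prj s)) (by
    rintro _ ⟨a, rfl⟩
    exact (congrArg i (prj_up a)).trans (lift_gen _ _ _)) h
  rw [h0, map_zero] at h1
  exact (RingCon.eq _).1 (h1.symm.trans (map_zero m).symm)

theorem face_ι (j : ℕ) (a : ℕ × ℕ × Bool) : Xt.face j (of a) = Xt.img j a := lift_of _ _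

theorem face_Sub (j : ℕ) (h : z ∈ Sub s) : Xt.face j z ∈ Sub (s + 1) := by
  refine (Subring.closure_le.2 ?_ : Sub s ≤ (Sub (s + 1)).comap (Xt.face j)) h
  rintro _ ⟨⟨k, n, b⟩, rfl⟩
  have hk := k.2
  change Xt.face j _ ∈ Sub _
  rw [face_ι, Xt.img]
  dsimp only
  split_ifs
  · exact ι_mem_Sub (by omega) _
  · exact ι_mem_Sub (by omega) _
  · exact add_mem (ι_mem_Sub (by omega) _) (sum_mem fun p _ =>
      mul_mem (pow_mem (xi_mem_Sub (by omega) _) _) (ι_mem_Sub (by omega) _))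
  · exact sum_mem fun p _ =>
      mul_mem (pow_mem (xi_mem_Sub (by omega) _) _) (xi_mem_Sub (by omega) _)

theorem prj_xi {k : ℕ} (h : k < s) (i : ℕ) : prj s (Xt.xi k i) = xi ⟨k, h⟩ i := by
  cases i with
  | zero => exact map_one _
  | succ i => exact prj_ι h _

theorem prj_face (j : ℕ) (h : z ∈ Sub s) : prj (s + 1) (Xt.face j z) = face s j (prj s z) := by
  refine RingHom.eqOn_set_closure (f := (prj (s + 1)).comp (Xt.face j))
    (g := (face s j).toRingHom.comp (prj s)) ?_ h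
  rintro _ ⟨⟨k, n, b⟩, rfl⟩
  have hk := k.2
  change prj _ (Xt.face j _) = face s j (prj s _)
  rw [prj_up, face_gen, face_ι, Xt.img, img]
  dsimp only
  by_cases h1 : j ≤ k
  · rw [if_pos h1, if_pos h1]
    exact prj_ι (by omega) _
  rw [if_neg h1, if_neg h1]
  by_cases h2 : j = k + 1
  · subst h2
    rw [if_neg (lt_irrefl _), if_pos rfl]
    have h3 : (k : ℕ) < s + 1 := by omega
    have h4 : (k : ℕ) + 1 < s + 1 := by omega
    cases b
    · simp only [Bool.false_eq_true, if_false, map_sum, map_mul, map_pow, prj_xi h3, prj_xi h4]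
      rfl
    · simp only [if_true, map_add, map_sum, map_mul, map_pow, prj_xi h3, prj_ι h3, prj_ι h4]
      rfl
  · rw [if_pos (by omega), if_neg h2]
    exact prj_ι (by omega) _

theorem prj_dC (h : z ∈ Sub s) : prj (s + 1) (Xt.dC s z) = dC s (prj s z) := by
  simp only [Xt.dC, dC, map_sum, map_zsmul, prj_face _ h, LinearMap.sum_apply, LinearMap.smul_apply,
    AlgHom.toLinearMap_apply, ← Int.cast_smul_eq_zsmul F3, Int.cast_pow, Int.cast_neg, Int.cast_one]

theorem dC_Sub (h : z ∈ Sub s) : Xt.dC s z ∈ Sub (s + 1) :=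
  sum_mem fun j _ => zsmul_mem (face_Sub j h) _

theorem mem_Zc : z ∈ Xt.Zc s t ↔ z ∈ Xt.Deg s t ∧ dC s (prj s z) = 0 :=
  and_congr_right fun h => ⟨fun h' => (prj_dC (mem_Sub h)).symm.trans (prj_Idl h'),
    fun h' => Idl_of (dC_Sub (mem_Sub h)) ((prj_dC (mem_Sub h)).trans h')⟩

theorem mem_Bc (hz : z ∈ Xt.Deg s t)
    (hd : ∀ r w, dC r w ∈ Deg (r + 1) t → ∃ w' ∈ Deg r t, dC r w' = dC r w) :
    z ∈ Xt.Bc s t ↔ prj s z ∈ Bc s := by
  refine ⟨?_, fun h => ?_⟩
  · rintro (h | ⟨r, rfl, y, hy, h⟩)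
    · exact prj_Idl h ▸ zero_mem _
    · have h1 := prj_Idl (s := r + 1) h
      rw [map_sub, sub_eq_zero, prj_dC (mem_Sub hy)] at h1
      exact ⟨_, h1.symm⟩
  cases s with
  | zero => exact .inl (Idl_of (mem_Sub hz) h)
  | succ r =>
    obtain ⟨w, hw⟩ := h
    obtain ⟨w', h1, h2⟩ := hd r w (hw ▸ prj_mem hz)
    obtain ⟨y, hy, rfl⟩ := exists_prj h1
    exact .inr ⟨r, rfl, y, hy, Idl_of (sub_mem (mem_Sub hz) (dC_Sub (mem_Sub hy)))
      (by rw [map_sub, prj_dC (mem_Sub hy), h2, hw, sub_self])⟩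

theorem prj_bb (j : ℕ) : prj 2 (Xt.bb j) = bb j := by
  simp only [Xt.bb, map_sum, map_nsmul, map_mul, map_pow, prj_xi (show 0 < 2 by omega),
    prj_xi (show 1 < 2 by omega)]
  rfl

theorem Xt.bb_mem (j : ℕ) : Xt.bb j ∈ Xt.Deg 2 (P236K.St.stem j + 2) := by
  refine sum_mem fun i hi => nsmul_mem (AddSubgroup.subset_closure ?_) _
  refine ⟨.replicate (i * 3 ^ j) (0, 0, false) ++ .replicate ((3 - i) * 3 ^ j) (1, 0, false),
    ?_, ?_, by simp [Xt.xi]⟩
  · simp only [List.mem_append, List.mem_replicate]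
    rintro _ (⟨-, rfl⟩ | ⟨-, rfl⟩) <;> simp
  · obtain rfl | rfl : i = 1 ∨ i = 2 := by
      rw [mem_Ioo] at hi
      omega
    all_goals
      simp [Xt.wt]
      ring

end Vale.Agent.N236
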