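import Vale.Agent.N236.St
import Mathlib.Algebra.FreeAlgebra
import Mathlib.Algebra.RingQuot
import Mathlib.Algebra.Field.ZMod
import Mathlib.LinearAlgebra.Quotient.Defs

/-!
# P236: the cobar complex of the dual Steenrod algebra and the `E_2` term, as quotients

Algebra: `Cb s` is the `s`-fold graded tensor power of Milnor's algebra
`A = F_3[ξ_1, ξ_2, …] ⊗ Λ[τ_0, τ_1, …]`, `face` are the cofaces of the cobar construction (Milnor's
coproduct), `Ext s t` is the cohomology of the cobar complex, `bb j` is the cocycle `b_j`.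

Topology: `E2 A s n` is the `E_2` term of an Adams tower.
-/

open Finset

namespace Vale.Agent.N236

/-! ### The cobar complex of the dual Steenrod algebra -/

/-- The generators of `A^{⊗ s}`: `(k, i, false)` is `ξ_{i+1}` and `(k, i, true)` is `τ_i`, placed in
the tensor factor `k`. -/
abbrev Gen (s : ℕ) : Type := Fin s × ℕ × Bool

/-- the degrees `|ξ_i| = 2 (3 ^ i - 1)` and `|τ_i| = 2 * 3 ^ i - 1` -/
def wt {s : ℕ} : Gen s → ℤ
  | (_, i, false) => 2 * (3 ^ (i + 1) - 1)
  | (_, i, true) => 2 * 3 ^ i - 1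

/-- the sign rule `a b = (-1) ^ (|a| |b|) b a` for generators -/
inductive Rel (s : ℕ) : FreeAlgebra (ZMod 3) (Gen s) → FreeAlgebra (ZMod 3) (Gen s) → Prop
  | comm (a b : Gen s) : Rel s (FreeAlgebra.ι _ a * FreeAlgebra.ι _ b)
      ((-1 : ZMod 3) ^ (wt a * wt b) • (FreeAlgebra.ι _ b * FreeAlgebra.ι _ a))

/-- `A^{⊗ s}`: the free graded commutative `F_3`-algebra on the generators -/
def Cb (s : ℕ) : Type := RingQuot (Rel s)

noncomputable instance cbRing (s : ℕ) : Ring (Cb s) := inferInstanceAs (Ring (RingQuot (Rel s)))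

noncomputable instance cbAlg (s : ℕ) : Algebra (ZMod 3) (Cb s) :=
  inferInstanceAs (Algebra (ZMod 3) (RingQuot (Rel s)))

variable {s : ℕ}

/-- a generator as an element of `A^{⊗ s}` -/
noncomputable def gen (a : Gen s) : Cb s := RingQuot.mkAlgHom (ZMod 3) (Rel s) (FreeAlgebra.ι _ a)

/-- `ξ_i` in the factor `k` (`ξ_0 = 1`) -/
noncomputable def xi (k : Fin s) : ℕ → Cb s
  | 0 => 1
  | i + 1 => gen (k, i, false)

/-- `τ_i` in the factor `k` -/
noncomputable def tau (k : Fin s) (i : ℕ) : Cb s := gen (k, i, true)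

/-- the part of internal degree `t`: the span of the words of degree `t` in the generators -/
noncomputable def Deg (s : ℕ) (t : ℤ) : Submodule (ZMod 3) (Cb s) :=
  Submodule.span _ {x | ∃ l : List (Gen s), (l.map wt).sum = t ∧ x = (l.map gen).prod}

/-- Milnor's coproduct of a generator of the factor `k`, in the factors `k` and `k + 1`:
`Δ ξ_n = ∑ ξ_{n-i} ^ (3 ^ i) ⊗ ξ_i` and `Δ τ_n = τ_n ⊗ 1 + ∑ ξ_{n-i} ^ (3 ^ i) ⊗ τ_i`. -/
noncomputable def cop : Gen s → Cb (s + 1)
  | (k, n, false) => ∑ p ∈ antidiagonal (n + 1), xi k.castSucc p.1 ^ 3 ^ p.2 * xi k.succ p.2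
  | (k, n, true) =>
    tau k.castSucc n + ∑ p ∈ antidiagonal n, xi k.castSucc p.1 ^ 3 ^ p.2 * tau k.succ p.2

/-- The coface `j` on generators: `[1 | a_1 | ⋯]` for `j = 0`, `[⋯ | Δ a_j | ⋯]` for `0 < j ≤ s`,
`[⋯ | a_s | 1]` for `j = s + 1` (the factor `k : Fin s` is `a_{k+1}`). -/
noncomputable def img (j : ℕ) (a : Gen s) : Cb (s + 1) :=
  if j ≤ a.1 then gen (a.1.succ, a.2) else if j = a.1 + 1 then cop a else gen (a.1.castSucc, a.2)

theorem gen_mem (a : Gen s) : gen a ∈ Deg s (wt a) :=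
  Submodule.subset_span ⟨[a], by simp, by simp⟩

theorem mul_mem_Deg {a b c : ℤ} {x y : Cb s} (hx : x ∈ Deg s a) (hy : y ∈ Deg s b)
    (h : a + b = c) : x * y ∈ Deg s c := by
  have h1 := Submodule.mul_mem_mul hx hy
  rw [Deg, Deg, Submodule.span_mul_span] at h1
  refine Submodule.span_mono ?_ h1
  rintro _ ⟨_, ⟨l, rfl, rfl⟩, _, ⟨l', rfl, rfl⟩, rfl⟩
  exact ⟨l ++ l', by simpa using h, by simp⟩

theorem pow_mem_Deg {a : ℤ} {x : Cb s} (hx : x ∈ Deg s a) (n : ℕ) : x ^ n ∈ Deg s (n * a) := by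
  induction n with
  | zero => exact Submodule.subset_span ⟨[], by simp, by simp⟩
  | succ n ih => exact pow_succ x n ▸ mul_mem_Deg ih hx (by push_cast; ring)

theorem xi_mem (k : Fin s) : ∀ i, xi k i ∈ Deg s (2 * (3 ^ i - 1))
  | 0 => Submodule.subset_span ⟨[], by simp, by simp [xi]⟩
  | i + 1 => gen_mem (k, i, false)

theorem img_mem (j : ℕ) (a : Gen s) : img j a ∈ Deg (s + 1) (wt a) := by
  obtain ⟨k, n, b⟩ := a
  unfold img
  split_ifs
  · exact b.rec (gen_mem (k.succ, n, false)) (gen_mem (k.succ, n, true))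
  · cases b
    · refine Submodule.sum_mem _ fun p hp => mul_mem_Deg (pow_mem_Deg (xi_mem _ _) _) (xi_mem _ _) ?_
      rw [wt, ← mem_antidiagonal.1 hp]
      push_cast
      ring
    · refine add_mem (gen_mem (k.castSucc, n, true)) (Submodule.sum_mem _ fun p hp =>
        mul_mem_Deg (pow_mem_Deg (xi_mem _ _) _) (gen_mem (k.succ, p.2, true)) ?_)
      rw [wt, wt, ← mem_antidiagonal.1 hp]
      push_cast
      ring
  · exact b.rec (gen_mem (k.castSucc, n, false)) (gen_mem (k.castSucc, n, true))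

theorem gen_comm (a : Gen s) (l : List (Gen s)) : gen a * (l.map gen).prod =
    (-1 : ZMod 3) ^ (wt a * (l.map wt).sum) • ((l.map gen).prod * gen a) := by
  induction l with
  | nil => simp
  | cons b l ih =>
    have h := RingQuot.mkAlgHom_rel (ZMod 3) (Rel.comm a b)
    rw [map_smul, map_mul, map_mul] at h
    replace h : gen a * gen b = (-1 : ZMod 3) ^ (wt a * wt b) • (gen b * gen a) := h
    rw [List.map_cons, List.prod_cons, List.map_cons, List.sum_cons, ← mul_assoc, h, smul_mul_assoc,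
      mul_assoc, ih, mul_smul_comm, smul_smul, mul_add, zpow_add₀ (by decide), mul_assoc]

theorem comm_of_mem {a b : ℤ} {x y : Cb s} (hx : x ∈ Deg s a) (hy : y ∈ Deg s b) :
    x * y = (-1 : ZMod 3) ^ (a * b) • (y * x) := by
  induction hx, hy using Submodule.span_induction₂ with
  | mem_mem x y hx hy =>
    obtain ⟨l, rfl, rfl⟩ := hx
    obtain ⟨l', rfl, rfl⟩ := hy
    induction l with
    | nil => simp
    | cons c l ih =>
      rw [List.map_cons, List.prod_cons, List.map_cons, List.sum_cons, mul_assoc, ih,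
        mul_smul_comm, ← mul_assoc, gen_comm, smul_mul_assoc, smul_smul, add_mul,
        zpow_add₀ (by decide), mul_comm (_ ^ _ : ZMod 3), mul_assoc (List.map gen l').prod]
  | zero_left => simp
  | zero_right => simp
  | add_left x y z _ _ _ h h' => rw [add_mul, mul_add, h, h', smul_add]
  | add_right x y z _ _ _ h h' => rw [add_mul, mul_add, h, h', smul_add]
  | smul_left r x y _ _ h => rw [smul_mul_assoc, mul_smul_comm, h, smul_comm]
  | smul_right r x y _ _ h => rw [smul_mul_assoc, mul_smul_comm, h, smul_comm]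

/-- the coface `j` of the cobar construction: the algebra map with the values `img j` -/
noncomputable def face (s j : ℕ) : Cb s →ₐ[ZMod 3] Cb (s + 1) :=
  RingQuot.liftAlgHom (ZMod 3) ⟨FreeAlgebra.lift (ZMod 3) (img j), by
    rintro _ _ ⟨a, b⟩
    rw [map_smul, map_mul, map_mul, FreeAlgebra.lift_ι_apply, FreeAlgebra.lift_ι_apply]
    exact comm_of_mem (img_mem j a) (img_mem j b)⟩

/-- the cobar differential: the alternating sum of the cofaces -/
noncomputable def dC (s : ℕ) : Cb s →ₗ[ZMod 3] Cb (s + 1) :=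
  ∑ j ∈ range (s + 2), (-1 : ZMod 3) ^ j • (face s j).toLinearMap

/-- the cocycles of the cobar complex in the bidegree `(s, t)` -/
noncomputable def Zc (s : ℕ) (t : ℤ) : Submodule (ZMod 3) (Cb s) := Deg s t ⊓ LinearMap.ker (dC s)

/-- the coboundaries of the cobar complex -/
noncomputable def Bc : ∀ s : ℕ, Submodule (ZMod 3) (Cb s)
  | 0 => ⊥
  | s + 1 => LinearMap.range (dC s)

/-- `Ext^{s,t}` over the Steenrod algebra: the cohomology of the cobar complex of its dual -/
abbrev Ext (s : ℕ) (t : ℤ) : Type := Zc s t ⧸ (Bc s).submoduleOf (Zc s t)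

/-- the cocycle `b_j = ∑_{0 < i < 3} (1 / 3) (3 choose i) [ξ_1 ^ (i 3 ^ j) | ξ_1 ^ ((3 - i) 3 ^ j)]` -/
noncomputable def bb (j : ℕ) : Cb 2 :=
  ∑ i ∈ Ioo 0 3, (Nat.choose 3 i / 3) • (xi 0 1 ^ (i * 3 ^ j) * xi 1 1 ^ ((3 - i) * 3 ^ j))

/-! ### The `E_2` term of an Adams tower -/

open CategoryTheory MonoidalCategory Vale.Agent.P251.St Vale.Agent.P251.St.SHCat
  Vale.Agent.P236Z.St Vale.Agent.P236K.St

variable {T : SHCat}

/-- the iterated suspension `Σ^s X` -/
abbrev susN (s : ℕ) (X : T.C) : T.C := sus^[s] X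

variable {H : T.C} {e : Hom T.one H} (A : AdamsTower e)

/-- the `d_1`-cocycles in `E_1^{s, n + s} = π_n (H ∧ X s)` -/
noncomputable def Z1 (s : ℕ) (n : ℤ) : AddSubgroup (Hom (sph T n) (ten H (A.X s))) :=
  (Preadditive.rightComp (sph T n) (d1 A s)).ker

/-- the `d_1`-boundaries: the classes whose suspension is `d_1` of a class of `π_{n+1}` -/
noncomputable def B1 : ∀ (s : ℕ) (n : ℤ), AddSubgroup (Hom (sph T n) (ten H (A.X s)))
  | 0, _ => ⊥
  | s + 1, n => (Preadditive.rightComp (sus (sph T n)) (d1 A s)).range.comap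
      (shiftFunctor T.C (1 : ℤ)).mapAddHom

/-- the term `E_2^{s, n + s}` of the Adams spectral sequence -/
abbrev E2 (s : ℕ) (n : ℤ) : Type := Z1 A s n ⧸ (B1 A s n).addSubgroupOf (Z1 A s n)

end Vale.Agent.N236
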