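import Vale.Agent.N236.Kun

/-!
# P236: the cobar complex computes the `E_2` term of the Adams spectral sequence
-/

open CategoryTheory MonoidalCategory MonObj Limits Pretriangulated

set_option backward.isDefEq.respectTransparency false

universe v u

namespace Vale.Agent.N236

section res

variable {C : Type u} [Category.{v} C] [Preadditive C]

/-- a resolution of `A 0` relative to a class `I` of injective objects -/
structure Res (I : C → Prop) (A : ℕ → C) (d : ∀ n, A n ⟶ A (n + 1)) : Prop where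
  sq : ∀ n, d n ≫ d (n + 1) = 0
  inj : ∀ n, I (A (n + 1))
  ex0 : ∀ E, I E → ∀ f : A 0 ⟶ E, ∃ g, d 0 ≫ g = f
  ex : ∀ n E, I E → ∀ f : A (n + 1) ⟶ E, d n ≫ f = 0 → ∃ g, d (n + 1) ≫ g = f

variable {I : C → Prop} {A B : ℕ → C} {d : ∀ n, A n ⟶ A (n + 1)} {d' : ∀ n, B n ⟶ B (n + 1)}
  (RA : Res I A d) (RB : Res I B d') (φ : ∀ n, A n ⟶ B n)
  (hφ : ∀ n, d n ≫ φ (n + 1) = φ n ≫ d' n) [IsIso (φ 0)]

include RA RB hφ

theorem Res.cmp (n : ℕ) : ∃ (ψ : B n ⟶ A n) (ψ' : B (n + 1) ⟶ A (n + 1)) (h : A (n + 1) ⟶ A n)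
    (h' : B (n + 1) ⟶ B n), d' n ≫ ψ' = ψ ≫ d n ∧
      d n ≫ (φ (n + 1) ≫ ψ' - 𝟙 _ - h ≫ d n) = 0 ∧ d' n ≫ (ψ' ≫ φ (n + 1) - 𝟙 _ - h' ≫ d' n) = 0 ∧
      (n = 0 → h = 0 ∧ h' = 0) := by
  induction n with
  | zero =>
    obtain ⟨ψ', h⟩ := RB.ex0 _ (RA.inj 0) (inv (φ 0) ≫ d 0)
    refine ⟨_, ψ', 0, 0, h, ?_, ?_, fun _ => ⟨rfl, rfl⟩⟩
    · simp [reassoc_of% hφ 0, h]
    · simp [reassoc_of% h, hφ 0]
  | succ n ih =>
    obtain ⟨ψ, ψ', h, h', h1, h2, h3, -⟩ := ih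
    obtain ⟨ψ'', h4⟩ := RB.ex n _ (RA.inj _) (ψ' ≫ d (n + 1)) (by
      rw [reassoc_of% h1, RA.sq, comp_zero])
    obtain ⟨k, hk⟩ := RA.ex n _ (RA.inj n) _ h2
    obtain ⟨k', hk'⟩ := RB.ex n _ (RB.inj n) _ h3
    refine ⟨ψ', ψ'', k, k', h4, ?_, ?_, fun h => absurd h n.succ_ne_zero⟩
    · simp [reassoc_of% hφ (n + 1), h4, reassoc_of% hk, RA.sq]
    · simp [reassoc_of% h4, hφ (n + 1), reassoc_of% hk', RB.sq]

theorem Res.inj_of {P : C} {n : ℕ} (x : P ⟶ A (n + 1)) (hx : x ≫ d (n + 1) = 0) (y : P ⟶ B n)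
    (hy : x ≫ φ (n + 1) = y ≫ d' n) (h0 : n = 0 → y = 0) :
    ∃ z, x = z ≫ d n ∧ (n = 0 → z = 0) := by
  obtain ⟨ψ, ψ', h, h', h1, h2, -, h3⟩ := RA.cmp RB φ hφ n
  obtain ⟨k, hk⟩ := RA.ex n _ (RA.inj n) _ h2
  have h4 := congrArg (x ≫ ·) hk
  simp only [reassoc_of% hx, zero_comp, Preadditive.comp_sub, reassoc_of% hy, h1,
    Category.comp_id] at h4
  refine ⟨y ≫ ψ - x ≫ h, ?_, fun hn => by rw [h0 hn, (h3 hn).1, zero_comp, comp_zero, sub_zero]⟩
  rw [Preadditive.sub_comp, Category.assoc, Category.assoc, ← sub_eq_zero, ← neg_eq_zero, h4]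
  abel

theorem Res.surj_of {P : C} {n : ℕ} (y : P ⟶ B (n + 1)) (hy : y ≫ d' (n + 1) = 0) :
    ∃ x z, x ≫ d (n + 1) = 0 ∧ x ≫ φ (n + 1) - y = z ≫ d' n ∧ (n = 0 → z = 0) := by
  obtain ⟨ψ, ψ', h, h', h1, -, h2, h3⟩ := RA.cmp RB φ hφ n
  obtain ⟨k, hk⟩ := RB.ex n _ (RB.inj n) _ h2
  obtain ⟨ψ'', h4⟩ := RB.ex n _ (RA.inj _) (ψ' ≫ d (n + 1)) (by
    rw [reassoc_of% h1, RA.sq, comp_zero])
  have h5 := congrArg (y ≫ ·) hk
  simp only [reassoc_of% hy, zero_comp, Preadditive.comp_sub, Category.comp_id] at h5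
  refine ⟨y ≫ ψ', y ≫ h', by rw [Category.assoc, ← h4, reassoc_of% hy, zero_comp], ?_,
    fun hn => by rw [(h3 hn).2, comp_zero]⟩
  rw [Category.assoc, Category.assoc, ← sub_eq_zero, h5]

end res

theorem exists_quot {M N : Type*} [AddCommGroup M] [AddCommGroup N] (K : AddSubgroup M)
    (L : AddSubgroup N) (F : M →+ N) (h : ∀ m, F m ∈ L ↔ m ∈ K) (h' : ∀ n, ∃ m, F m - n ∈ L) :
    ∃ e : M ⧸ K ≃+ N ⧸ L, ∀ m : M, e m = F m := by
  refine ⟨AddEquiv.ofBijective (QuotientAddGroup.map K L F fun m hm => (h m).2 hm) ⟨?_, ?_⟩,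
    fun m => rfl⟩
  · refine (injective_iff_map_eq_zero _).2 fun x hx => ?_
    obtain ⟨m, rfl⟩ := QuotientAddGroup.mk_surjective x
    exact (QuotientAddGroup.eq_zero_iff m).2 ((h m).1 ((QuotientAddGroup.eq_zero_iff _).1 hx))
  · intro y
    obtain ⟨n, rfl⟩ := QuotientAddGroup.mk_surjective y
    obtain ⟨m, hm⟩ := h' n
    exact ⟨m, (QuotientAddGroup.eq_iff_sub_mem).2 hm⟩

open Vale.Agent.P251 Vale.Agent.P251.S Vale.Agent.P251.St Vale.Agent.P251.St.SHCat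
  Vale.Agent.P236Z Vale.Agent.P236Z.St Vale.Agent.P236K.St PI

variable {T : SHCat}

theorem susM_id : ∀ (s : ℕ) (X : T.C), susM s (𝟙 X) = 𝟙 _
  | 0, _ => rfl
  | s + 1, X => (congrArg (susM s) ((shiftFunctor T.C (1 : ℤ)).map_id X)).trans (susM_id s _)

theorem susM_comp : ∀ (s : ℕ) {X Y Z : T.C} (f : X ⟶ Y) (g : Y ⟶ Z),
    susM s (f ≫ g) = susM s f ≫ susM s g
  | 0, _, _, _, _, _ => rfl
  | s + 1, _, _, _, f, g =>
    (congrArg (susM s) ((shiftFunctor T.C (1 : ℤ)).map_comp f g)).trans (susM_comp s _ _)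

theorem susM_add : ∀ (s : ℕ) {X Y : T.C} (f g : X ⟶ Y), susM s (f + g) = susM s f + susM s g
  | 0, _, _, _, _ => rfl
  | s + 1, _, _, _, _ =>
    (congrArg (susM s) (shiftFunctor T.C (1 : ℤ)).map_add).trans (susM_add s _ _)

theorem susM_bij : ∀ (s : ℕ) (X Y : T.C), Function.Bijective (susM s : (X ⟶ Y) → _)
  | 0, _, _ => Function.bijective_id
  | s + 1, _, _ => (susM_bij s _ _).comp
    ⟨(shiftFunctor T.C (1 : ℤ)).map_injective, (shiftFunctor T.C (1 : ℤ)).map_surjective⟩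

/-- the iterated suspension as an isomorphism of groups -/
noncomputable def susE (s : ℕ) (X Y : T.C) : (X ⟶ Y) ≃+ (susN s X ⟶ susN s Y) :=
  AddEquiv.ofBijective (AddMonoidHom.mk' (susM s) (susM_add s)) (susM_bij s X Y)

theorem susM_zero (s : ℕ) (X Y : T.C) : susM s (0 : X ⟶ Y) = 0 := (susE s X Y).map_zero

theorem susM_neg (s : ℕ) {X Y : T.C} (f : X ⟶ Y) : susM s (-f) = -susM s f := (susE s X Y).map_neg f

instance (s : ℕ) {X Y : T.C} (f : X ⟶ Y) [IsIso f] : IsIso (susM s f : susN s X ⟶ susN s Y) :=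
  ⟨susM s (inv f), by rw [← susM_comp, IsIso.hom_inv_id, susM_id],
    by rw [← susM_comp, IsIso.inv_hom_id, susM_id]⟩

/-- the suspensions of the spheres -/
noncomputable def susSph (T : SHCat) : ∀ (s : ℕ) (n : ℤ), susN s (sph T n) ≅ sph T (n + s)
  | 0, n => eqToIso (congrArg (sph T) (by simp))
  | s + 1, n => asIso (susM s ((shiftFunctorAdd' T.C n 1 (n + 1) rfl).inv.app _)) ≪≫
    susSph T s (n + 1) ≪≫ eqToIso (congrArg (sph T) (by push_cast; ring))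

theorem sus_ex : ∀ (s : ℕ) {X Y Z : T.C} {f : X ⟶ Y} {g : Y ⟶ Z} {h : Z ⟶ X⟦(1 : ℤ)⟧},
    H.Dist f g h → ∀ {E : T.C} (a : susN s Y ⟶ E), susM s f ≫ a = 0 → ∃ b, susM s g ≫ b = a
  | 0, _, _, _, _, _, _, D, _, a, ha => D.desc₂ a ha
  | s + 1, _, _, _, _, _, _, D, _, a, ha => by
    obtain ⟨b, hb⟩ := sus_ex s D.rot.rot.rot a (by
      rw [susM_neg, Preadditive.neg_comp, neg_eq_zero]; exact ha)
    exact ⟨-b, by rw [← hb, susM_neg, Preadditive.neg_comp, Preadditive.comp_neg]; rfl⟩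

variable {H : T.C} [MonObj H]

instance isIso_exchN : ∀ (s : ℕ) (Y : T.C), IsIso (exchN H s Y : H ⊗ _ ⟶ _)
  | 0, _ => inferInstanceAs (IsIso (𝟙 _))
  | s + 1, Y => by
    have := isIso_exchN s (sus Y)
    change IsIso (exchN H s (sus Y) ≫ susM s (P236K.St.exch H Y))
    rw [exch_eq]
    infer_instance

theorem hur_unitMap (X : T.C) : hur η[H] X = unitMap H X := Top.hur_eq X

theorem unit_exchN : ∀ (s : ℕ) (Y : T.C),
    unitMap H (susN s Y) ≫ exchN H s Y = susM s (unitMap H Y)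
  | 0, _ => Category.comp_id _
  | s + 1, Y => by
    change _ ≫ _ ≫ _ = susM s _
    rw [← unitMap_csh, ← exch_eq, susM_comp, ← unit_exchN s, Category.assoc]
    rfl

variable (H) in
/-- the injective objects -/
def Inj (E : T.C) : Prop := ∀ (Y : T.C) (f : Y ⟶ E), ∃ g, unitMap H Y ≫ g = f

theorem inj_ten (Z : T.C) : Inj H (H ⊗ Z) := fun Y f =>
  ⟨H ◁ f ≫ mulMap H Z, by rw [← unitMap_nat_assoc, unitMap_mulMap, Category.comp_id]⟩

theorem Inj.iso {E E' : T.C} (h : Inj H E) (i : E ⟶ E') [IsIso i] : Inj H E' := fun Y f => by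
  obtain ⟨g, hg⟩ := h Y (f ≫ inv i)
  exact ⟨g ≫ i, by rw [reassoc_of% hg, IsIso.inv_hom_id, Category.comp_id]⟩

theorem Inj.ext {E Y : T.C} (h : Inj H E) (s : ℕ) (f : susN s Y ⟶ E) :
    ∃ g, susM s (unitMap H Y) ≫ g = f := by
  obtain ⟨g, hg⟩ := h _ f
  exact ⟨inv (exchN H s Y) ≫ g, by rw [← unit_exchN, Category.assoc, IsIso.hom_inv_id_assoc, hg]⟩

variable (H) in
/-- the differential of the cobar construction -/
noncomputable def dT (s : ℕ) : pw H s ⟶ pw H (s + 1) :=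
  ∑ j ∈ Finset.range (s + 2), (-1 : ℤ) ^ j • cf η[H] s j

variable (H) in
/-- the augmented cobar construction -/
def AO : ℕ → T.C
  | 0 => 𝟙_ _
  | s + 1 => pw H s

variable (H) in
/-- the differential of the augmented cobar construction -/
noncomputable def dA : ∀ s, AO H s ⟶ AO H (s + 1)
  | 0 => η[H]
  | s + 1 => dT H s

theorem cf_zero (s : ℕ) : cf η[H] s 0 = unitMap H (pw H s) := by
  cases s <;> exact hur_unitMap _

theorem hur_symm {Y : T.C} (a : 𝟙_ T.C ⟶ Y) (X : T.C) :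
    comp (hur a X) (SHCat.symm Y X) = (ρ_ X).inv ≫ X ◁ a := by
  simp [hur]

theorem cf_one' (j : ℕ) : cf η[H] 0 (j + 1) = (ρ_ H).inv ≫ H ◁ η[H] := hur_symm _ _

theorem cf_succ (s j : ℕ) : cf η[H] (s + 1) (j + 1) = H ◁ cf η[H] s j := id_tensorHom _ _

omit [MonObj H] in
theorem pr_zero {e : Hom T.one H} (A : AdamsTower e) : pr A 0 = (ρ_ H).inv ≫ H ◁ A.base.inv :=
  hur_symm _ _

theorem eta_rho : η[H] ≫ (ρ_ H).inv = unitMap H (𝟙_ _) := (Iso.comp_inv_eq _).2 Tr.hur_unit.symm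

theorem dT_succ (s : ℕ) : dT H (s + 1) = @HSub.hSub (pw H (s + 1) ⟶ pw H (s + 1 + 1))
    (pw H (s + 1) ⟶ pw H (s + 1 + 1)) _ _ (unitMap H (pw H (s + 1))) (H ◁ dT H s) := by
  rw [dT, Finset.sum_range_succ', cf_zero, pow_zero, one_smul, add_comm (Finset.sum _ _),
    sub_eq_add_neg, dT]
  congr 1
  refine Eq.trans ?_ (congrArg _ (map_sum (tensorLeft H).mapAddHom _ _)).symm
  rw [← Finset.sum_neg_distrib]
  refine Finset.sum_congr rfl fun j _ => ?_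
  rw [map_zsmul, pow_succ, mul_neg_one, neg_smul, cf_succ]
  rfl

theorem dT_wl : ∀ (s : ℕ) {E : T.C} (f : pw H s ⟶ E), dA H s ≫ f = 0 →
    dT H s ≫ H ◁ f = f ≫ unitMap H E
  | 0, E, f, hf => by
    have h : dT H 0 = unitMap H H - (ρ_ H).inv ≫ H ◁ η[H] := by
      rw [dT, Finset.sum_range_succ, Finset.sum_range_one, cf_zero, cf_one' 0, pow_zero, one_smul,
        pow_one, neg_one_smul, sub_eq_add_neg]
      rfl
    rw [h, Preadditive.sub_comp, unitMap_nat, Category.assoc, ← MonoidalCategory.whiskerLeft_comp]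
    erw [hf]
    rw [MonoidalPreadditive.whiskerLeft_zero, comp_zero, sub_zero]
    rfl
  | s + 1, E, f, hf => by
    rw [dT_succ, Preadditive.sub_comp, unitMap_nat]
    erw [← MonoidalCategory.whiskerLeft_comp, hf]
    rw [MonoidalPreadditive.whiskerLeft_zero, sub_zero]

theorem resA : Res (Inj H) (AO H) (dA H) where
  sq n := by
    induction n with
    | zero =>
      change η[H] ≫ dT H 0 = 0
      rw [dT, Finset.sum_range_succ, Finset.sum_range_one, cf_zero, cf_one' 0, pow_zero, one_smul,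
        pow_one, neg_one_smul, Preadditive.comp_add, Preadditive.comp_neg, add_neg_eq_zero]
      change η[H] ≫ unitMap H H = η[H] ≫ (ρ_ H).inv ≫ H ◁ η[H]
      simp [unitMap]
    | succ n ih =>
      change dT H n ≫ dT H (n + 1) = 0
      rw [dT_succ, Preadditive.comp_sub, sub_eq_zero]
      exact (dT_wl n _ ih).symm
  inj n := n.rec ((inj_ten (𝟙_ _)).iso (ρ_ H).hom) fun _ _ => inj_ten _
  ex0 E hE f := by
    obtain ⟨g, hg⟩ := hE _ f
    exact ⟨(ρ_ H).inv ≫ g, ((reassoc_of% eta_rho) g).trans hg⟩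
  ex n E hE f hf := by
    obtain ⟨r, hr⟩ := hE _ (𝟙 E)
    exact ⟨H ◁ f ≫ r, ((reassoc_of% (dT_wl n f hf)) r).trans (by rw [hr, Category.comp_id])⟩

variable (A : AdamsTower η[H])

/-- the augmented `E_1` term -/
def BO : ℕ → T.C
  | 0 => A.X 0
  | s + 1 => susN s (H ⊗ A.X s)

/-- the connecting maps -/
def pB : ∀ s, BO A s ⟶ susN s (A.X s)
  | 0 => 𝟙 _
  | s + 1 => susM s (A.d s)

/-- the differential of the augmented `E_1` term -/
def dB (s : ℕ) : BO A s ⟶ BO A (s + 1) := pB A s ≫ susM s (unitMap H (A.X s))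

theorem dB_succ (s : ℕ) : dB A (s + 1) = susM s (d1 A s) := by
  rw [d1, hur_unitMap]
  exact (susM_comp s _ _).symm

theorem dB_pB (s : ℕ) : dB A s ≫ pB A (s + 1) = 0 := by
  rw [dB, Category.assoc]
  erw [← susM_comp, (Top.tower_dist A s).zero₂₃]
  rw [susM_zero, comp_zero]

theorem resB : Res (Inj H) (BO A) (dB A) where
  sq n := ((reassoc_of% dB_pB A n) _).trans zero_comp
  inj n := (inj_ten _).iso (exchN H n _)
  ex0 E hE f := by
    obtain ⟨g, hg⟩ := hE _ f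
    exact ⟨g, (congrArg (· ≫ g) (Category.id_comp _)).trans hg⟩
  ex n E hE f hf := by
    have h1 : susM n (unitMap H (A.X n)) ≫ f = 0 := by
      rw [dB, Category.assoc] at hf
      cases n with
      | zero => exact (Category.id_comp _).symm.trans hf
      | succ n =>
        obtain ⟨b, hb⟩ := sus_ex n (Top.tower_dist A n).rot.rot _ hf
        obtain ⟨c, rfl⟩ := hE.ext (Y := A.X n) (n + 1) b
        rw [← hb, susM_neg, Preadditive.neg_comp, neg_eq_zero]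
        erw [← Category.assoc, ← susM_comp (n + 1), (Top.tower_dist A n).zero₁₂]
        rw [susM_zero, zero_comp]
    obtain ⟨b, rfl⟩ := sus_ex n (Top.tower_dist A n).rot f h1
    obtain ⟨c, rfl⟩ := hE.ext (Y := A.X (n + 1)) (n + 1) b
    exact ⟨c, Category.assoc _ _ _⟩

/-- the comparison map -/
def phi : ∀ s, AO H s ⟶ BO A s
  | 0 => A.base.inv
  | s + 1 => pr A s

theorem phi_comm (s : ℕ) : dA H s ≫ phi A (s + 1) = phi A s ≫ dB A s := by
  induction s with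
  | zero =>
    change η[H] ≫ pr A 0 = A.base.inv ≫ 𝟙 _ ≫ unitMap H _
    rw [pr_zero]
    change η[H] ≫ (ρ_ H).inv ≫ H ◁ A.base.inv = _
    rw [Category.id_comp, unitMap_nat, reassoc_of% eta_rho]
  | succ s ih =>
    change dT H s ≫ (𝟙 H ⊗ₘ (pr A s ≫ susM s (A.d s))) ≫ exchN H (s + 1) _ = _
    rw [id_tensorHom, ← Category.assoc, dT_wl s _ (by
      erw [reassoc_of% ih, dB_pB]
      exact comp_zero), Category.assoc, Category.assoc]
    erw [unit_exchN (s + 1)]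
    rfl

instance : IsIso (phi A 0) := inferInstanceAs (IsIso A.base.inv)

theorem mem_Z1 {s : ℕ} {n : ℤ} {x : sph T n ⟶ H ⊗ A.X s} :
    x ∈ Z1 A s n ↔ susM s x ≫ dB A (s + 1) = 0 := by
  rw [dB_succ, ← susM_comp, ← susM_zero]
  exact (susM_bij s _ _).1.eq_iff.symm

theorem mem_B1 {s : ℕ} {n : ℤ} {x : sph T n ⟶ H ⊗ A.X s} :
    x ∈ B1 A s n ↔ ∃ y, susM s x = y ≫ dB A s ∧ (s = 0 → y = 0) := by
  cases s with
  | zero => exact ⟨fun h => ⟨0, h.trans zero_comp.symm, fun _ => rfl⟩,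
      fun ⟨y, h, h'⟩ => h.trans (by rw [h' rfl, zero_comp])⟩
  | succ s =>
    rw [dB_succ]
    refine ⟨fun ⟨y, h⟩ => ⟨susM s y, (congrArg (susM s) h.symm).trans (susM_comp s _ _),
      fun h => absurd h s.succ_ne_zero⟩, fun ⟨y, h, _⟩ => ?_⟩
    obtain ⟨y, rfl⟩ := (susM_bij s _ _).2 y
    exact ⟨y, (susM_bij s _ _).1 ((susM_comp s _ _).trans h.symm)⟩

theorem bd_of_B1 {n : ℤ} {x : sph T n ⟶ H ⊗ A.X 2} (h : x ∈ B1 A 2 n) :
    A.IsBoundary 2 x ∧ x ≫ A.d 2 = 0 := by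
  obtain ⟨y, hy⟩ := h
  obtain ⟨w, hw⟩ := (shiftFunctor T.C (1 : ℤ)).map_surjective (y ≫ A.d 1)
  have h1 : w ≫ hur η[H] (A.X 2) = x := (shiftFunctor T.C (1 : ℤ)).map_injective (by
    rw [Functor.map_comp, hw, Category.assoc]
    exact hy)
  have h2 : w ≫ A.g 1 = 0 := (shiftFunctor T.C (1 : ℤ)).map_injective (by
    rw [Functor.map_comp, hw, Category.assoc, (Top.tower_dist A 1).zero₃₁, comp_zero,
      Functor.map_zero])
  refine ⟨⟨w, ((reassoc_of% h2) _).trans zero_comp, h1⟩, ?_⟩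
  rw [← h1, Category.assoc, Top.hur_eq, (Top.tower_dist A 2).zero₂₃, comp_zero]

theorem bd_add {n : ℤ} {x y : sph T n ⟶ H ⊗ A.X 2} (m : ℤ) (h : A.IsBoundary 2 x)
    (h' : A.IsBoundary 2 y) : A.IsBoundary 2 (x + m • y) := by
  obtain ⟨a, ha, rfl⟩ := h
  obtain ⟨b, hb, rfl⟩ := h'
  refine ⟨a + m • b, ?_, ?_⟩
  · change (a + m • b) ≫ _ = 0
    rw [Preadditive.add_comp, Preadditive.zsmul_comp]
    exact (congrArg₂ (· + m • ·) ha hb).trans (by rw [smul_zero, add_zero])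
  · change (a + m • b) ≫ _ = _
    rw [Preadditive.add_comp, Preadditive.zsmul_comp]

theorem survives_of {n : ℤ} {x b : sph T n ⟶ H ⊗ A.X 2} (h : x - b ∈ B1 A 2 n)
    (hb : Survives A b) : Survives A x := by
  obtain ⟨h1, h2⟩ := bd_of_B1 A h
  rw [Preadditive.sub_comp, sub_eq_zero] at h2
  refine ⟨fun r => (hb.1 r).imp fun z hz => hz.trans h2.symm, fun h3 => hb.2 ?_⟩
  have h4 := bd_add A (-1) h3 h1
  rwa [neg_one_smul, neg_sub, add_sub_cancel] at h4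

theorem detects_of {n : ℤ} {x b : sph T n ⟶ H ⊗ A.X 2} (h : x - b ∈ B1 A 2 n) {θ}
    (hb : Detects A b θ) : Detects A x θ := by
  obtain ⟨h1, w, c, h2, h3, h4⟩ := hb
  refine ⟨h1, w, c, h2, h3, ?_⟩
  have h5 := bd_add A (-c) h4 (bd_of_B1 A h).1
  rwa [neg_smul, smul_sub, neg_sub, sub_add_sub_cancel] at h5

variable (Ψ : ∀ s, Cb s →+ PI (pw H s)) (hb : ∀ s, Function.Bijective (Ψ s))
  (hd : ∀ s t z, z ∈ Deg s t → Ψ s z ∈ Dg _ t)
  (hf : ∀ s j z, j ≤ s + 1 → Ψ (s + 1) (face s j z) = pf (cf η[H] s j) (Ψ s z))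

include hb hd in
theorem exists_deg (s : ℕ) (t : ℤ) (a : sph T t ⟶ pw H s) : ∃ z ∈ Deg s t, co t (Ψ s z) = a := by
  obtain ⟨z, hz⟩ := (hb s).2 (ofd t a)
  rw [← co_of t a, ← hz]
  clear hz
  induction z using Cb.hind with
  | h0 => exact ⟨0, zero_mem _, rfl⟩
  | h1 t' x hx =>
    by_cases h : t = t'
    · exact ⟨x, h ▸ hx, rfl⟩
    · exact ⟨0, zero_mem _, by rw [map_zero, map_zero, co_ne (hd _ _ _ hx) h]⟩
  | ha x y h h' =>
    obtain ⟨a, ha, h⟩ := h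
    obtain ⟨b, hb, h'⟩ := h'
    exact ⟨a + b, add_mem ha hb, by simp only [map_add, h, h']⟩

include hb hd in
theorem co_inj {s : ℕ} {t : ℤ} {z : Cb s} (hz : z ∈ Deg s t) (h : co t (Ψ s z) = 0) : z = 0 :=
  (hb s).1 (by rw [← of_co (hd _ _ _ hz), h, map_zero, map_zero])

include hf in
theorem co_dC (s : ℕ) (t : ℤ) (z : Cb s) :
    co t (Ψ (s + 1) (dC s z)) = co t (Ψ s z) ≫ dT H s := by
  rw [dC, dT, LinearMap.sum_apply, map_sum, map_sum, Preadditive.comp_sum]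
  refine Finset.sum_congr rfl fun j hj => ?_
  rw [LinearMap.smul_apply, Preadditive.comp_zsmul, ← co_pf,
    ← hf s j z (Nat.lt_succ_iff.1 (Finset.mem_range.1 hj)), ← map_zsmul, ← map_zsmul,
    ← Int.cast_smul_eq_zsmul F3]
  simp

theorem dC_mem {s : ℕ} {t : ℤ} {z : Cb s} (hz : z ∈ Deg s t) : dC s z ∈ Deg (s + 1) t := by
  rw [dC, LinearMap.sum_apply]
  exact sum_mem fun j _ => Submodule.smul_mem _ _ (face_mem j hz)

include hb hd hf in
theorem exists_e2 (s : ℕ) (n : ℤ) : ∃ e : Ext s (n + s) ≃+ E2 A s n, ∀ z : Zc s (n + s),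
    ∃ x : Z1 A s n, susM s x.1 = (susSph T s n).hom ≫ co (n + s) (Ψ s z) ≫ pr A s ∧
      e (Submodule.Quotient.mk z) = x := by
  let c := susSph T s n
  let G : Cb s →+ (susN s (sph T n) ⟶ AO H (s + 1)) :=
    (Preadditive.leftComp _ c.hom).comp ((co (n + s)).comp (Ψ s))
  have hG : ∀ z, G z = c.hom ≫ co (n + s) (Ψ s z) := fun _ => rfl
  have hZ : ∀ z ∈ Deg s (n + s), G z ≫ dA H (s + 1) = 0 ↔ dC s z = 0 := fun z hz => by
    rw [hG, Category.assoc]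
    erw [← co_dC Ψ hf]
    exact ⟨fun h => co_inj Ψ hb hd (dC_mem hz) ((cancel_epi c.hom).1 (h.trans comp_zero.symm)),
      fun h => by rw [h, map_zero, map_zero, comp_zero]⟩
  have hB : ∀ z ∈ Deg s (n + s), (∃ y, G z = y ≫ dA H s ∧ (s = 0 → y = 0)) ↔ z ∈ Bc s := by
    intro z hz
    cases s with
    | zero => exact ⟨fun ⟨y, h, h'⟩ => co_inj Ψ hb hd hz ((cancel_epi c.hom).1
        (h.trans (by rw [h' rfl, zero_comp, comp_zero]))), fun h => ⟨0, by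
          rw [(Submodule.mem_bot _).1 h, map_zero, zero_comp], fun _ => rfl⟩⟩
    | succ s =>
      refine ⟨fun ⟨y, h, _⟩ => ?_, fun ⟨w, h⟩ => ⟨c.hom ≫ co _ (Ψ s w), ?_,
        fun h => absurd h s.succ_ne_zero⟩⟩
      · obtain ⟨w, hw, h1⟩ := exists_deg Ψ hb hd s _ (c.inv ≫ y)
        refine ⟨w, sub_eq_zero.1 (co_inj Ψ hb hd (sub_mem (dC_mem hw) hz) ?_)⟩
        rw [map_sub, map_sub, co_dC Ψ hf, h1, sub_eq_zero, Category.assoc, Iso.inv_comp_eq]
        exact h.symm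
      · rw [hG, ← h, co_dC Ψ hf, Category.assoc]
        rfl
  let F₀ : Zc s (n + s) →+ (sph T n ⟶ H ⊗ A.X s) := (susE s _ _).symm.toAddMonoidHom.comp
    ((Preadditive.rightComp _ (phi A (s + 1))).comp (G.comp (Zc s (n + s)).subtype.toAddMonoidHom))
  have hF : ∀ z, susM s (F₀ z) = G z ≫ phi A (s + 1) := fun z => (susE s _ _).apply_symm_apply _
  let F : Zc s (n + s) →+ Z1 A s n := F₀.codRestrict _ fun z => (mem_Z1 A).2 (by
    rw [hF, Category.assoc, ← phi_comm, reassoc_of% (hZ _ z.2.1).2 z.2.2, zero_comp])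
  obtain ⟨e, he⟩ := exists_quot ((Bc s).submoduleOf (Zc s (n + s))).toAddSubgroup
    ((B1 A s n).addSubgroupOf (Z1 A s n)) F (fun z => by
      refine (mem_B1 A).trans (Iff.trans ?_ (hB _ z.2.1))
      erw [hF]
      refine ⟨fun ⟨y, h, h'⟩ => resA.inj_of (resB A) _ (phi_comm A) _ ((hZ _ z.2.1).2 z.2.2) y h h',
        fun ⟨y, h, h'⟩ => ⟨y ≫ phi A s, ?_, fun h => by rw [h' h, zero_comp]⟩⟩
      erw [h]
      rw [Category.assoc, Category.assoc, phi_comm]) fun x => by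
      obtain ⟨a, y, h1, h2, h3⟩ := resA.surj_of (resB A) _ (phi_comm A) _ ((mem_Z1 A).1 x.2)
      obtain ⟨w, hw, h4⟩ := exists_deg Ψ hb hd s _ (c.inv ≫ a)
      have h5 : G w = a := by rw [hG, h4, Iso.hom_inv_id_assoc]
      subst h5
      refine ⟨⟨w, hw, (hZ w hw).1 h1⟩, (mem_B1 A).2 ⟨y, Eq.trans ?_ h2, h3⟩⟩
      exact ((susE s _ _).map_sub _ _).trans (congrArg (· - _) (hF _))
  exact ⟨e, fun z => ⟨F z, (hF z).trans (Category.assoc _ _ _), he z⟩⟩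

end Vale.Agent.N236
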