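import Vale.Agent.N236.Tau

/-!
# P236: the classes `ξ_i` and `τ_i` generate the homotopy ring of `H ⊗ H`
-/

open CategoryTheory MonoidalCategory MonObj Limits Pretriangulated Finset

set_option linter.unusedSectionVars false

universe u

namespace Vale.Agent.N236

open Vale.Agent.P251 Vale.Agent.P251.S Vale.Agent.P251.T Vale.Agent.P251.M Vale.Agent.P251.F
  Vale.Agent.P251.I Vale.Agent.P251.H Vale.Agent.P257.H80 Vale.Agent.P236K.St5
  Vale.Agent.P236K.St Vale.Agent.P236Z Vale.Agent.P217 PI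

variable {T : Type u} [Category.{0} T] [Preadditive T] [HasZeroObject T]
    [HasShift T ℤ] [∀ n : ℤ, (shiftFunctor T n).Additive] [Pretriangulated T] [IsTriangulated T]
    [MonoidalCategory T] [SymmetricCategory T] [TensorTriangulated T] [MonoidalClosed T]
    [HasCoproducts.{0} T] [HasProducts.{0} T] [StableCat T] [LocallySmall.{0} T]

variable {H : T} [MonObj H] [IsCommMonObj H] (S : Subring (PI (H ⊗ H)))

/-- the image of the homology of `Y` lies in `S` -/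
def GG {Y : T} (κ : Y ⟶ H) : Prop := ∀ x : PI (H ⊗ Y), pf (H ◁ κ) x ∈ S

variable {S}

theorem GG.comp {Y Y' : T} {κ : Y ⟶ H} (h : GG S κ) (s : Y' ⟶ Y) : GG S (s ≫ κ) := fun x => by
  rw [MonoidalCategory.whiskerLeft_comp, ← pf_pf]
  exact h _

theorem tmu_mul {Y Y' : T} (κ : Y ⟶ H) (κ' : Y' ⟶ H) :
    tensorμ H Y H Y' ≫ (μ[H] ⊗ₘ ((κ ⊗ₘ κ') ≫ μ[H])) = (H ◁ κ ⊗ₘ H ◁ κ') ≫ μ[H ⊗ H] := by
  change _ = _ ≫ tensorμ H H H H ≫ (μ[H] ⊗ₘ μ[H])
  rw [← id_tensorHom, ← id_tensorHom, tensorμ_natural_assoc, tensorHom_comp_tensorHom,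
    id_tensorHom_id, Category.id_comp]

theorem GG.tensor (hH : Tr.IsHF 3 η[H]) {Y Y' : T} {κ : Y ⟶ H} {κ' : Y' ⟶ H} (h : GG S κ)
    (h' : GG S κ') : GG S ((κ ⊗ₘ κ') ≫ μ[H]) := fun z => by
  let i : Y ⊗ (H ⊗ Y') ≅ H ⊗ (Y ⊗ Y') := (α_ _ _ _).symm ≪≫ whiskerRightIso (β_ Y H) Y' ≪≫ α_ _ _ _
  obtain ⟨z, rfl⟩ := (map_bij i.hom).2 z
  rw [pf_pf]
  refine kun_ind hH _ (unitMap_mulMap Y') (S.toAddSubgroup.comap (pf _)) (fun x w => ?_) z
  have h1 : (α_ Y H (H ⊗ Y')).hom ≫ Y ◁ mulMap H Y' ≫ i.hom =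
      (β_ Y H).hom ▷ (H ⊗ Y') ≫ tensorμ H Y H Y' ≫ μ[H] ▷ (Y ⊗ Y') := by
    simp only [i, mulMap, Iso.trans_hom, Iso.symm_hom, whiskerRightIso_hom, Category.assoc,
      MonoidalCategory.whiskerLeft_comp, associator_inv_naturality_middle_assoc]
    rw [← comp_whiskerRight_assoc, BraidedCategory.braiding_naturality_right,
      BraidedCategory.braiding_tensor_right_hom, tensorμ]
    monoidal
  rw [AddSubgroup.mem_comap, kx, AddMonoidHom.compr₂_apply, pf_pf, Category.assoc, reassoc_of% h1,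
    ← MonoidalCategory.tensorHom_def, tmu_mul, ← pf_pf, ← xp_left, ← pf_pf, ← xp_pf]
  exact S.mul_mem (h _) (h' _)

@[reassoc]
theorem e_nat {Y Z : T} (f : Y ⟶ Z) : (TensorTriangulated.e Y).hom ≫ f⟦(1 : ℤ)⟧' =
    f ▷ S1 T ≫ (TensorTriangulated.e Z).hom := (TensorTriangulated.e_naturality f).symm

theorem unit_tmu (R Y : T) : (H ⊗ R) ◁ unitMap H Y ≫ tensorμ H R H Y ≫ μ[H] ▷ (R ⊗ Y) =
    (α_ H R Y).hom := by
  rw [unitMap, MonoidalCategory.whiskerLeft_comp, Category.assoc, ← tensorHom_id η[H],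
    tensorμ_natural_right_assoc, MonoidalCategory.whiskerLeft_id, tensorHom_id,
    ← comp_whiskerRight, MonObj.mul_one, tensorμ, braiding_tensorUnit_right]
  monoidal

variable {C : T} {δ : H ⟶ C} {b : C ⟶ (𝟙_ T)⟦(1 : ℤ)⟧} (hC : P251.H.Dist η[H] δ b)
  {F : SpaceFunctor T} {e : F.S.obj CCF ≅ (stdEven T).L} {D : MUData T}
  (hU : MUUniv e D) (hH : Tr.IsHF 3 η[H]) (u : D.R ⟶ H) [IsMonHom u]

theorem cell_R (D : MUData T) : BigCell T 0 D.R := by
  obtain ⟨J, ρ, d, hJ⟩ := exists_cone η[D.R]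
  exact BigCell.ext _ hJ (BigCell.of_iso ((shiftFunctorZero T ℤ).app (𝟙_ T))
    (BigCell.sphere 0 le_rfl)) ((D.conn J ρ d hJ).mono (by norm_num))

include hU hH

theorem gg_base (hS : ∀ n, XI u (inlM H H) (inrM H H) n ∈ S) : GG S u := fun x => by
  have h3 := three_ring (three_hom (inlM H H) (BD.three_H hH))
  have h1 : InvSeries.map (HRing.map (H ◁ u)) (ser (u ≫ inlM H D.R) (inrM H D.R)) =
      ser (u ≫ inlM H H) (u ≫ inrM H H) := by
    rw [← ser_comp]
    exact ser_congr _ _ (by rw [Category.assoc, inlM_whiskerLeft]) (inrM_whiskerLeft _)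
  induction x using PI.ind with
  | h0 => rw [map_zero]; exact zero_mem _
  | ha x y h h' => rw [map_add]; exact add_mem h h'
  | h1 k a =>
    rcases Int.even_or_odd' k with ⟨w, rfl | rfl⟩
    · obtain ⟨a, ha⟩ := exists_el (fe T w) (el_mem (fr T _) a)
      obtain ⟨t, y, h⟩ := exists_exp hU u w a
      rw [← ha, ← io_of, h, map_io, map_sum, map_sum]
      refine sum_mem fun j _ => ?_
      obtain ⟨m, hm⟩ := pi_H hH (io (HRing.of (stdEven T) H _ (y j)))
      rw [map_mul, map_mul, map_map_eq (inlM_whiskerLeft u), ← map_io (inlM H H), hm, map_zsmul,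
        pf_one, map_finsuppProd]
      refine mul_mem (Subring.mem_comap.1 (prod_mem fun i _ => ?_)) (zsmul_mem (one_mem _) _)
      beta_reduce
      rw [map_pow, ← InvSeries.c_map, h1]
      refine pow_mem ?_ _
      by_cases hi : ∃ n, i + 1 + 1 = 3 ^ n
      · obtain ⟨n, hn⟩ := hi
        rw [InvSeries.c, hn]
        exact hS n
      · rw [InvSeries.c, (add_iff h3 _).1 (ser_add hU hH u _ _) _ fun n hn => hi ⟨n, hn⟩]
        exact zero_mem _
    · rw [oddR hU hH u w a, map_zero, map_zero]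
      exact zero_mem _

include hC

theorem gg_step {Z : T} {w : ℤ} (hw : 0 ≤ w) (G : FF (2 * w) Z) (v : Z ⟶ D.R)
    (hv : v ≫ unitMap H D.R = 0) {C' : T} {q : D.R ⟶ C'} {d : C' ⟶ (D.R ⊗ Z)⟦(1 : ℤ)⟧}
    (hC' : P251.H.Dist (D.R ◁ v ≫ μ[D.R]) q d) {κ : C' ⟶ H} (hκ : q ≫ κ = u) (hR : GG S u)
    (hS : DD b (th δ (inlM H H) (inrM H H)) (u ≫ inrM H H) (el G v) ∈ S) : GG S κ := by
  have cZ : BigCell T 0 Z := BigCell.of_iso (frIso (fr T _) G rfl) (BigCell.sphere _ (by omega))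
  have cR := cell_R D
  obtain ⟨a, ha, ha'⟩ := Dist.map₃ (tens_dist D.R hC') hC' (mulMap D.R Z) μ[D.R] (by
    rw [mulMap, MonoidalCategory.whiskerLeft_comp, Category.assoc, Category.assoc,
      ← whisker_exchange_assoc, MonObj.mul_assoc]
    simp)
  have ha1 : a ≫ κ = (u ⊗ₘ κ) ≫ μ[H] := by
    obtain ⟨c, hc⟩ := Dist.desc₃ (tens_dist D.R hC') (a ≫ κ - (u ⊗ₘ κ) ≫ μ[H]) (by
      rw [Preadditive.comp_sub, reassoc_of% ha, hκ, IsMonHom.mul_hom, ← id_tensorHom,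
        tensorHom_comp_tensorHom_assoc, hκ, Category.id_comp, sub_self])
    rw [← sub_eq_zero, ← hc, P251.X.eq_zero_of_bigCell hH.conc
      ((cR.tensor (cR.tensor cZ 0 rfl) 0 rfl).shift 1 1 rfl) c, comp_zero]
  have ha2 : a ≫ P251.X.bdry d = D.R ◁ P251.X.bdry d ≫ mulMap D.R (Z ⊗ S1 T) := by
    rw [P251.X.tensδ_bdry] at ha'
    simp only [Category.assoc] at ha'
    rw [P251.X.bdry, ← reassoc_of% ha', e_nat_assoc,
      Iso.hom_inv_id_assoc, mulMap, mulMap]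
    congr 1
    monoidal
  obtain ⟨V, i, p, hV⟩ := exists_cone v
  have hp : ∀ {N : T}, Ij H N → ∀ {x y : Z⟦(1 : ℤ)⟧ ⟶ N}, p ≫ x = p ≫ y → x = y := by
    intro N hN x y h
    obtain ⟨c, hc⟩ := hV.desc₁ (x - y) (by rw [Preadditive.comp_sub, h, sub_self])
    rw [← sub_eq_zero, ← hc]
    refine hN.kill ?_ c
    rw [← cancel_mono (csh H 1 _).hom, Category.assoc, unitMap_csh, ← Functor.map_comp, hv,
      Functor.map_zero, zero_comp]
  obtain ⟨n₀, hn⟩ := hV.desc₂ _ hv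
  obtain ⟨z, hz, hz'⟩ := hV.rot.map₃ (distX hC D.R) (𝟙 _) n₀ (by rw [hn, Category.id_comp])
  obtain ⟨j, hj, hj'⟩ := hV.map₃ hC' (unitMap D.R Z) (𝟙 _) (by
    rw [← unitMap_nat_assoc, unitMap, Category.assoc, MonObj.one_mul, Iso.inv_hom_id])
  rw [Category.id_comp] at hj
  obtain ⟨t, ht⟩ := hV.desc₃ (j ≫ unitMap H C' - n₀ ≫ H ◁ q) (by
    rw [Preadditive.comp_sub, reassoc_of% hj, reassoc_of% hn, unitMap_nat, sub_self])
  have hA : t ≫ H ◁ d = (unitMap D.R Z)⟦(1 : ℤ)⟧' ≫ unitMap H _ := hp (ij_ten _) (by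
    rw [reassoc_of% ht, Preadditive.sub_comp, Category.assoc, Category.assoc, ← unitMap_nat,
      ← MonoidalCategory.whiskerLeft_comp, hC'.zero₂₃, MonoidalPreadditive.whiskerLeft_zero,
      comp_zero, sub_zero, reassoc_of% hj'])
  have hB : t ≫ H ◁ κ = z ≫ (th δ (inlM H H) (inrM H H) ⊗ₘ (u ≫ inrM H H)) ≫ μ[H ⊗ H] := by
    have h1 : j ≫ κ = n₀ ≫ descM (𝟙 H) u := by
      obtain ⟨c, hc⟩ := hV.desc₃ (j ≫ κ - n₀ ≫ descM (𝟙 H) u) (by
        rw [Preadditive.comp_sub, reassoc_of% hj, reassoc_of% hn, hκ, sub_eq_zero]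
        exact (inrM_descM _ _).symm)
      rw [← sub_eq_zero, ← hc, P251.X.eq_zero_of_bigCell hH.conc (cZ.shift 1 1 rfl) c, comp_zero]
    refine hp (ij_ten _) ?_
    rw [reassoc_of% ht, reassoc_of% hz, Preadditive.sub_comp, Category.assoc, Category.assoc,
      ← unitMap_nat, ← MonoidalCategory.whiskerLeft_comp, hκ, reassoc_of% h1,
      ← Preadditive.comp_sub, ← tensorHom_id, tensorHom_comp_tensorHom_assoc, th_spec hC,
      Category.id_comp]
    have h2 : (inrM H H - inlM H H) ▷ D.R = inrM H H ▷ D.R - inlM H H ▷ D.R :=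
      (tensorRight D.R).map_sub
    have h3 : descM (𝟙 H) u ≫ inrM H H = descM (inrM H H) (u ≫ inrM H H) := hom_ext_tensor
      (by rw [inlM_descM_assoc, inlM_descM, Category.id_comp])
      (by rw [inrM_descM_assoc, inrM_descM])
    have h4 : H ◁ u = descM (inlM H H) (u ≫ inrM H H) := hom_ext_tensor
      (by rw [inlM_whiskerLeft, inlM_descM]) (by rw [inrM_whiskerLeft, inrM_descM])
    rw [MonoidalCategory.tensorHom_def, h2, Preadditive.sub_comp, Preadditive.sub_comp,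
      ← MonoidalCategory.tensorHom_def, ← MonoidalCategory.tensorHom_def, h4]
    exact congrArg (fun x => n₀ ≫ (x - _)) h3
  let τ : Z ⊗ S1 T ⟶ H ⊗ C' := (TensorTriangulated.e Z).hom ≫ t
  have hτ : el (G.tensor (Fr.self _)) (τ ≫ H ◁ κ) ∈ S := by
    have h1 : Lf b (el G v) (-el (G.tensor (Fr.self _)) ((TensorTriangulated.e Z).hom ≫ z)) := by
      have h2 : ((TensorTriangulated.e Z).hom ≫ z) ≫ b ▷ D.R = -(v ▷ S1 T ≫ (β_ _ _).hom) := by
        rw [← cancel_mono (jj D.R).hom, Category.assoc, Category.assoc, ← hz']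
        simp [jj, TensorTriangulated.e_naturality]
      rw [Lf, map_neg, pf_el, h2, map_neg, neg_neg, ← pf_el, ← tensorHom_id, ← xp_el,
        xp_comm (el_mem _ _) (el_mem _ _), Int.negOnePow_even _ ((even_two_mul w).mul_right 1),
        Units.val_one, one_smul, sg1]
    rw [DD_eq hC (oddR hU hH u) _ _ h1, map_neg, map_neg, pf_el, od_of_mem (el_mem _ _),
      if_pos (odd_two_mul_add_one w), Category.assoc, ← hB] at hS
    rw [Category.assoc]
    exact neg_mem_iff.1 hS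
  let Θ : (H ⊗ D.R) ⊗ (Z ⊗ S1 T) ⟶ H ⊗ C' := (H ⊗ D.R) ◁ τ ≫ tensorμ _ _ _ _ ≫ (μ[H] ⊗ₘ a)
  have hΘ : Θ ≫ H ◁ P251.X.bdry d = (α_ _ _ _).hom := by
    have h1 : τ ≫ H ◁ P251.X.bdry d = unitMap D.R _ ≫ unitMap H _ := by
      rw [P251.X.bdry, MonoidalCategory.whiskerLeft_comp, Category.assoc, reassoc_of% hA,
        ← unitMap_nat, e_nat_assoc, Category.assoc,
        Iso.hom_inv_id_assoc]
      simp [unitMap]
    have h2 : (μ[H] ⊗ₘ a) ≫ H ◁ P251.X.bdry d = (𝟙 _ ⊗ₘ D.R ◁ P251.X.bdry d) ≫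
        μ[H] ▷ _ ≫ H ◁ mulMap D.R (Z ⊗ S1 T) := by
      rw [← MonoidalCategory.tensorHom_def, ← id_tensorHom H, tensorHom_comp_tensorHom,
        tensorHom_comp_tensorHom, ha2, Category.id_comp, Category.comp_id]
    rw [Category.assoc, Category.assoc, h2, ← MonoidalCategory.whiskerLeft_id,
      ← tensorμ_natural_right_assoc, id_tensorHom, ← MonoidalCategory.whiskerLeft_comp_assoc, h1,
      MonoidalCategory.whiskerLeft_comp, Category.assoc, reassoc_of% unit_tmu,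
      associator_naturality_right_assoc, ← MonoidalCategory.whiskerLeft_comp,
      whiskerLeft_unitMap_mulMap, MonoidalCategory.whiskerLeft_id, Category.comp_id]
  intro c
  obtain ⟨x, hx⟩ := (ext_sph (Z := H ⊗ D.R) (G.tensor (Fr.self _))).2
    (pf (H ◁ P251.X.bdry d ≫ (α_ _ _ _).inv) c)
  obtain ⟨y, hy⟩ := pf_exact (Dist.rot (tens_dist H hC'))
    (c - pf Θ (pf (H ◁ P251.X.bdry d ≫ (α_ _ _ _).inv) c)) (by
      rw [P251.X.tensδ_bdry, ← pf_pf, map_sub, pf_pf Θ, hΘ, pf_pf, Category.assoc,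
        Iso.inv_hom_id, Category.comp_id, sub_self, map_zero])
  rw [eq_add_of_sub_eq hy.symm, map_add, pf_pf, ← MonoidalCategory.whiskerLeft_comp, hκ, ← hx,
    pf_pf, Category.assoc, Category.assoc, ← id_tensorHom H κ, tensorHom_comp_tensorHom, ha1,
    Category.comp_id, tmu_mul, ← pf_pf, ← pf_pf, AddMonoidHom.flip_apply, ← xp_right, ← xp_pf,
    pf_el, pf_el, Category.id_comp]
  exact add_mem (hR y) (mul_mem (hR x) hτ)

variable (hX : ∀ n, XI u (inlM H H) (inrM H H) n ∈ S)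
  (hT : ∀ n, TAU δ b u (inlM H H) (inrM H H) n ∈ S)

include hX hT

theorem tbar_mem (n : ℕ) :
    DD b (th δ (inlM H H) (inrM H H)) (u ≫ inrM H H) (io (ww D (3 ^ n))) ∈ S := by
  induction n using Nat.strong_induction_on with
  | _ n ih =>
    have h := hT n
    rw [TAU, DD_ser hC hU hH u _ (inrM H H), ← add_sum_erase _ _ (a := (0, n)) (by simp), XI_zero,
      one_pow, _root_.one_mul] at h
    refine (add_mem_cancel_right (sum_mem fun p hp => mul_mem (pow_mem (hX _) _) (ih _ ?_))).1 h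
    obtain ⟨h1, h2⟩ := mem_erase.1 hp
    have h3 := HasAntidiagonal.mem_antidiagonal.1 h2
    by_contra h4
    exact h1 (Prod.ext (by omega) (by omega))

theorem gg_PD (n : ℕ) (Q : P251.X.PD D 3 (n + 1)) (κ : Q.P ⟶ H) [IsMonHom κ] (hκ : Q.u ≫ κ = u) :
    GG S κ := by
  have hR := gg_base hU hH u hX
  have h3 := BD.three_H hH
  induction n with
  | zero =>
    obtain ⟨M, i, d, hM⟩ := distinguished_cocone_triangle (((3 : ℕ) : ℤ) • 𝟙 (𝟙_ T))
    have ho := P251.X.odd_base D (p := 3) (by norm_num) hM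
    obtain ⟨o⟩ := P251.X.QIn.quot (P251.X.baseQIn D.R hM) (P251.X.baseQIn_van D.R (by decide) hM ho)
    let _ := o.mon
    have _ := o.comm
    have h1 : IsMonHom (P251.X.iB D i) := o.hom
    obtain ⟨k, hk, hk'⟩ := o.desc H u (by
        change (((3 : ℕ) : ℤ) • η[D.R]) ≫ u = 0
        rw [Preadditive.zsmul_comp, IsMonHom.one_hom]
        exact h3)
      (fun f => (BD.odd_H hH).h1 0 f) fun f hf => P251.X.eq_zero_of_two (p := 3) (by norm_num) h3 f hf
    replace hk' : P251.X.iB D i ≫ k = u := hk'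
    obtain ⟨s, hs, hs'⟩ := Q.desc (D.R ⊗ M) (P251.X.iB D i) ho fun l hl => by
      obtain rfl : l = 0 := by omega
      rw [vv_zero, P251.X.natCast_base D hM]
    rw [Q.uniq H κ (s ≫ k) inferInstance inferInstance (BD.odd_H hH) (by
      rw [hκ, reassoc_of% hs', hk'])]
    refine (gg_step hC hU hH u (w := 0) le_rfl ((Fr.unit _).cast (by simp)) _ ?_
      (P251.X.base_dist D.R hM) hk' hR ?_).comp s
    · rw [Preadditive.zsmul_comp]
      exact (congrArg _ (IsMonHom.one_hom (inrM H D.R))).trans (three_hom (inlM H D.R) h3)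
    · have h2 := tbar_mem hC hU hH u hX hT 0
      rw [show io (ww D (3 ^ 0)) = ((3 : ℕ) : ℤ) • (1 : PI D.R) from
        (congrArg io (vv_zero 3 D.law)).trans (by rw [map_natCast]; simp), one_eq, ← map_zsmul,
        ← el_comp (by simp) (isFr_cast' (Fr.unit _) (n' := 2 * 0) (by simp)), Category.id_comp] at h2
      exact h2
  | succ n ih =>
    obtain ⟨Q₀⟩ := P251.X.exists_PD hU (p := 3) (by norm_num) n.succ_ne_zero
    have hv : ∀ i, vv 3 i (P251.X.lawOf u) = 0 := fun i =>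
      (map_ww u _).symm.trans (map_ww_zero hU hH u (𝟙 H) u _)
    obtain ⟨κ₀, _, h₀⟩ := Q₀.desc H u (BD.odd_H hH) fun i _ => hv i
    obtain ⟨C', q, d, hC'⟩ := distinguished_cocone_triangle (D.R ◁ D.vel 3 (n + 1) ≫ μ[D.R])
    obtain ⟨o⟩ := Q₀.exists_out q d hC' hU n.succ_ne_zero (by norm_num)
    let _ := o.mon
    have _ := o.comm
    have h1 : IsMonHom (Q₀.P ◁ q) := o.hom
    have h2 : D.vel 3 (n + 1) ≫ u = 0 := (P251.X.vv_lawOf_eq_zero_iff u 3 _).1 (hv _)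
    obtain ⟨k, hk, hk'⟩ := o.desc H (descM κ₀ u) (by
        change (D.vel 3 (n + 1) ≫ inrM _ _) ≫ _ = 0
        rw [Category.assoc, inrM_descM, h2])
      (fun f => (BD.odd_H hH).h1 _ f) fun f hf => P251.X.eq_zero_of_two (p := 3) (by norm_num) h3 f hf
    replace hk' : Q₀.P ◁ q ≫ k = descM κ₀ u := hk'
    obtain ⟨s, hs, hs'⟩ := Q.desc (Q₀.P ⊗ C') (inrM _ _ ≫ Q₀.P ◁ q) (Q₀.odd_cof q d hC' hU)
      fun l hl => by
        rcases Nat.lt_succ_iff_lt_or_eq.1 hl with h | rfl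
        · rw [P251.X.lawOf_comp, vv_map, Q₀.vv_inr h, map_zero]
        · rw [P251.X.vv_lawOf_eq_zero_iff, ← Category.assoc]
          exact P251.X.comp_inrM_q _ q d hC'
    obtain ⟨κ', hκ'⟩ := Dist.desc₂ hC' u (by
      rw [Category.assoc, IsMonHom.mul_hom, ← id_tensorHom, tensorHom_comp_tensorHom_assoc, h2,
        MonoidalPreadditive.tensor_zero, zero_comp])
    have c₀ : BigCell T 0 Q₀.P := P257.H762.bigCell_of_conn D.conn_unit fun l hl x => by
      rcases Int.even_or_odd' l with ⟨m, rfl | rfl⟩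
      · obtain ⟨z, hz⟩ := Q₀.surj (HRing.of (stdEven T) _ m
          (((stdEven T).sphIso (Iso.refl _) m).hom ≫ x))
        rw [P251.X.lawOf_congr (Category.id_comp Q₀.u).symm, P251.X.lift_lawOf_comp] at hz
        have h4 := congrArg (fun y : HRing (stdEven T) Q₀.P => y m) hz
        beta_reduce at h4
        rw [P251.X.map_apply] at h4
        rw [← cancel_epi ((stdEven T).sphIso (Iso.refl _) m).hom, ← (h4.trans (DirectSum.of_eq_same _ _)),
          ← cancel_epi ((stdEven T).sphIso (Iso.refl _) m).inv, ← Category.assoc,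
          P257.H762.BigCell.conn' D.conn_unit (cell_R D) _ hl (_ ≫ _), zero_comp, comp_zero, comp_zero]
      · exact Q₀.odd m x
    have h4 : (3 : ℤ) ≤ 3 ^ (n + 1) := by exact_mod_cast Nat.le_self_pow n.succ_ne_zero 3
    have h5 : k = (κ₀ ⊗ₘ κ') ≫ μ[H] := by
      obtain ⟨c, hc⟩ := Dist.desc₃ (tens_dist Q₀.P hC') (k - (κ₀ ⊗ₘ κ') ≫ μ[H]) (by
        rw [Preadditive.comp_sub, hk', ← id_tensorHom, tensorHom_comp_tensorHom_assoc, hκ',
          Category.id_comp, descM, sub_self])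
      rw [← sub_eq_zero, ← hc, P251.X.eq_zero_of_bigCell hH.conc ((c₀.tensor ((cell_R D).tensor
        (BigCell.of_iso ((stdEven T).sphIso (Iso.refl _) _).symm (BigCell.sphere (n := 0) _ (by
          push_cast; omega))) 0 rfl) 0 rfl).shift 1 1 rfl) c, comp_zero]
    rw [Q.uniq H κ (s ≫ k) inferInstance inferInstance (BD.odd_H hH) (by
      rw [hκ, reassoc_of% hs', hk', inrM_descM]), h5]
    have h6 : io (ww D (3 ^ (n + 1))) = el (fe T _) (D.vel 3 (n + 1)) :=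
      (congrArg io (D.vel_spec 3 _)).trans (io_of _ _)
    refine ((ih Q₀ κ₀ h₀).tensor hH (gg_step hC hU hH u (by push_cast; omega) (fe T _) _
      (el_eq_zero (F := fe T _) ?_) hC' hκ' hR ?_)).comp s
    · rw [← pf_el, ← h6, ww_unit hU hH u]
    · exact h6 ▸ tbar_mem hC hU hH u hX hT _

theorem mem_all (x : PI (H ⊗ H)) : x ∈ S := by
  induction x using PI.ind with
  | h0 => exact zero_mem _
  | ha x y h h' => exact add_mem h h'
  | h1 k a =>
    obtain ⟨Q⟩ := nonempty_BD hU (n := k.toNat + 1) (by omega)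
    obtain ⟨P⟩ := P251.X.exists_PD hU (p := 3) (by norm_num) k.toNat.succ_ne_zero
    obtain ⟨κ, _, h₀⟩ := P.desc H u (BD.odd_H hH) fun i _ =>
      (map_ww u _).symm.trans (map_ww_zero hU hH u (𝟙 H) u _)
    obtain ⟨s, hs, -⟩ := Q.desc P.P (locO_three ((P251.X.vv_zero_lawOf_iff P.u).1
      (P.vv_zero_of_lt k.toNat.succ_pos))) P.u P.odd fun i hi => P.vv_zero_of_lt hi
    obtain ⟨Z, g, d, hZ, hc⟩ := CofIn.whiskerLeft H
      (fun Z hZ => (cell_H hH D).tensor hZ _ (zero_add _)) (Q.cofIn_kappa hH (s ≫ κ))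
    obtain ⟨y, rfl⟩ := hZ.lift₂ a (P257.H762.BigCell.conn' D.conn_unit hc _ (by
      have h4 : ((k.toNat + 1 : ℕ) : ℤ) < 3 ^ (k.toNat + 1) := by
        exact_mod_cast Nat.lt_pow_self (by norm_num)
      omega) _)
    rw [← pf_el]
    exact (gg_PD hC hU hH u hX hT _ P κ h₀).comp s _

omit hX hT hC

omit hU hH in
theorem exists_bound (p : MvPolynomial ℕ ℤ) : ∃ W : ℕ, ∀ (K : T) [MonObj K] [IsCommMonObj K]
    (a : ℕ → HRing (stdEven T) K), (∀ i, IsHomog K ((3 ^ (i + 1) - 2 + 1 : ℕ) : ℤ) (a i)) →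
      ∀ w : ℤ, W < w → MvPolynomial.eval₂Hom (Int.castRingHom _) a p w = 0 := by
  induction p using MvPolynomial.induction_on with
  | C m => exact ⟨0, fun K _ _ a _ w hw => by
      rw [MvPolynomial.eval₂Hom_C, eq_intCast, intCast_eq]
      exact DirectSum.of_eq_of_ne _ _ _ (by omega)⟩
  | add p q hp hq =>
    obtain ⟨W, hp⟩ := hp
    obtain ⟨W', hq⟩ := hq
    exact ⟨W + W', fun K _ _ a ha w hw => by
      rw [map_add, DirectSum.add_apply, hp K a ha w (by omega), hq K a ha w (by omega), add_zero]⟩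
  | mul_X p i hp =>
    obtain ⟨W, hp⟩ := hp
    refine ⟨W + (3 ^ (i + 1) - 2 + 1), fun K _ _ a ha w hw => ?_⟩
    obtain ⟨x, hx⟩ := ha i
    rw [map_mul, MvPolynomial.eval₂Hom_X', hx]
    exact mul_of_apply _ x (hp K a ha _ (by omega))

theorem indep_R (q : MvPolynomial ℕ ℤ) (h : MvPolynomial.eval₂Hom (Int.castRingHom _)
    (fun m => (ser (u ≫ inlM H D.R) (inrM H D.R)).c (m + 1)) q = 0) (j : ℕ →₀ ℕ) :
    3 ∣ q.coeff j := by
  classical
  obtain ⟨B, -, hw⟩ := D.exists_basis_of u hU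
  have h2 : D.toKR u = pairM (u ≫ inlM H D.R) (inrM H D.R) :=
    eq_pairM (D.v_zero_toKR u) (D.v_one_toKR u)
  have h3 : ∀ a, HRing.of (stdEven T) _ _ (B.w a) =
      a.prod fun i m => (ser (u ≫ inlM H D.R) (inrM H D.R)).c (i + 1) ^ m := fun a => by
    rw [hw, HRing_map_congr' h2, MvPolynomial.monomial_eq, MvPolynomial.C_1,
      _root_.one_mul, Cob.last, Finsupp.prod_mapDomain_index (fun _ => pow_zero _)
        (fun _ _ _ => pow_add _ _ _), map_finsuppProd, map_finsuppProd]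
    refine Finsupp.prod_congr fun i _ => ?_
    rw [map_pow, map_pow, ser_c]
    rfl
  simp only [Finsupp.prod] at h3
  have := B.isIso
  let Y := fun a => H ⊗ (stdEven T).S (B.k a)
  let π : H ⊗ D.R ⟶ Y j := inv (Sigma.desc fun a => (inlM H D.R ⊗ₘ B.w a) ≫ μ[H ⊗ D.R]) ≫
    Sigma.desc (Pi.single j (𝟙 (Y j)) : ∀ i, Y i ⟶ Y j)
  have h4 : ∀ a, pf π (io (HRing.of (stdEven T) _ _ (B.w a))) =
      pf ((Pi.single j (𝟙 (Y j)) : ∀ i, Y i ⟶ Y j) a) (xp 1 (el (fe T (B.k a)) (𝟙 _))) := fun a => by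
    rw [io_of, ← _root_.one_mul (el _ _), ← pf_one (inlM H D.R), ← Category.id_comp (B.w a),
      ← pf_el, mul_eq, xp_pf, pf_pf, pf_pf, ← Category.assoc,
      ← Sigma.ι_desc (fun a => (inlM H D.R ⊗ₘ B.w a) ≫ μ[H ⊗ D.R]) a, Category.assoc,
      IsIso.hom_inv_id_assoc, Sigma.ι_desc]
  have h5 := congrArg (fun x => pf π (io x)) h
  by_cases hj : j ∈ q.support
  · simp only [MvPolynomial.coe_eval₂Hom, MvPolynomial.eval₂_eq, map_sum, map_zero, eq_intCast,
      ← zsmul_eq_mul, map_zsmul] at h5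
    rw [sum_eq_single_of_mem j hj fun a _ ha => by
      rw [← h3, h4, Pi.single_eq_of_ne ha, pf_zero, smul_zero]] at h5
    rw [← h3, h4, Pi.single_eq_same, pf_id] at h5
    exact (zsmul_one_H hH).1 ((ext_sph (fe T (B.k j))).1 ((map_zsmul _ _ _).trans
      (h5.trans (map_zero _).symm)))
  · rw [MvPolynomial.notMem_support_iff.1 hj]
    exact dvd_zero _

theorem indep_H (p : MvPolynomial ℕ ℤ) (h : MvPolynomial.eval₂Hom (Int.castRingHom _)
    (fun i => PowerSeries.coeff (3 ^ (i + 1)) (ser (u ≫ inlM H H) (u ≫ inrM H H)).val) p = 0) :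
    3 ∣ p := by
  classical
  have e1 : ∀ i : ℕ, 3 ^ (i + 1) = 3 ^ (i + 1) - 2 + 1 + 1 := fun i => by
    have h4 : 3 ≤ 3 ^ (i + 1) := Nat.le_self_pow (by omega) 3
    omega
  obtain ⟨W, hW⟩ := exists_bound (T := T) p
  obtain ⟨Q⟩ := nonempty_BD hU (n := W + 1 + 1) (by omega)
  obtain ⟨κ, _, rfl⟩ := Q.exists_kappa hH u
  have key : ∀ {N : T} [MonObj N] [IsCommMonObj N] (f f' : Q.B ⟶ N) [IsMonHom f] [IsMonHom f'],
      HRing.map (descM f f') (MvPolynomial.eval₂Hom (Int.castRingHom _)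
        (fun i => (ser (Q.b ≫ inlM _ _) (Q.b ≫ inrM _ _)).c (3 ^ (i + 1) - 2 + 1)) p) =
      MvPolynomial.eval₂Hom (Int.castRingHom _)
        (fun i => (ser (Q.b ≫ f) (Q.b ≫ f')).c (3 ^ (i + 1) - 2 + 1)) p := by
    intro N _ _ f f' _ _
    rw [MvPolynomial.map_eval₂Hom]
    refine MvPolynomial.eval₂Hom_congr (Subsingleton.elim _ _) (funext fun i => ?_) rfl
    rw [← InvSeries.c_map, ← ser_comp, ser_congr _ _ ((Category.assoc _ _ _).trans
      (congrArg _ (inlM_descM _ _))) ((Category.assoc _ _ _).trans (congrArg _ (inrM_descM _ _)))]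
  have h1 : MvPolynomial.eval₂Hom (Int.castRingHom _) (fun i => (ser (Q.b ≫ inlM Q.B Q.B)
      (Q.b ≫ inrM _ _)).c (3 ^ (i + 1) - 2 + 1)) p = 0 := DFinsupp.ext fun w => by
    by_cases hw : W < w
    · exact hW _ _ (fun i => isHomog_ser _ _ _) w hw
    refine inj_of_cofIn D.conn_unit (cof_two hU hH (by omega) Q κ) (by
      have h4 : ((W + 1 : ℕ) : ℤ) < 3 ^ (W + 1) := by
        exact_mod_cast Nat.lt_pow_self (by norm_num)
      rw [pow_succ]
      omega) ?_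
    have h2 : κ ⊗ₘ κ = descM (κ ≫ inlM H H) (κ ≫ inrM H H) := hom_ext_tensor
      (by rw [inlM_descM, inlM_ten]) (by rw [inrM_descM, inrM_ten])
    rw [← P251.X.map_apply, HRing_map_congr' h2, key,
      ser_congr _ _ (Category.assoc _ _ _).symm (Category.assoc _ _ _).symm]
    simp only [InvSeries.c, ← e1, h]
    exact Eq.symm zero_comp
  have h3 := three_hom (inlM H D.R) (BD.three_H hH)
  let s₀ := ser ((Q.b ≫ κ) ≫ inlM H D.R) (inrM H D.R)
  obtain ⟨v, _, hv⟩ := exists_of_ser hU ((Q.b ≫ κ) ≫ inlM H D.R)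
    (fun m => if ∃ i, m + 1 + 1 = 3 ^ i then s₀.c (m + 1) else 0) fun m => by
      split_ifs
      exacts [isHomog_ser _ (inrM H D.R) m, ⟨0, (of_zero _).symm⟩]
  obtain ⟨f, _, hf⟩ := Q.desc_add h3 (oddR hU hH (Q.b ≫ κ)) _ (law_add hU hH (Q.b ≫ κ) (inlM H D.R))
  obtain ⟨f', _, hf'⟩ := Q.desc_add h3 (oddR hU hH (Q.b ≫ κ)) v (by
    rw [← ser_smul ((Q.b ≫ κ) ≫ inlM H D.R), hv, law_add hU hH, add_iff (three_ring h3)]
    rintro (_ | _ | m) hm
    · exact (PowerSeries.coeff_zero_eq_constantCoeff_apply _).trans (InvSeries.cc _)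
    · exact absurd rfl (hm 0)
    · exact (c_succ_strictMk _ m).trans (if_neg fun ⟨i, hi⟩ => hm i hi))
  have h4 := key f f'
  rw [h1, map_zero, ser_congr _ _ hf hf', hv] at h4
  have h5 : Function.Injective fun i : ℕ => 3 ^ (i + 1) - 2 := fun i j hij => by
    have h6 := e1 i
    rw [show 3 ^ (i + 1) - 2 = 3 ^ (j + 1) - 2 from hij, ← e1 j] at h6
    exact Nat.succ_injective (Nat.pow_right_injective (by norm_num : 2 ≤ 3) h6)
  refine (MvPolynomial.C_dvd_iff_dvd_coeff (3 : ℤ) p).2 fun j => ?_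
  rw [← MvPolynomial.coeff_rename_mapDomain _ h5]
  refine indep_R hU hH (Q.b ≫ κ) _ ?_ _
  rw [MvPolynomial.eval₂Hom_rename, h4]
  refine MvPolynomial.eval₂Hom_congr rfl (funext fun i => ?_) rfl
  rw [c_succ_strictMk, if_pos ⟨_, (e1 i).symm⟩]
  rfl

end Vale.Agent.N236
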