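import Vale.Agent.N236.Sph

/-!
# P236: the Künneth theorem for modules over the Eilenberg-Mac Lane object
-/

open CategoryTheory MonoidalCategory MonObj Limits Pretriangulated TensorProduct

set_option linter.unusedSectionVars false

universe u

namespace Vale.Agent.N236

open Vale.Agent.P251 Vale.Agent.P251.S Vale.Agent.P251.T Vale.Agent.P251.M Vale.Agent.P236Z PI

theorem exists_zbasis {V : Type} [AddCommGroup V] (h3 : ∀ x : V, 3 • x = 0) (s : Set V)
    (hs : AddSubgroup.closure s = ⊤) : ∃ b ⊆ s, AddSubgroup.closure b = ⊤ ∧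
      ∀ m : b →₀ ℤ, m.sum (fun i r => r • (i : V)) = 0 → ∀ i, 3 ∣ m i := by
  let _ := AddCommGroup.zmodModule h3
  have key : ∀ t : Set V, (Submodule.span F3 t).toAddSubgroup = AddSubgroup.closure t := by
    intro t
    refine le_antisymm (fun x hx => ?_) ((AddSubgroup.closure_le _).2 Submodule.subset_span)
    induction hx using Submodule.span_induction with
    | mem x hx => exact AddSubgroup.subset_closure hx
    | zero => exact zero_mem _
    | add x y _ _ h h' => exact add_mem h h'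
    | smul r x _ h =>
      obtain ⟨m, rfl⟩ := ZMod.intCast_surjective r
      rw [Int.cast_smul_eq_zsmul]
      exact AddSubgroup.zsmul_mem _ h m
  obtain ⟨b, hb, h1, h2⟩ := exists_linearIndependent F3 s
  refine ⟨b, hb, by rw [← key, h1, key, hs], fun m hm i => ?_⟩
  have h4 := linearIndependent_iff.1 h2 (m.mapRange (Int.cast) Int.cast_zero) (by
    rw [Finsupp.linearCombination_apply, Finsupp.sum_mapRange_index (by simp), ← hm]
    exact Finsupp.sum_congr fun i _ => Int.cast_smul_eq_zsmul _ _ _)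
  exact (ZMod.intCast_zmod_eq_zero_iff_dvd (m i) 3).1 (DFunLike.congr_fun h4 i)

variable {T : Type u} [Category.{0} T] [Preadditive T] [HasZeroObject T]
    [HasShift T ℤ] [∀ n : ℤ, (shiftFunctor T n).Additive] [Pretriangulated T] [IsTriangulated T]
    [MonoidalCategory T] [SymmetricCategory T] [TensorTriangulated T] [MonoidalClosed T]
    [HasCoproducts.{0} T] [HasProducts.{0} T] [StableCat T]

theorem isIso_of_map {X Y : T} (g : X ⟶ Y) (h : Function.Bijective (pf g)) : IsIso g := by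
  refine isIso_of_pi g (fun k w hw => el_eq_zero (F := fr T k) (h.1 ?_)) fun k w => ?_
  · rw [pf_el, hw, map_zero, map_zero]
  · obtain ⟨x, hx⟩ := h.2 (ofd k w)
    exact ⟨co k x, by rw [← co_pf, hx, co_of]⟩

theorem map_bij {X Y : T} (g : X ⟶ Y) [IsIso g] : Function.Bijective (pf g) :=
  Function.bijective_iff_has_inverse.2 ⟨pf (inv g), fun x => by
    rw [pf_pf, IsIso.hom_inv_id, pf_id], fun x => by rw [pf_pf, IsIso.inv_hom_id, pf_id]⟩

theorem ext_sph {Z P : T} {k : ℤ} (F : FF k P) :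
    Function.Bijective ((xp (X := Z)).flip (el F (𝟙 P))) := by
  have := isInv_of_framed F
  refine ⟨Function.LeftInverse.injective (g := fun y => pf ((α_ _ _ _).hom ≫
    Z ◁ (frIso (F.tensor (fr T (-k))) (Fr.unit _) (add_neg_cancel k)).hom ≫ (ρ_ Z).hom)
      (xp y (el (fr T (-k)) (𝟙 _)))) fun x => ?_, fun y => ?_⟩
  · beta_reduce
    rw [AddMonoidHom.flip_apply, ← pf_pf, xp_assoc, ← pf_pf, ← xp_right, xp_el, pf_el,
      tensorHom_id, id_whiskerRight, Category.id_comp, ← Category.comp_id (frIso _ _ _).hom,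
      el_comp (add_neg_cancel k) (isFr_frIso_hom _ _ _)]
    exact (congrArg _ (xp_on x)).trans (by rw [pf_pf, Iso.inv_hom_id, pf_id])
  · change y ∈ AddMonoidHom.range _
    induction y using PI.ind with
    | h0 => exact zero_mem _
    | ha y y' h h' => exact add_mem h h'
    | h1 l b =>
      obtain ⟨b', hb⟩ := exists_el ((fr T (l - k)).tensor F)
        (x := el (fr T l) b) (by rw [sub_add_cancel]; exact el_mem _ _)
      obtain ⟨a, rfl⟩ := whiskerRight_surj P b'
      exact ⟨el (fr T (l - k)) a, by rw [AddMonoidHom.flip_apply, xp_el, tensorHom_id, hb]⟩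

theorem coprod_bij (X : T) {I : Type} (Y : I → T) {A : Type} [AddCommGroup A]
    (B : ∀ i, A →+ PI (X ⊗ Y i)) (hB : ∀ i, Function.Bijective (B i)) :
    Function.Bijective (Finsupp.liftAddHom fun i => (pf (X ◁ Sigma.ι Y i)).comp (B i)) := by
  classical
  refine ⟨(injective_iff_map_eq_zero _).2 fun c hc => Finsupp.ext fun j => (hB j).1 ?_, fun y => ?_⟩
  · have h1 := congrArg (pf (X ◁ Sigma.desc (Pi.single j (𝟙 (Y j)) : ∀ i, Y i ⟶ Y j))) hc
    rw [Finsupp.liftAddHom_apply, map_finsuppSum, Finsupp.sum_eq_single j, map_zero] at h1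
    · rw [AddMonoidHom.comp_apply, pf_pf, ← MonoidalCategory.whiskerLeft_comp, Sigma.ι_desc,
        Pi.single_eq_same, MonoidalCategory.whiskerLeft_id, pf_id] at h1
      rw [h1, Finsupp.zero_apply, map_zero]
    · intro i _ hi
      rw [AddMonoidHom.comp_apply, pf_pf, ← MonoidalCategory.whiskerLeft_comp, Sigma.ι_desc,
        Pi.single_eq_of_ne hi, MonoidalPreadditive.whiskerLeft_zero, pf_zero]
    · simp
  · change y ∈ AddMonoidHom.range _
    induction y using PI.ind with
    | h0 => exact zero_mem _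
    | ha y y' h h' => exact add_mem h h'
    | h1 l b =>
      obtain ⟨t, g, rfl⟩ := compact_sumL X Y (isSphere_one_shift l) b
      rw [map_sum]
      refine sum_mem fun i _ => ?_
      obtain ⟨a, ha⟩ := (hB i).2 (el (fr T l) (g i))
      exact ⟨Finsupp.single i a, by simp [ha, pf_el]⟩

variable {H : T} [MonObj H] (hH : Tr.IsHF 3 η[H])

include hH

theorem pi_H (y : PI H) : ∃ m : ℤ, y = m • (1 : PI H) := by
  induction y using PI.ind with
  | h0 => exact ⟨0, by simp⟩
  | ha y y' h h' =>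
    obtain ⟨m, rfl⟩ := h
    obtain ⟨m', rfl⟩ := h'
    exact ⟨_, (add_smul _ _ _).symm⟩
  | h1 k a =>
    by_cases h : k = 0
    · subst h
      obtain ⟨b, hb⟩ := exists_el (Fr.unit _) (el_mem (fr T 0) a)
      obtain ⟨m, rfl⟩ := hH.gen b
      exact ⟨m, by rw [← hb, map_zsmul, one_eq]⟩
    · exact ⟨0, by rw [hH.conc k h a, map_zero, zero_smul]⟩

theorem zsmul_one_H {m : ℤ} : m • (1 : PI H) = 0 ↔ 3 ∣ m := by
  rw [one_eq, ← map_zsmul]
  exact Iff.trans ⟨el_eq_zero, fun h => by rw [h, map_zero]⟩ (hH.ord m)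

omit hH in
/-- the action of the homotopy of `X ⊗ H` -/
noncomputable def kx (X : T) {N : T} (act : H ⊗ N ⟶ N) : PI (X ⊗ H) →+ PI N →+ PI (X ⊗ N) :=
  xp.compr₂ (pf ((α_ X H N).hom ≫ X ◁ act))

/-- **The Künneth theorem.** -/
theorem exists_kbasis {N : T} (act : H ⊗ N ⟶ N) (hu : unitMap H N ≫ act = 𝟙 N) :
    ∃ (I : Type) (w : I → PI N), AddSubgroup.closure (Set.range w) = ⊤ ∧
      ∀ X, Function.Bijective (Finsupp.liftAddHom fun i => (kx X act).flip (w i)) := by
  have h3 : ∀ x : PI N, 3 • x = 0 := fun x => by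
    rw [← pf_id x, ← hu, ← natCast_zsmul, ← pf_zsmul, unitMap, Category.assoc,
      ← Preadditive.comp_zsmul, ← Preadditive.zsmul_comp, ← zs_right, (hH.ord _).2 dvd_rfl]
    simp [pf_zero]
  obtain ⟨b, hb, h1, h2⟩ := exists_zbasis h3 {x | ∃ k a, x = el (fr T k) a} (by
    refine eq_top_iff.2 fun x _ => ?_
    induction x using PI.ind with
    | h0 => exact zero_mem _
    | ha y y' h h' => exact add_mem (h trivial) (h' trivial)
    | h1 k a => exact AddSubgroup.subset_closure ⟨k, a, rfl⟩)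
  choose k a ha using fun i : b => hb i.2
  let Y : b → T := fun i => H ⊗ (𝟙_ T)⟦k i⟧
  let D : ∐ Y ⟶ N := Sigma.desc fun i => H ◁ a i ≫ act
  let B : ∀ (X : T) (i : b), PI (X ⊗ H) →+ PI (X ⊗ Y i) := fun X i =>
    (pf (α_ _ _ _).hom).comp (xp.flip (el (fr T (k i)) (𝟙 _)))
  have hB := fun X => coprod_bij X Y (B X) fun i => (map_bij _).comp (ext_sph _)
  have hD : ∀ X, (Finsupp.liftAddHom fun i : b => (kx X act).flip i.1) = (pf (X ◁ D)).comp
      (Finsupp.liftAddHom fun i => (pf (X ◁ Sigma.ι Y i)).comp (B X i)) := by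
    intro X
    refine Finsupp.addHom_ext fun i x => ?_
    have h4 : (i : PI N) = pf (a i) (el (fr T (k i)) (𝟙 _)) := by
      rw [pf_el, Category.id_comp, ha]
    simp only [Finsupp.liftAddHom_apply_single, AddMonoidHom.comp_apply, AddMonoidHom.flip_apply, kx,
      AddMonoidHom.compr₂_apply, B, pf_pf, h4, xp_right, D]
    rw [Category.assoc, ← MonoidalCategory.whiskerLeft_comp, Sigma.ι_desc,
      associator_naturality_right_assoc, MonoidalCategory.whiskerLeft_comp]
  have he : ∀ w, kx (𝟙_ T) act (pf (λ_ H).inv 1) w = pf (λ_ N).inv w := fun w => by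
    rw [kx, AddMonoidHom.compr₂_apply, xp_left]
    change pf _ (pf _ (xp (pf _ (on T)) w)) = _
    rw [xp_left, on_xp, pf_pf, pf_pf, pf_pf]
    have h9 : (λ_ N).inv ≫ (η[H] ▷ N ≫ (λ_ H).inv ▷ N) ≫ (α_ (𝟙_ T) H N).hom ≫ 𝟙_ T ◁ act =
        (unitMap H N ≫ act) ≫ (λ_ N).inv := by
      simp [unitMap]
    rw [hu, Category.id_comp] at h9
    simp only [Category.assoc] at h9 ⊢
    rw [h9]
  have h5 : Function.Bijective (Finsupp.liftAddHom fun i : b => (kx (𝟙_ T) act).flip i.1) := by
    refine ⟨(injective_iff_map_eq_zero _).2 fun c hc => ?_, fun y => ?_⟩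
    · have h6 : ∀ x : PI (𝟙_ T ⊗ H), ∃ m : ℤ, x = m • pf (λ_ H).inv 1 ∧ (x = 0 → m = 0) := by
        intro x
        by_cases h : x = 0
        · exact ⟨0, by rw [h, zero_smul], fun _ => rfl⟩
        · obtain ⟨m, hm⟩ := pi_H hH (pf (λ_ H).hom x)
          exact ⟨m, by rw [← map_zsmul, ← hm, pf_pf, Iso.hom_inv_id, pf_id],
            fun h' => absurd h' h⟩
      choose m hm hm' using h6
      ext i
      have h7 := h2 (c.mapRange m (hm' 0 rfl)) ((map_bij (λ_ N).inv).1 (by
        rw [Finsupp.sum_mapRange_index (by simp), map_finsuppSum, map_zero, ← hc,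
          Finsupp.liftAddHom_apply]
        refine Finsupp.sum_congr fun j _ => ?_
        rw [AddMonoidHom.flip_apply, map_zsmul, ← he]
        conv_rhs => rw [hm (c j), map_zsmul, AddMonoidHom.smul_apply])) i
      replace h7 : 3 ∣ m (c i) := h7
      rw [hm (c i), ← map_zsmul, (zsmul_one_H hH).2 h7, map_zero, Finsupp.zero_apply]
    · obtain ⟨y, rfl⟩ := (map_bij (λ_ N).inv).2 y
      have h6 : y ∈ AddSubgroup.closure b := h1 ▸ AddSubgroup.mem_top y
      change _ ∈ AddMonoidHom.range _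
      induction h6 using AddSubgroup.closure_induction with
      | mem x hx => exact ⟨Finsupp.single ⟨x, hx⟩ (pf (λ_ H).inv 1), by simp [he]⟩
      | zero => rw [map_zero]; exact zero_mem _
      | add x y _ _ h h' => rw [map_add]; exact add_mem h h'
      | neg x _ h => rw [map_neg]; exact neg_mem h
  rw [hD, AddMonoidHom.coe_comp] at h5
  have h6 := isIso_of_map _ ((Function.Bijective.of_comp_iff _ (hB _)).1 h5)
  have h7 : IsIso D := by
    rw [← Category.id_comp D, ← (λ_ _).inv_hom_id, Category.assoc, ← leftUnitor_naturality]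
    infer_instance
  refine ⟨b, Subtype.val, by rw [Subtype.range_coe, h1], fun X => ?_⟩
  rw [hD, AddMonoidHom.coe_comp]
  exact (map_bij _).comp (hB X)

theorem kun_ind {X N : T} (act : H ⊗ N ⟶ N) (hu : unitMap H N ≫ act = 𝟙 N)
    (S : AddSubgroup (PI (X ⊗ N))) (hS : ∀ x w, kx X act x w ∈ S) (z : PI (X ⊗ N)) : z ∈ S := by
  obtain ⟨I, w, -, h⟩ := exists_kbasis hH act hu
  obtain ⟨c, rfl⟩ := (h X).2 z
  rw [Finsupp.liftAddHom_apply]
  exact sum_mem fun i _ => hS _ _

omit hH

instance {N N' : T} [MonObj N] [MonObj N'] [Ch3 N] : Ch3 (N ⊗ N') :=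
  ⟨P236K.St5.three_hom (inlM N N') Ch3.three⟩

theorem wl_inr_mul (A B : T) [MonObj A] [MonObj B] :
    (A ⊗ B) ◁ inrM A B ≫ μ[A ⊗ B] = (α_ A B B).hom ≫ A ◁ μ[B] := by
  change _ ≫ tensorμ A B A B ≫ (μ[A] ⊗ₘ μ[B]) = _
  rw [inrM, MonoidalCategory.whiskerLeft_comp, Category.assoc, ← tensorHom_id η[A],
    tensorμ_natural_right_assoc, MonoidalCategory.whiskerLeft_id,
    tensorHom_comp_tensorHom, MonObj.mul_one, Category.id_comp, tensorμ, braiding_tensorUnit_right,
    MonoidalCategory.tensorHom_def]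
  monoidal

variable {N : T} [MonObj N] (f : H ⟶ N) [IsMonHom f]

theorem mul_eq_kx {X : T} [MonObj X] (a : PI (X ⊗ H)) (c : PI N) :
    pf (X ◁ f) a * pf (inrM X N) c = kx X (f ▷ N ≫ μ[N]) a c := by
  rw [mul_eq, xp_pf, pf_pf, kx, AddMonoidHom.compr₂_apply, MonoidalCategory.tensorHom_def,
    Category.assoc,
    wl_inr_mul, associator_naturality_middle_assoc, MonoidalCategory.whiskerLeft_comp]

theorem unit_act : unitMap H N ≫ f ▷ N ≫ μ[N] = 𝟙 N := by
  rw [unitMap, Category.assoc, ← comp_whiskerRight_assoc, IsMonHom.one_hom, MonObj.one_mul,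
    Iso.inv_hom_id]

variable [Ch3 H] [Ch3 N]

/-- the Künneth map -/
noncomputable def KK : PI (H ⊗ H) ⊗[F3] PI N →ₗ[F3] PI (H ⊗ N) :=
  (LinearMap.mul' F3 _).comp
    (TensorProduct.map (mapA (H ◁ f)).toLinearMap (mapA (inrM H N)).toLinearMap)

theorem KK_tmul (a : PI (H ⊗ H)) (c : PI N) :
    KK f (a ⊗ₜ c) = pf (H ◁ f) a * pf (inrM H N) c := rfl

include hH in
theorem KK_bij : Function.Bijective (KK f) := by
  obtain ⟨I, w, h1, h2⟩ := exists_kbasis hH _ (unit_act f)
  let L : (I →₀ PI (H ⊗ H)) →+ PI (H ⊗ H) ⊗[F3] PI N :=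
    Finsupp.liftAddHom fun i => ((TensorProduct.mk F3 _ _).flip (w i)).toAddMonoidHom
  have h3 : Function.Surjective L := by
    intro y
    change y ∈ L.range
    induction y with
    | zero => exact zero_mem _
    | add y y' h h' => exact add_mem h h'
    | tmul a c =>
      have h6 : c ∈ AddSubgroup.closure (Set.range w) := h1 ▸ AddSubgroup.mem_top c
      induction h6 using AddSubgroup.closure_induction with
      | mem x hx =>
        obtain ⟨i, rfl⟩ := hx
        exact ⟨Finsupp.single i a, by simp [L]⟩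
      | zero => rw [tmul_zero]; exact zero_mem _
      | add x y _ _ h h' => rw [tmul_add]; exact add_mem h h'
      | neg x _ h => rw [tmul_neg]; exact neg_mem h
  have h4 : (Finsupp.liftAddHom fun i => (kx H (f ▷ N ≫ μ[N])).flip (w i)) =
      (KK f).toAddMonoidHom.comp L := Finsupp.addHom_ext fun i x => by
    simp [L, KK_tmul, mul_eq_kx]
  have h5 := h2 H
  rw [h4, AddMonoidHom.coe_comp] at h5
  refine ⟨(injective_iff_map_eq_zero _).2 fun y hy => ?_, h5.2.of_comp⟩
  obtain ⟨c, rfl⟩ := h3 y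
  rw [h5.1 (a₂ := 0) (hy.trans (map_zero ((KK f).toAddMonoidHom.comp L)).symm), map_zero]

end Vale.Agent.N236
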