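import Vale.Agent.N236.Gen
import Vale.Agent.N236.Br

/-!
# P236: Milnor's theorem, the cobar complex and the final statement
-/

open CategoryTheory MonoidalCategory MonObj Limits Pretriangulated Finset TensorProduct

set_option linter.unusedSectionVars false
set_option backward.isDefEq.respectTransparency false

namespace Vale.Agent.N236

open Vale.Agent.P251 Vale.Agent.P251.S Vale.Agent.P251.T Vale.Agent.P251.M Vale.Agent.P251.F
  Vale.Agent.P251.I Vale.Agent.P251.H Vale.Agent.P257.H80 Vale.Agent.P236K.St5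
  Vale.Agent.P236K.St Vale.Agent.P236Z Vale.Agent.P251.St Vale.Agent.P251.St.SHCat
  Vale.Agent.P236Z.St PI

variable {T : SHCat} {H : T.C} [MonObj H] [IsCommMonObj H]

instance pwComm : ∀ s, IsCommMonObj (pw H s)
  | 0 => inferInstanceAs (IsCommMonObj H)
  | s + 1 => letI := pwComm s; inferInstanceAs (IsCommMonObj (H ⊗ pw H s))

variable (H) in
/-- the vertices -/
noncomputable def vx : ∀ s : ℕ, ℕ → (H ⟶ pw H s)
  | 0, _ => 𝟙 H
  | s + 1, 0 => inlM H (pw H s)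
  | s + 1, k + 1 => vx s k ≫ inrM H (pw H s)

instance vxHom : ∀ s k, IsMonHom (vx H s k)
  | 0, _ => inferInstanceAs (IsMonHom (𝟙 H))
  | s + 1, 0 => inferInstanceAs (IsMonHom (inlM H (pw H s)))
  | s + 1, k + 1 => letI := vxHom s k; inferInstanceAs (IsMonHom (vx H s k ≫ inrM H (pw H s)))

instance pwCh3 [Ch3 H] (s : ℕ) : Ch3 (pw H s) := ⟨three_hom (vx H s 0) Ch3.three⟩

theorem cf_one (j : ℕ) : cf η[H] 0 (j + 1) = inlM H H := cf_one' j

instance cfHom : ∀ s j, IsMonHom (cf η[H] s j : pw H s ⟶ pw H (s + 1))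
  | s, 0 => cf_zero (H := H) s ▸ inferInstanceAs (IsMonHom (inrM H (pw H s)))
  | 0, j + 1 => cf_one (H := H) j ▸ inferInstanceAs (IsMonHom (inlM H H))
  | s + 1, j + 1 => by
    have := cfHom s j
    rw [cf_succ]
    exact inferInstanceAs (IsMonHom (H ◁ (cf η[H] s j : pw H s ⟶ pw H (s + 1))))

theorem vx_cf : ∀ s j k : ℕ, k ≤ s →
    vx H s k ≫ cf η[H] s j = vx H (s + 1) (if k < j then k else k + 1)
  | s, 0, k, _ => by rw [cf_zero]; rfl
  | 0, j + 1, 0, _ => by rw [cf_one]; exact Category.id_comp _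
  | s + 1, j + 1, 0, _ => by rw [cf_succ]; exact inlM_whiskerLeft _
  | s + 1, j + 1, k + 1, h => by
    rw [cf_succ, vx, Category.assoc]
    erw [inrM_whiskerLeft]
    rw [reassoc_of% vx_cf s j k (by omega)]
    by_cases h1 : k < j
    · rw [if_pos h1, if_pos (by omega)]; rfl
    · rw [if_neg h1, if_neg (by omega)]; rfl

variable {C : T.C} {δ : H ⟶ C} {b : C ⟶ (𝟙_ T.C)⟦(1 : ℤ)⟧} (hC : P251.H.Dist η[H] δ b)
  {F : SpaceFunctor T.C} {e : F.S.obj CCF ≅ (stdEven T.C).L} {D : MUData T.C}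
  (hU : MUUniv e D) (hH : Tr.IsHF 3 η[H]) (u : D.R ⟶ H) [IsMonHom u]

variable (δ b) in
/-- the values of the generators on an edge -/
noncomputable def gv {N : T.C} [MonObj N] [IsCommMonObj N] (f f' : H ⟶ N) [IsMonHom f]
    [IsMonHom f'] : ℕ × Bool → PI N
  | (i, false) => XI u f f' (i + 1)
  | (i, true) => TAU δ b u f f' i

include hC in
theorem gv_map {N N' : T.C} [MonObj N] [IsCommMonObj N] [MonObj N'] [IsCommMonObj N']
    {f f' : H ⟶ N} [IsMonHom f] [IsMonHom f'] (k : N ⟶ N') [IsMonHom k] {g g' : H ⟶ N'}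
    [IsMonHom g] [IsMonHom g'] (h : f ≫ k = g) (h' : f' ≫ k = g') (a : ℕ × Bool) :
    pf k (gv δ b u f f' a) = gv δ b u g g' a := by
  subst h h'
  obtain ⟨i, _ | _⟩ := a
  exacts [XI_map u f f' k _, TAU_map hC u f f' k _]

include hC hU hH

theorem gv_mem {N : T.C} [MonObj N] [IsCommMonObj N] (f f' : H ⟶ N) [IsMonHom f] [IsMonHom f']
    {s : ℕ} (a : Gen s) : gv δ b u f f' a.2 ∈ Dg N (wt a) := by
  obtain ⟨k, i, _ | _⟩ := a
  exacts [XI_mem u f f' i, DD_ww_mem hC hU hH u _ _ i]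

variable [Ch3 H]

/-- the comparison map from the cobar complex -/
noncomputable def Ph (s : ℕ) : Cb s →ₐ[F3] PI (pw H s) :=
  lift (fun a => gv δ b u (vx H s a.1) (vx H s (a.1 + 1)) a.2) fun a a' =>
    comm_F3 (gv_mem hC hU hH u _ _ a) (gv_mem hC hU hH u _ _ a')

theorem Ph_gen {s : ℕ} (a : Gen s) :
    Ph hC hU hH u s (gen a) = gv δ b u (vx H s a.1) (vx H s (a.1 + 1)) a.2 := lift_gen _ _ _

theorem Ph_xi {s : ℕ} (k : Fin s) :
    ∀ i, Ph hC hU hH u s (xi k i) = XI u (vx H s k) (vx H s (k + 1)) i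
  | 0 => (map_one _).trans (XI_zero _ _ _).symm
  | i + 1 => Ph_gen hC hU hH u (k, i, false)

theorem Ph_tau {s : ℕ} (k : Fin s) (i : ℕ) :
    Ph hC hU hH u s (tau k i) = TAU δ b u (vx H s k) (vx H s (k + 1)) i :=
  Ph_gen hC hU hH u (k, i, true)

theorem Ph_mem {s : ℕ} {t : ℤ} {z : Cb s} (hz : z ∈ Deg s t) : Ph hC hU hH u s z ∈ Dg _ t :=
  map_Deg (Ph hC hU hH u s) (fun t => AddSubgroup.toZModSubmodule 3 (Dg _ t)) one_dg
    (fun _ _ _ _ => mul_dg) (fun a => Ph_gen hC hU hH u a ▸ gv_mem hC hU hH u _ _ a) hz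

theorem Ph_face (s j : ℕ) (z : Cb s) :
    Ph hC hU hH u (s + 1) (face s j z) = pf (cf η[H] s j) (Ph hC hU hH u s z) := by
  refine AlgHom.congr_fun (hom_ext (f := (Ph hC hU hH u (s + 1)).comp (face s j))
    (g := (mapA (cf η[H] s j)).comp (Ph hC hU hH u s)) fun ⟨k, a⟩ => ?_) z
  have hk := k.2
  rw [AlgHom.comp_apply, AlgHom.comp_apply, face_gen, Ph_gen, mapA_apply, img]
  dsimp only
  split_ifs with h1 h2
  · rw [Ph_gen]
    exact (gv_map hC u _ ((vx_cf s j k (by omega)).trans (by rw [if_neg (by omega)]; rfl))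
      ((vx_cf s j _ (by omega)).trans (by rw [if_neg (by omega)]; rfl)) a).symm
  · rw [gv_map hC u _ ((vx_cf s j k (by omega)).trans (by rw [if_pos (by omega)]))
      ((vx_cf s j _ (by omega)).trans (by rw [if_neg (by omega)])) a]
    obtain ⟨i, _ | _⟩ := a
    · simp only [cop, map_sum, map_mul, map_pow, Ph_xi]
      exact (XI_trans hU hH u _ (vx H (s + 1) (k + 1)) _ _).symm
    · simp only [cop, map_add, map_sum, map_mul, map_pow, Ph_xi, Ph_tau]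
      exact (TAU_trans hC hU hH u _ (vx H (s + 1) (k + 1)) _ _).symm
  · rw [Ph_gen]
    exact (gv_map hC u _ ((vx_cf s j k (by omega)).trans (by rw [if_pos (by omega)]; rfl))
      ((vx_cf s j _ (by omega)).trans (by rw [if_pos (by omega)]; rfl)) a).symm

theorem Ph_mm (s : ℕ) (a : Cb 1) (c : Cb s) : KK (vx H s 0) (Ph hC hU hH u 1 a ⊗ₜ Ph hC hU hH u s c) =
    Ph hC hU hH u (s + 1) (mm s (a ⊗ₜ c)) := by
  rw [mm_tmul, map_mul, Ph_face, cf_zero]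
  let w : pw H 1 ⟶ pw H (s + 1) := (H ◁ vx H s 0 : H ⊗ H ⟶ H ⊗ pw H s)
  have : IsMonHom w := inferInstanceAs (IsMonHom (H ◁ vx H s 0 : H ⊗ H ⟶ H ⊗ pw H s))
  refine congrArg (· * _) (AlgHom.congr_fun (hom_ext (f := (mapA w).comp (Ph hC hU hH u 1))
    (g := (Ph hC hU hH u (s + 1)).comp (fst s)) fun ⟨k, a⟩ => ?_) a)
  obtain rfl : k = 0 := Subsingleton.elim _ _
  refine (congrArg (pf w) (Ph_gen hC hU hH u _)).trans
    (.trans ?_ ((congrArg (Ph hC hU hH u (s + 1)) (fst_gen _)).trans (Ph_gen hC hU hH u _)).symm)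
  exact gv_map hC u _ (inlM_whiskerLeft _) ((Category.assoc _ _ _).trans
    ((Category.id_comp _).trans (inrM_whiskerLeft _))) a

/-- **Milnor's theorem.** -/
theorem Ph_one : Function.Bijective (Ph hC hU hH u 1) := by
  have hx : ∀ n, Ph hC hU hH u 1 (xi 0 n) = XI u (inlM H H) (inrM H H) n := fun n =>
    (Ph_xi hC hU hH u 0 n).trans (XI_congr u (vx H 1 0) (vx H 1 1) (g := inlM H H) (g' := inrM H H) rfl
      (Category.id_comp _) n)
  have ht : ∀ n, Ph hC hU hH u 1 (tau 0 n) = TAU δ b u (inlM H H) (inrM H H) n := fun n =>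
    (Ph_tau hC hU hH u 0 n).trans (congrArg (TAU δ b u _ · n) (Category.id_comp _))
  refine ⟨inj_crit _ (Ph hC hU hH u 2) (KK (vx H 1 0)) (KK_bij hH _).1 (Ph_mm hC hU hH u 1)
    (fun z hz => by rw [Ph_face, hz, map_zero]) (fun t => (ofd t).comp (co t))
    (fun t t' z hz => ?_) (fun p hp => indep_H hU hH u p (io_injective ?_))
    (ht 0 ▸ tau_zero_ne hC hU hH u), fun x => mem_all (S := (Ph hC hU hH u 1).range.toSubring)
      hC hU hH u (fun n => ⟨_, hx n⟩) (fun n => ⟨_, ht n⟩) x⟩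
  · rw [AddMonoidHom.comp_apply]
    split_ifs with h
    · exact h ▸ of_co (Ph_mem hC hU hH u hz)
    · rw [co_ne (Ph_mem hC hU hH u hz) (Ne.symm h), map_zero]
  · rw [map_zero, ← hp]
    refine RingHom.congr_fun (MvPolynomial.ringHom_ext' (f := io.comp _)
      (g := (Ph hC hU hH u 1).toRingHom.comp evP) (Subsingleton.elim _ _) fun i => ?_) p
    exact (congrArg io (MvPolynomial.eval₂Hom_X' _ _ i)).trans
      ((hx _).symm.trans (congrArg (Ph hC hU hH u 1) (evP_X i).symm))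

theorem Ph_bij : ∀ s, Function.Bijective (Ph hC hU hH u s)
  | 0 => by
    refine ⟨(injective_iff_map_eq_zero _).2 fun z hz => ?_, fun x => ?_⟩
    · have h : ∃ m : ℤ, z = m • 1 := by
        clear hz
        induction z using Cb.ind with
        | h0 r =>
          obtain ⟨m, rfl⟩ := ZMod.intCast_surjective r
          exact ⟨m, by simp⟩
        | h1 a => exact a.1.elim0
        | hm x y h h' =>
          obtain ⟨m, rfl⟩ := h
          obtain ⟨m', rfl⟩ := h'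
          exact ⟨m * m', by simp⟩
        | ha x y h h' =>
          obtain ⟨m, rfl⟩ := h
          obtain ⟨m', rfl⟩ := h'
          exact ⟨m + m', by simp⟩
      obtain ⟨m, rfl⟩ := h
      rw [map_zsmul, map_one] at hz
      obtain ⟨l, rfl⟩ := (zsmul_one_H hH).1 hz
      rw [zsmul_one, Int.cast_mul, Int.cast_ofNat, three_cb, zero_mul]
    · obtain ⟨m, rfl⟩ := pi_H hH x
      exact ⟨m • 1, by rw [map_zsmul, map_one]⟩
  | s + 1 => by
    have h : Function.Bijective ((Ph hC hU hH u (s + 1)).toLinearMap ∘ₗ mm s) := by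
      have h1 : (Ph hC hU hH u (s + 1)).toLinearMap ∘ₗ mm s = KK (vx H s 0) ∘ₗ
          (TensorProduct.congr (LinearEquiv.ofBijective (Ph hC hU hH u 1).toLinearMap
            (Ph_one hC hU hH u)) (LinearEquiv.ofBijective (Ph hC hU hH u s).toLinearMap
            (Ph_bij s))).toLinearMap := TensorProduct.ext' fun a c => (Ph_mm hC hU hH u s a c).symm
      rw [h1]
      exact (KK_bij hH _).comp (LinearEquiv.bijective _)
    refine ⟨(injective_iff_map_eq_zero _).2 fun z hz => ?_,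
      fun x => (h.2 x).elim fun y hy => ⟨mm s y, hy⟩⟩
    obtain ⟨y, rfl⟩ := mm_surjective s z
    rw [h.1 (a₂ := 0) (hz.trans (map_zero _).symm), map_zero]

theorem Ph_bb (j : ℕ) : Ph hC hU hH u 2 (bb j) = io (cobR j (xi1 u)) := by
  have h0 : XI u (vx H 2 0) (vx H 2 1) 1 = io (HRing.map (H ◁ inlM H H) (xi1 u)) :=
    (XI_congr u _ _ (g := inlM H H ≫ H ◁ inlM H H) (g' := inrM H H ≫ H ◁ inlM H H)
      (inlM_whiskerLeft _).symm (inrM_whiskerLeft _).symm 1).trans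
      ((XI_map u _ _ _ 1).symm.trans (map_io _ _))
  have h1 : XI u (vx H 2 1) (vx H 2 2) 1 = io (HRing.map (inrM H (H ⊗ H)) (xi1 u)) :=
    (XI_congr u _ _ (g := inlM H H ≫ inrM H (H ⊗ H)) (g' := inrM H H ≫ inrM H (H ⊗ H)) rfl
      (congrArg (· ≫ inrM H (H ⊗ H)) (Category.id_comp _)) 1).trans
      ((XI_map u _ _ _ 1).symm.trans (map_io _ _))
  rw [bb, show Ioo 0 3 = {1, 2} from rfl, sum_pair (by norm_num)]
  simp only [map_add, map_nsmul, map_mul, map_pow, Ph_xi, cobR]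
  erw [h0, h1]
  norm_num [pow_mul']

omit hC hU hH [Ch3 H]

theorem pr_two (A : AdamsTower η[H]) : pr A 2 = P236K.St.proj A := by
  change (𝟙 H ⊗ₘ (((𝟙 H ⊗ₘ (pr A 0 ≫ A.d 0)) ≫ 𝟙 _ ≫ P236K.St.exch H (A.X 1)) ≫
    (A.d 1)⟦(1 : ℤ)⟧')) ≫ (𝟙 _ ≫ P236K.St.exch H _) ≫ (P236K.St.exch H (A.X 2))⟦(1 : ℤ)⟧' = _
  rw [pr_zero, ← id_tensorHom H A.base.inv]
  simp only [P236K.St.proj, Category.assoc, Category.id_comp]

theorem dT_two {P : T.C} (z : P ⟶ H ⊗ (H ⊗ H)) : (z ≫ dT H 2 : P ⟶ H ⊗ (H ⊗ (H ⊗ H))) =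
    z ≫ inrM H (H ⊗ (H ⊗ H)) + z ≫ H ◁ (H ◁ inrM H H) -
      (z ≫ H ◁ inrM H (H ⊗ H) + z ≫ H ◁ (H ◁ inlM H H)) := by
  have key : ∀ a b c d : P ⟶ H ⊗ (H ⊗ (H ⊗ H)), (-1 : ℤ) ^ 0 • a + (-1 : ℤ) ^ 1 • b +
      (-1 : ℤ) ^ 2 • c + (-1 : ℤ) ^ 3 • d = a + c - (b + d) := fun a b c d => by
    norm_num
    abel
  simp only [dT, sum_range_succ, sum_range_zero, cf_succ, cf_zero, cf_one, zero_add,
    Preadditive.comp_add, Preadditive.comp_zsmul]
  exact key _ _ _ _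

/-- The final statement. -/
def FINALX : Prop :=
  ∀ (T : SHCat) (_ : Susp T),
    (∃ (H : T.C) (_ : MonObj H) (_ : IsCommMonObj H), IsHF 3 η[H]) ∧
    ∀ (H : T.C) [MonObj H] [IsCommMonObj H], IsHF 3 η[H] → Nonempty (AdamsTower η[H]) ∧
      ∃ Φ : ∀ s t, FreeRing (ℕ × ℕ × Bool) → Hom (sph T t) (pw H s),
        (∀ s t, Xt.Ind (Φ s t) (Xt.Deg s t) Xt.Idl Set.univ {0}) ∧
        (∃ c : ∀ a b, sph T (a + b) ≅ ten (sph T a) (sph T b), ∀ s a b, ∀ x ∈ Xt.Deg s a,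
          ∀ y ∈ Xt.Deg s b, Φ s (a + b) (x * y) =
            comp (c a b).hom (comp (tenHom (Φ s a x) (Φ s b y)) μ[pw H s])) ∧
        (∀ s t, ∀ j ≤ s + 1, ∀ x ∈ Xt.Deg s t,
          Φ (s + 1) t (Xt.face j x) = comp (Φ s t x) (cf η[H] s j)) ∧
        ∀ A : AdamsTower η[H], ∃ (c : ∀ s n, sus^[s] (sph T n) ≅ sph T (n + s))
          (f : ∀ s n, FreeRing (ℕ × ℕ × Bool) → Hom (sph T n) (ten H (A.X s))),
          (∀ s n, (∀ z, susM s (f s n z) = comp (c s n).hom (comp (Φ s (n + s) z) (pr A s))) ∧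
            Xt.Ind (f s n) (Xt.Zc s (n + s)) (Xt.Bc s (n + s)) (Xt.Z1 A s n) (Xt.B1 A s n)) ∧
          ∀ j : ℕ, Xt.bb j ∈ Xt.Zc 2 (stem j + 2) \ Xt.Bc 2 (stem j + 2) ∧
            ∀ x, x - f 2 (stem j) (Xt.bb j) ∈ Xt.B1 A 2 (stem j) →
              (Survives A x ↔ j = 0 ∨ j = 2 ∨ j = 3) ∧ (Survives A x →
                ∃ θ : Hom (sph T (stem j)) T.one, addOrderOf θ = 3 ∧ Detects A x θ)

theorem mem_B1X {A : AdamsTower η[H]} {s : ℕ} {n : ℤ} {x : sph T n ⟶ H ⊗ A.X s} :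
    x ∈ Xt.B1 A s n ↔ x ∈ B1 A s n := by
  cases s with
  | zero => exact Iff.rfl
  | succ s => exact ⟨fun ⟨y, h⟩ => ⟨y, h.symm⟩, fun ⟨y, h⟩ => ⟨y, h.symm⟩⟩

theorem final_ext (h : FINAL') : FINALX := by
  refine fun T S => ⟨(h.2 T S).1, fun H _ _ hH' => ⟨((h.2 T S).2 H hH').1, ?_⟩⟩
  have hH := (Top.isHF_iff 3).1 hH'
  have := locallySmall_self.{0} T.C
  obtain ⟨D, hU⟩ := exists_MU T S
  obtain ⟨u, _⟩ := Dt.exists_thom D hH.conc
  obtain ⟨C, δ, b, hC⟩ := exists_cone η[H]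
  have : Ch3 H := ⟨(hH.ord 3).2 dvd_rfl⟩
  let Ψ : ∀ s, Cb s →+ PI (pw H s) := fun s => (Ph hC hU hH u s).toRingHom.toAddMonoidHom
  have hb : ∀ s, Function.Bijective (Ψ s) := Ph_bij hC hU hH u
  have hd : ∀ s t z, z ∈ Deg s t → Ψ s z ∈ Dg _ t := fun _ _ _ => Ph_mem hC hU hH u
  have hf : ∀ s j z, j ≤ s + 1 → Ψ (s + 1) (face s j z) = pf (cf η[H] s j) (Ψ s z) :=
    fun s j z _ => Ph_face hC hU hH u s j z
  have hdC : ∀ t r w, dC r w ∈ Deg (r + 1) t → ∃ w' ∈ Deg r t, dC r w' = dC r w := by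
    intro t r w hw
    obtain ⟨w', h1, h2⟩ := exists_deg Ψ hb hd r t (co t (Ψ r w))
    refine ⟨w', h1, sub_eq_zero.1 (co_inj Ψ hb hd (sub_mem (dC_mem h1) hw) ?_)⟩
    rw [map_sub, map_sub, co_dC Ψ hf, co_dC Ψ hf, h2, sub_self]
  refine ⟨fun s t z => co t (Ψ s (prj s z)), fun s t => ⟨fun x y => by simp only [map_add],
    fun _ _ => trivial, fun z hz => ⟨fun h => Idl_of (mem_Sub hz) (co_inj Ψ hb hd (prj_mem hz) h),
      fun h => ?_⟩, fun a _ => ?_⟩,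
    ⟨fun a b => frIso (fr T.C (a + b)) ((fr T.C a).tensor (fr T.C b)) rfl,
      fun s a b x hx y hy => ?_⟩, fun s t j hj x hx => ?_, fun A => ?_⟩
  · change co t (Ψ s (prj s z)) = 0
    rw [prj_Idl h, map_zero, map_zero]
  · obtain ⟨y, hy, rfl⟩ := exists_deg Ψ hb hd s t a
    obtain ⟨z, hz, rfl⟩ := exists_prj hy
    exact ⟨z, hz, sub_self _⟩
  · change co _ (Ph hC hU hH u s _) = _ ≫ (co a (Ψ s _) ⊗ₘ co b (Ψ s _)) ≫ _
    rw [map_mul, map_mul, ← of_co (Ph_mem hC hU hH u (prj_mem hx)),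
      ← of_co (Ph_mem hC hU hH u (prj_mem hy)), mul_eq, ← el_fr, ← el_fr, xp_el, pf_el, el_def,
      co_of]
    rfl
  · change co t (Ψ (s + 1) _) = co t (Ψ s _) ≫ _
    rw [prj_face j (mem_Sub hx), hf s j _ hj, co_pf]
  let f : ∀ s n, FA → (sph T n ⟶ H ⊗ A.X s) := fun s n z =>
    (susE s _ _).symm ((susSph T s n).hom ≫ co (n + s) (Ψ s (prj s z)) ≫ pr A s)
  have hs : ∀ s n z, susM s (f s n z) =
      (susSph T s n).hom ≫ co (n + s) (Ψ s (prj s z)) ≫ pr A s := fun s n z =>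
    (susE s _ _).apply_symm_apply _
  have hI : ∀ s n, Xt.Ind (f s n) (Xt.Zc s (n + s)) (Xt.Bc s (n + s)) (Xt.Z1 A s n) (Xt.B1 A s n) := by
    intro s n
    obtain ⟨e, he⟩ := exists_e2 A Ψ hb hd hf s n
    have key : ∀ z (hz : z ∈ Xt.Zc s (n + s)), ∃ hx : f s n z ∈ Z1 A s n,
        e (Submodule.Quotient.mk ⟨prj s z, prj_mem hz.1, (mem_Zc.1 hz).2⟩) =
          ((⟨f s n z, hx⟩ : Z1 A s n) : E2 A s n) := fun z hz => by
      obtain ⟨⟨x, hx⟩, h1, h2⟩ := he ⟨prj s z, prj_mem hz.1, (mem_Zc.1 hz).2⟩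
      obtain rfl : x = f s n z := (susM_bij s _ _).1 (h1.trans (hs s n z).symm)
      exact ⟨hx, h2⟩
    refine ⟨fun x y => by simp only [f, map_add, Preadditive.add_comp, Preadditive.comp_add],
      fun z hz => (key z hz).1, fun z hz => ?_, fun x hx => ?_⟩
    · obtain ⟨hx, h1⟩ := key z hz
      rw [mem_B1X, mem_Bc hz.1 (hdC _)]
      exact ((QuotientAddGroup.eq_zero_iff (⟨f s n z, hx⟩ : Z1 A s n)).symm.trans
        (h1 ▸ e.map_eq_zero_iff)).trans (Submodule.Quotient.mk_eq_zero _)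
    · obtain ⟨y, hy⟩ := e.surjective ((⟨x, hx⟩ : Z1 A s n) : E2 A s n)
      obtain ⟨⟨y, h1, h2⟩, rfl⟩ := Submodule.Quotient.mk_surjective _ y
      obtain ⟨z, hz, rfl⟩ := exists_prj h1
      obtain ⟨h3, h4⟩ := key z (mem_Zc.2 ⟨hz, h2⟩)
      have h5 := QuotientAddGroup.eq_iff_sub_mem.1 (hy.symm.trans h4)
      exact ⟨z, mem_Zc.2 ⟨hz, h2⟩, mem_B1X.2 h5⟩
  refine ⟨susSph T, f, fun s n => ⟨hs s n, hI s n⟩, fun j => ?_⟩
  obtain ⟨y, hy⟩ := isHomog_ser (u ≫ inlM H H) (u ≫ inrM H H) 1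
  replace hy : xi1 u = HRing.of (stdEven T.C) _ 2 y := hy
  have hξ : (s4 T).inv ≫ y ≠ 0 := fun h => xi1_pow_ne hU hH u 1 (by
    rw [pow_one, hy, (cancel_epi (s4 T).inv).1 (h.trans comp_zero.symm), of_zero])
  have h1 := of_cob ((s4 T).inv ≫ y) j
  rw [Iso.hom_inv_id_assoc, ← hy] at h1
  have hn : stem j + (2 : ℕ) = 2 * (2 * 3 ^ (j + 1)) := by
    push_cast
    ring
  have h2 : co (stem j + (2 : ℕ)) (Ψ 2 (prj 2 (Xt.bb j))) = (frIso (fr T.C _) (fe T.C _) hn).hom ≫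
      (bigIso T (j + 1)).hom ≫ cob ((s4 T).inv ≫ y) j := by
    change co _ (Ph hC hU hH u 2 _) = _
    rw [prj_bb, Ph_bb, ← h1, io_of, ← el_comp hn ((isFr_iff hn).2 rfl), el_fr]
    exact co_of _ _
  have h3 : Xt.bb j ∈ Xt.Zc 2 (stem j + 2) := mem_Zc.2 ⟨Xt.bb_mem j,
    co_inj Ψ hb hd (dC_mem (prj_mem (Xt.bb_mem j))) (by
      rw [co_dC Ψ hf]
      erw [h2, Category.assoc, dT_two, coc_cobR hU hH u 1 j _ (by rw [one_smul, h1]), sub_self]
      exact comp_zero)⟩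
  obtain ⟨-, h6, h7, h8⟩ := ((((h.2 T S).2 H hH').2.2 A _ hξ j).2 (f 2 (stem j) (Xt.bb j))
    ⟨susSph T 2 _ ≪≫ frIso (fr T.C _) (fe T.C _) hn ≪≫ bigIso T (j + 1), (hs 2 _ _).trans (by
      erw [h2, pr_two]
      simp only [Iso.trans_hom, Category.assoc])⟩)
  refine ⟨⟨h3, fun h0 => h6 (bd_of_B1 A (mem_B1X.1 (((hI 2 _).2.2.1 _ h3).2 h0))).1⟩,
    fun x hx => ?_⟩
  have h9 := mem_B1X.1 hx
  have h10 := neg_sub x _ ▸ neg_mem h9
  exact ⟨⟨fun h => h7.1 (survives_of A h10 h), fun h => survives_of A h9 (h7.2 h)⟩, fun h =>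
    (h8 (survives_of A h10 h)).imp fun θ hθ => ⟨hθ.1, detects_of A h9 hθ.2⟩⟩

end Vale.Agent.N236
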