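import Vale.Agent.N236.E2
import Mathlib.Data.Nat.Choose.Lucas
import Mathlib.RingTheory.PowerSeries.Expand

/-!
# P236: additive power series in characteristic three
-/

open Finset PowerSeries

namespace Vale.Agent.N236

open Vale.Agent.P217 Vale.Agent.P251.F Vale.Agent.P257.H80 Vale.Agent.P236Z

variable {R : Type} [CommRing R]

theorem add_iff (h3 : (3 : R) = 0) (s : InvSeries R) : s • P251.F.addLaw R = P251.F.addLaw R ↔
    ∀ m, (∀ i, m ≠ 3 ^ i) → coeff m s.val = 0 := by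
  have h0 : coeff 0 s.val = 0 := (coeff_zero_eq_constantCoeff_apply _).trans s.cc
  rw [InvSeries.smul_eq_iff_isHom, IsHom, and_iff_right s.cc, subst_addLaw _ _
    (constantCoeff_subst_eq_zero (by simp) _ s.cc) (constantCoeff_subst_eq_zero (by simp) _ s.cc),
    MvPowerSeries.ext_iff]
  have key : ∀ e : Fin 2 →₀ ℕ, MvPowerSeries.coeff e (subst (P251.F.addLaw R).toFG.toPowerSeries s.val) =
      MvPowerSeries.coeff e (subst (MvPowerSeries.X 0 : MvPowerSeries (Fin 2) R) s.val +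
        subst (MvPowerSeries.X 1 : MvPowerSeries (Fin 2) R) s.val) ↔
      (e 0 ≠ 0 → e 1 ≠ 0 → (e 0 + e 1).choose (e 0) * coeff (e 0 + e 1) s.val = 0) := by
    intro e
    have h1 : e = Finsupp.single 0 (e 0) ↔ e 1 = 0 := by simp [Finsupp.ext_iff]
    have h2 : e = Finsupp.single 1 (e 1) ↔ e 0 = 0 := by simp [Finsupp.ext_iff]
    erw [coeff_subst_X_zero_add_X_one]
    rw [map_add, coeff_subst_single, coeff_subst_single]
    by_cases a : e 0 = 0 <;> by_cases b : e 1 = 0 <;> simp [h1, h2, a, b, h0]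
  simp only [key]
  refine ⟨fun h m hm => ?_, fun h e a b => ?_⟩
  · rcases m with _ | m
    · exact h0
    by_contra h1
    refine hm _ (Choose.eq_pow_multiplicity_of_choose_modEq_zero_nat (p := 3) m.succ_pos
      fun i hi => (Nat.modEq_zero_iff_dvd).2 ?_)
    rw [mem_Icc] at hi
    by_contra h2
    have h4 := h (Finsupp.single 0 i + Finsupp.single 1 (m + 1 - i)) (by simp; omega) (by simp; omega)
    simp only [Finsupp.add_apply, Finsupp.single_eq_same, ne_eq, zero_ne_one, not_false_eq_true,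
      Finsupp.single_eq_of_ne, add_zero, one_ne_zero, zero_add,
      Nat.add_sub_cancel' (show i ≤ m + 1 by omega)] at h4
    obtain ⟨x, y, hxy⟩ := Nat.isCoprime_iff_coprime.2 ((Nat.prime_three.coprime_iff_not_dvd).2 h2)
    have h5 := congrArg (Int.cast : ℤ → R) hxy
    push_cast at h5
    exact h1 (by linear_combination y * h4 - coeff (m + 1) s.val * h5 + x * coeff (m + 1) s.val * h3)
  · by_cases h1 : ∃ i, e 0 + e 1 = 3 ^ i
    · obtain ⟨i, hi⟩ := h1
      obtain ⟨c, hc⟩ := Nat.prime_three.dvd_choose_pow (n := i) a (by omega)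
      rw [hi, hc, Nat.cast_mul, Nat.cast_ofNat, h3, zero_mul, zero_mul]
    · rw [h _ fun i hi => h1 ⟨i, hi⟩, mul_zero]

theorem coeff_pow3 (h3 : (3 : R) = 0) (ψ : R⟦X⟧) (k j : ℕ) :
    coeff (3 ^ (k + j)) (ψ ^ 3 ^ j) = coeff (3 ^ k) ψ ^ 3 ^ j := by
  rcases subsingleton_or_nontrivial R with h | h
  · exact Subsingleton.elim _ _
  have : CharP R 3 := (CharP.charP_iff_prime_eq_zero Nat.prime_three).2 (by exact_mod_cast h3)
  rw [← MvPowerSeries.map_iterateFrobenius_expand 3 (by norm_num) ψ j, pow_add, mul_comm]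
  exact congrArg (· ^ 3 ^ j) (coeff_expand_mul (3 ^ j) (by positivity) ψ (3 ^ k))

theorem sum_pow3 (h3 : (3 : R) = 0) {M : Type*} [AddCommMonoid M] (F : ℕ → R → M)
    (hF : ∀ d x, (∀ i, d ≠ 3 ^ i) → F d x = 0) (ψ : R⟦X⟧) (n : ℕ) :
    ∑ d ∈ range (3 ^ n + 1), F d (coeff (3 ^ n) (ψ ^ d)) =
      ∑ p ∈ antidiagonal n, F (3 ^ p.2) (coeff (3 ^ p.1) ψ ^ 3 ^ p.2) := by
  refine (sum_of_injOn (fun p => 3 ^ p.2) (fun p hp q hq h => ?_) (fun p hp => ?_)
    (fun d hd h => hF _ _ fun i hi => h ⟨(n - i, i), ?_, hi.symm⟩) fun p hp => ?_).symm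
  · have h1 := Nat.pow_right_injective (by norm_num : 2 ≤ 3) h
    rw [mem_coe, HasAntidiagonal.mem_antidiagonal] at hp hq
    exact Prod.ext (by omega) h1
  · exact mem_range.2 (Nat.lt_succ_of_le (Nat.pow_le_pow_right (by norm_num)
      (by have := HasAntidiagonal.mem_antidiagonal.1 hp; omega)))
  · have h1 := (Nat.pow_le_pow_iff_right (by norm_num : 1 < 3)).1
      (hi ▸ Nat.lt_succ_iff.1 (mem_range.1 hd) : 3 ^ i ≤ 3 ^ n)
    exact mem_antidiagonal.2 (by omega)
  · rw [← mem_antidiagonal.1 hp, coeff_pow3 h3]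

theorem coeff_mul_val (h3 : (3 : R) = 0) {s : InvSeries R}
    (hs : s • P251.F.addLaw R = P251.F.addLaw R) (t : InvSeries R) (n : ℕ) :
    coeff (3 ^ n) (s * t).val =
      ∑ p ∈ antidiagonal n, coeff (3 ^ p.1) t.val ^ 3 ^ p.2 * coeff (3 ^ p.2) s.val := by
  rw [InvSeries.mul_val, Det.coeff_subst_range t.cc, sum_pow3 h3 (fun d x => coeff d s.val * x)
    fun d x hd => by rw [(add_iff h3 s).1 hs d hd, zero_mul]]
  exact sum_congr rfl fun _ _ => mul_comm _ _

section der

variable {R' B : Type} [CommRing R'] [Ring B] {I : Ideal R} {g : R →+* R'} {ι : R' →+* B}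
  {δ : R → B} (hadd : ∀ x ∈ I, ∀ y ∈ I, δ (x + y) = δ x + δ y)
  (hmul : ∀ x ∈ I, ∀ y, δ (x * y) = δ x * ι (g y))

include hadd hmul

theorem der_sum {J : Type*} (s : Finset J) (x y : J → R) (hx : ∀ j, x j ∈ I) :
    δ (∑ j ∈ s, x j * y j) = ∑ j ∈ s, δ (x j) * ι (g (y j)) := by
  classical
  induction s using Finset.induction_on with
  | empty => simpa using hmul 0 I.zero_mem 0
  | insert a s ha ih =>
    rw [sum_insert ha, sum_insert ha, hadd _ (I.mul_mem_right _ (hx a)) _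
      (I.sum_mem fun j _ => I.mul_mem_right _ (hx j)), hmul _ (hx a), ih]

theorem der_series (hg : ∀ x ∈ I, g x = 0) {φ : InvSeries R} (hφ : φ ∈ strict R) {W W' : R⟦X⟧}
    (hW : ∀ d, coeff d W ∈ I) (hW' : ∀ d, coeff d W' ∈ I) (h0 : constantCoeff W = 0)
    (h : (subst W φ.val : R⟦X⟧) = subst φ.val W') (n : ℕ) :
    δ (coeff n W) = ∑ d ∈ range (n + 1), δ (coeff d W') * ι (coeff n ((φ.map g).val ^ d)) := by
  have hs : HasSubst W := HasSubst.of_constantCoeff_zero' h0
  obtain ⟨G, hG⟩ := X_dvd_iff.2 φ.cc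
  have h1 : constantCoeff G = 1 := by
    rw [← coeff_zero_eq_constantCoeff_apply, ← coeff_succ_X_mul, ← hG]
    exact hφ
  have h2 : PowerSeries.map g W = 0 := PowerSeries.ext fun d => hg _ (hW d)
  have h4 : PowerSeries.map g (subst W G : R⟦X⟧) = 1 := by
    refine (map_subst hs G).trans ?_
    erw [h2]
    rw [subst_zero_eq_C_constantCoeff, ← coeff_zero_eq_constantCoeff_apply, coeff_map,
      coeff_zero_eq_constantCoeff_apply, h1]
    simp
  have h5 := congrArg (fun x => δ (coeff n x)) h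
  beta_reduce at h5
  rw [Det.coeff_subst_range φ.cc, der_sum hadd hmul _ _ _ hW', hG, subst_mul hs, subst_X hs] at h5
  erw [coeff_mul] at h5
  rw [der_sum hadd hmul _ _ _ fun _ => hW _, sum_eq_single (n, 0), ← hG] at h5
  · rw [← coeff_map, h4, coeff_zero_one, map_one, mul_one] at h5
    rw [h5]
    exact sum_congr rfl fun d _ => by rw [← coeff_map, map_pow]; rfl
  · intro p hp hp'
    rw [← coeff_map, h4, coeff_one, if_neg, map_zero, mul_zero]
    exact fun h => hp' (Prod.ext (by have := mem_antidiagonal.1 hp; omega) h)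
  · simp

end der

theorem isWt_w (m : ℕ) : Cob.IsWt (m : ℤ)
    (MvPolynomial.C (coeff (m + 1) (multSeries Laz.univ.toFG 3)) : Cob Laz 0) := by
  intro B _ c u
  have e : Laz.univ.map (c.scale u).pt = (InvSeries.lin u)⁻¹ • Laz.univ.map c.pt :=
    LawRing.law_act (InvSeries.lin u)⁻¹ c.pt
  rw [Cob.ev_C, Cob.ev_C, ← coeff_map, ← coeff_map, map_multSeries, map_multSeries,
    ← Law.map_toFG, ← Law.map_toFG, e, coeff_multSeries_lin_inv_smul]
  simp

end Vale.Agent.N236
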