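import Vale.Agent.N236.Alg
import Vale.Agent.P236K.St.Coc
import Mathlib.Algebra.Algebra.ZMod
import Mathlib.Algebra.Field.NegOnePow

/-!
# P236: the graded homotopy ring in all degrees
-/

open CategoryTheory MonoidalCategory MonObj Limits Pretriangulated

set_option linter.unusedSectionVars false

universe v u

namespace Vale.Agent.N236

open Vale.Agent.P251 Vale.Agent.P251.S Vale.Agent.P251.T Vale.Agent.P251.M

section fr

variable {T : Type u} [Category.{v} T] [MonoidalCategory T] [SymmetricCategory T] {L : T} [IsInv L]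

theorem isFr_iff {n n' : ℤ} {X Y : T} {F : Fr L n X} {G : Fr L n' Y} (hn : n = n') {f : X ⟶ Y} :
    IsFr F G f ↔ f = (frIso F G hn).hom :=
  ⟨fun h => h.eq_frIso hn, fun h => h ▸ isFr_frIso_hom F G hn⟩

theorem isFr_cancel {a n n' : ℤ} {P X Y : T} (A : Fr L a P) {F : Fr L n X} {G : Fr L n' Y}
    (hn : n = n') {f : X ⟶ Y} (h : IsFr (A.tensor F) (A.tensor G) (P ◁ f)) : IsFr F G f := by
  have := isInv_of_framed A
  exact (isFr_iff hn).2 (whiskerLeft_inj P
    (h.unique (by omega) (IsFr.whiskerLeft hn (isFr_frIso_hom F G hn))))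

theorem exists_div {a b n : ℤ} {P Q X : T} (A : Fr L a P) (B : Fr L b Q) (h : a + n = b)
    (φ : P ⊗ X ≅ Q) : ∃ G : Fr L n X, IsFr (A.tensor G) B φ.hom := by
  obtain ⟨c, i, d, h1, h2, h3, h4⟩ : ∃ c i d : ℕ, A.N ≤ c ∧ B.N ≤ c ∧ (c : ℤ) + a = i ∧
      (c : ℤ) + b = d := ⟨A.N + B.N + a.natAbs + b.natAbs,
    ((A.N + B.N + a.natAbs + b.natAbs : ℕ) + a).toNat,
    ((A.N + B.N + a.natAbs + b.natAbs : ℕ) + b).toNat, by omega⟩
  let ψ : Pw L i ⊗ X ≅ Pw L d := whiskerRightIso (A.φ c i h1 h3).symm X ≪≫ α_ _ _ _ ≪≫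
    whiskerLeftIso _ φ ≪≫ B.φ c d h2 h4
  have h5 : (i : ℤ) + n = d := by omega
  refine ⟨Fr.ofBase ψ n h5, IsFr.of_level c d (Fr.tensor_N_le h1 h3 le_rfl) (by omega) h2 h4 ?_⟩
  have h6 : (Fr.ofBase ψ n h5).N ≤ i := le_rfl
  rw [Fr.tensor_φ A _ c i d _ _ h1 h3 h6 h5, Fr.ofBase_φ]
  simp [ψ]

variable {M : T} {k : ℤ} (A : Fr L k M)

/-- compatibility of a framing with respect to `M` with a framing with respect to `L` -/
def Cmp {n r : ℤ} {X : T} (F : Fr M n X) (G : Fr L r X) : Prop :=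
  ∀ c d hc h, IsFr ((A.pow c).tensor G) (A.pow d) (F.φ c d hc h).hom

variable {A} {n r : ℤ} {X : T}

theorem cmp_succ {F : Fr M n X} {G : Fr L r X} (hr : r = k * n) (c d hc h hc' h') :
    IsFr ((A.pow (c + 1)).tensor G) (A.pow (d + 1)) (F.φ (c + 1) (d + 1) hc' h').hom ↔
      IsFr ((A.pow c).tensor G) (A.pow d) (F.φ c d hc h).hom := by
  have := isInv_of_framed A
  have e : k * c + r = k * d := by rw [hr, ← h]; ring
  have h1 : IsFr ((A.pow (c + 1)).tensor G) (A.pow (d + 1))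
      ((α_ M (Pw M c) X).hom ≫ M ◁ (frIso ((A.pow c).tensor G) (A.pow d) e).hom) := by
    have h2 := IsFr.whiskerRight (G := G) (by push_cast; ring)
      (isFr_cast' (A.tensor (A.pow c)) (n' := k * (c + 1 : ℕ)) (by push_cast; ring))
    have h3 := IsFr.comp (by push_cast; ring) (by ring) h2 (isFr_associator A (A.pow c) G)
    have h4 := IsFr.comp (by push_cast; ring) (by rw [e]) h3
      (IsFr.whiskerLeft (F := A) e (isFr_frIso_hom _ (A.pow d) e))
    have h5 := IsFr.comp (by push_cast; linear_combination e) (by push_cast; ring) h4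
      (isFr_cast (A.tensor (A.pow d)) (n' := k * (d + 1 : ℕ)) (by push_cast; ring))
    rw [Category.comp_id, id_whiskerRight, Category.id_comp] at h5
    exact h5
  rw [F.st c d hc h, isFr_iff e]
  refine ⟨fun h2 => whiskerLeft_inj M ((cancel_epi _).1 (h2.unique ?_ h1)), fun h2 => h2 ▸ h1⟩
  push_cast
  linear_combination e

theorem Cmp.of_level {F : Fr M n X} {G : Fr L r X} (hr : r = k * n) (c d hc h)
    (e : IsFr ((A.pow c).tensor G) (A.pow d) (F.φ c d hc h).hom) : Cmp A F G := by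
  have key : ∀ (c d hc h) (j : ℕ) hc' h',
      IsFr ((A.pow (c + j)).tensor G) (A.pow (d + j)) (F.φ (c + j) (d + j) hc' h').hom ↔
        IsFr ((A.pow c).tensor G) (A.pow d) (F.φ c d hc h).hom := by
    intro c d hc h j
    induction j with
    | zero => exact fun _ _ => Iff.rfl
    | succ j ih =>
      intro hc' h'
      have b : ((c + j : ℕ) : ℤ) + n = (d + j : ℕ) := by push_cast at h' ⊢; omega
      exact (cmp_succ hr (c + j) (d + j) (by omega) b hc' h').trans (ih _ _)
  intro c2 d2 hc2 h2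
  rcases le_total c c2 with hle | hle
  · obtain ⟨j, rfl⟩ := Nat.exists_eq_add_of_le hle
    obtain rfl : d2 = d + j := by push_cast at h2; omega
    exact (key c d hc h j hc2 h2).2 e
  · obtain ⟨j, rfl⟩ := Nat.exists_eq_add_of_le hle
    obtain rfl : d = d2 + j := by push_cast at h; omega
    exact (key c2 d2 hc2 h2 j hc h).1 e

variable (A) in
theorem exists_cmp (F : Fr M n X) : ∃ G : Fr L (k * n) X, Cmp A F G := by
  obtain ⟨c, d, hc, h⟩ := exists_level n F.N
  obtain ⟨G, hG⟩ := exists_div (n := k * n) (A.pow c) (A.pow d) (by rw [← h]; ring) (F.φ c d hc h)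
  exact ⟨G, Cmp.of_level rfl c d hc h hG⟩

theorem Cmp.tensor {n' r' : ℤ} {Y : T} {F : Fr M n X} {G : Fr L r X} {F' : Fr M n' Y}
    {G' : Fr L r' Y} (hr : r = k * n) (hr' : r' = k * n') (h : Cmp A F G) (h' : Cmp A F' G') :
    Cmp A (F.tensor F') (G.tensor G') := by
  intro c d hc hd
  have e : (F.tensor F').N = max F.N ((F'.N : ℤ) - n).toNat := rfl
  have hi : (c : ℤ) + n = (((c : ℤ) + n).toNat : ℕ) := toNat_spec (by omega)
  generalize ((c : ℤ) + n).toNat = i at hi
  have e1 : k * c + r = k * i := by rw [hr, ← hi]; ring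
  have e2 : k * i + r' = k * d := by rw [hr', ← hd, ← hi]; ring
  rw [Fr.tensor_φ F F' c i d hc hd (by omega) hi (by omega) (by omega)]
  exact IsFr.comp (by ring) (by rw [e1, e2]) (IsFr.inv' (by ring) (isFr_associator _ G G'))
    (IsFr.comp (by rw [e1]) e2 (IsFr.whiskerRight e1 (h c i _ hi)) (h' i d _ _))

theorem Cmp.isFr {n' r' : ℤ} {Y : T} {F : Fr M n X} {G : Fr L r X} {F' : Fr M n' Y}
    {G' : Fr L r' Y} (hr : r = k * n) (hr' : r' = k * n') (hn : n = n') (h : Cmp A F G)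
    (h' : Cmp A F' G') {f : X ⟶ Y} (hf : IsFr F F' f) : IsFr G G' f := by
  subst hn
  obtain ⟨c, d, hc, hd⟩ := exists_level n (F.N + F'.N)
  have e1 : k * c + r = k * d := by rw [hr, ← hd]; ring
  have e2 : k * c + r' = k * d := by rw [hr', ← hd]; ring
  refine isFr_cancel (A.pow c) (hr.trans hr'.symm) ?_
  rw [(Iso.eq_comp_inv _).2 (hf c d (by omega) hd (by omega) hd)]
  exact IsFr.comp e1 e2.symm (h c d _ hd) (IsFr.inv' e2 (h' c d _ hd))

theorem Cmp.unit : Cmp A (Fr.unit M) (Fr.unit L) := by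
  intro c d hc h
  obtain rfl : c = d := by omega
  rw [Fr.unit_φ]
  exact isFr_rightUnitor _

variable [Preadditive T] [MonoidalPreadditive T]

/-- the braiding is framed up to the sign -/
def Sg {m n : ℤ} {X Y : T} (F : Fr L m X) (G : Fr L n Y) : Prop :=
  IsFr (F.tensor G) (G.tensor F) (((m * n).negOnePow : ℤ) • (β_ X Y).hom)

theorem zs_left (X : T) {Y Z : T} (m : ℤ) (f : Y ⟶ Z) : X ◁ (m • f) = m • (X ◁ f) :=
  (tensorLeft X).map_zsmul ..

theorem zs_right (X : T) {Y Z : T} (m : ℤ) (f : Y ⟶ Z) : (m • f) ▷ X = m • (f ▷ X) :=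
  (tensorRight X).map_zsmul ..

theorem sq_neg (n : ℤ) : (n.negOnePow : ℤ) * n.negOnePow = 1 := by
  rw [← Units.val_mul, Int.units_mul_self, Units.val_one]

theorem Sg.symm {m n : ℤ} {X Y : T} {F : Fr L m X} {G : Fr L n Y} (h : Sg F G) : Sg G F := by
  rw [Sg, isFr_iff (add_comm _ _)] at h
  have h1 : ((n * m).negOnePow : ℤ) • (β_ Y X).hom =
      (frIso (F.tensor G) (G.tensor F) (add_comm _ _)).inv := by
    rw [← cancel_epi (frIso (F.tensor G) (G.tensor F) (add_comm _ _)).hom, Iso.hom_inv_id, ← h,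
      Preadditive.zsmul_comp, Preadditive.comp_zsmul, smul_smul, mul_comm n, sq_neg, one_smul,
      SymmetricCategory.symmetry]
  rw [Sg, h1]
  exact isFr_frIso_inv _ _ _

theorem Sg.left {m m' n : ℤ} {X X' Y : T} {F : Fr L m X} (F' : Fr L m' X') {G : Fr L n Y}
    (hm : m = m') (h : Sg F G) : Sg F' G := by
  subst hm
  have e : ((m * n).negOnePow : ℤ) • (β_ X' Y).hom = ((frIso F F' rfl).inv ▷ Y) ≫
      (((m * n).negOnePow : ℤ) • (β_ X Y).hom) ≫ (Y ◁ (frIso F F' rfl).hom) := by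
    simp
  rw [Sg, e]
  exact IsFr.comp rfl (add_comm _ _) (IsFr.whiskerRight rfl (isFr_frIso_inv F F' rfl))
    (IsFr.comp (add_comm _ _) rfl h (IsFr.whiskerLeft rfl (isFr_frIso_hom F F' rfl)))

theorem Sg.unit {n : ℤ} {Y : T} (G : Fr L n Y) : Sg (Fr.unit L) G := by
  rw [Sg, zero_mul, Int.negOnePow_zero, Units.val_one, one_smul]
  exact SymFr.unit G

theorem Sg.iff {m m' n : ℤ} {X X' Y : T} {F : Fr L m X} {F' : Fr L m' X'} {G : Fr L n Y}
    (h : Sg F G) : Sg (F.tensor F') G ↔ Sg F' G := by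
  have := isInv_of_framed F
  have e : (((m + m') * n).negOnePow : ℤ) • (β_ (X ⊗ X') Y).hom = (α_ X X' Y).hom ≫
      X ◁ (((m' * n).negOnePow : ℤ) • (β_ X' Y).hom) ≫ (α_ X Y X').inv ≫
      (((m * n).negOnePow : ℤ) • (β_ X Y).hom) ▷ X' ≫ (α_ Y X X').hom := by
    rw [zs_left, zs_right, add_mul, Int.negOnePow_add, Units.val_mul, mul_smul]
    simp
  have h1 : IsFr ((F.tensor F').tensor G) (G.tensor (F.tensor F')) ((α_ X X' Y).hom ≫
      X ◁ (frIso (F'.tensor G) (G.tensor F') (add_comm _ _)).hom ≫ (α_ X Y X').inv ≫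
      (((m * n).negOnePow : ℤ) • (β_ X Y).hom) ▷ X' ≫ (α_ Y X X').hom) :=
    IsFr.comp (by omega) (by omega) (isFr_associator F F' G) (IsFr.comp (by omega) (by omega)
      (IsFr.whiskerLeft (by omega) (isFr_frIso_hom _ _ _)) (IsFr.comp (by omega) (by omega)
      (IsFr.inv' (by omega) (isFr_associator F G F')) (IsFr.comp (by omega) (by omega)
      (IsFr.whiskerRight (by omega) h) (isFr_associator G F F'))))
  have h2 : IsIso (((m * n).negOnePow : ℤ) • (β_ X Y).hom) := by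
    rw [(isFr_iff (add_comm _ _)).1 h]
    infer_instance
  rw [Sg, Sg, e, isFr_iff (add_comm m' n)]
  exact ⟨fun h3 => whiskerLeft_inj X ((cancel_mono _).1 ((cancel_epi _).1 (h3.unique (by omega) h1))),
    fun h3 => h3 ▸ h1⟩

theorem sg_all (hL : (β_ L L).hom = -𝟙 _) (fr : ∀ n : ℤ, Σ X, Fr L n X) {m n : ℤ} {X Y : T}
    (F : Fr L m X) (G : Fr L n Y) : Sg F G := by
  have key : ∀ {n : ℤ} {Y : T} (G : Fr L n Y), Sg (Fr.self L) G → ∀ m, Sg (fr m).2 G := by
    intro n Y G h m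
    induction m using Int.induction_on with
    | zero => exact (Sg.unit G).left _ rfl
    | succ i ih => exact (h.iff.2 ih).left _ (add_comm _ _)
    | pred i ih => exact h.iff.1 (ih.left _ (by ring))
  have h1 : Sg (Fr.self L) (Fr.self L) := by
    rw [Sg, hL, _root_.mul_one, Int.negOnePow_one, Units.val_neg, Units.val_one, neg_one_smul,
      neg_neg]
    exact IsFr.id _
  exact (key G ((key _ h1 n).left G rfl).symm m).left F rfl

end fr

variable {T : Type u} [Category.{0} T] [Preadditive T] [HasZeroObject T]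
    [HasShift T ℤ] [∀ n : ℤ, (shiftFunctor T n).Additive] [Pretriangulated T]
    [MonoidalCategory T] [SymmetricCategory T] [TensorTriangulated T]

variable (T) in
/-- the circle -/
abbrev S1 : T := (𝟙_ T)⟦(1 : ℤ)⟧

instance : IsInv (S1 T) := IsInv.of_inverse' negOne

/-- framings with respect to the circle -/
abbrev FF (n : ℤ) (X : T) := Fr (S1 T) n X

/-- the framing of a suspension -/
noncomputable def FF.sus {n : ℤ} {X : T} (F : FF n X) : FF (n + 1) (X⟦(1 : ℤ)⟧) :=
  (F.tensor (Fr.self _)).ofIso (TensorTriangulated.e X).symm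

theorem nonempty_fr (k : ℤ) : Nonempty (FF k ((𝟙_ T)⟦k⟧)) := by
  induction k using Int.induction_on with
  | zero => exact ⟨(Fr.unit _).ofIso ((shiftFunctorZero T ℤ).app _)⟩
  | succ i ih => exact ⟨ih.some.sus.ofIso ((shiftFunctorAdd' T (i : ℤ) 1 _ rfl).app _)⟩
  | pred i ih =>
    obtain ⟨G, -⟩ := exists_div (n := -(i : ℤ) - 1) (Fr.self _) ih.some (by ring)
      (β_ _ _ ≪≫ TensorTriangulated.e _ ≪≫ ((shiftFunctorAdd' T (-(i : ℤ) - 1) 1 _ (by ring)).app _).symm)
    exact ⟨G⟩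

variable (T) in
/-- the framings of the spheres -/
noncomputable def fr (k : ℤ) : FF k ((𝟙_ T)⟦k⟧) := (nonempty_fr k).some

theorem sg_fr {m n : ℤ} {X Y : T} (F : FF m X) (G : FF n Y) : Sg F G :=
  sg_all TensorTriangulated.sign (fun n => ⟨_, fr T n⟩) F G

/-- the homotopy groups -/
def PI (X : T) : Type := DirectSum ℤ fun k => ((𝟙_ T)⟦k⟧ ⟶ X)

noncomputable instance (X : T) : AddCommGroup (PI X) :=
  inferInstanceAs (AddCommGroup (DirectSum ℤ fun k => ((𝟙_ T)⟦k⟧ ⟶ X)))

namespace PI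

variable {X Y Z P Q : T} {m n : ℤ}

/-- homogeneous elements -/
noncomputable def ofd (k : ℤ) : ((𝟙_ T)⟦k⟧ ⟶ X) →+ PI X :=
  DirectSum.of (fun k : ℤ => ((𝟙_ T)⟦k⟧ ⟶ X)) k

/-- components -/
noncomputable def co (k : ℤ) : PI X →+ ((𝟙_ T)⟦k⟧ ⟶ X) :=
  DFinsupp.evalAddMonoidHom (β := fun k : ℤ => ((𝟙_ T)⟦k⟧ ⟶ X)) k

theorem co_of (k : ℤ) (a : (𝟙_ T)⟦k⟧ ⟶ X) : co k (ofd k a) = a := DirectSum.of_eq_same _ _

theorem co_of_ne {k l : ℤ} (h : l ≠ k) (a : (𝟙_ T)⟦k⟧ ⟶ X) : co l (ofd k a) = 0 :=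
  DirectSum.of_eq_of_ne _ _ _ h

theorem eq_co {x y : PI X} (h : ∀ k, co k x = co k y) : x = y := DFinsupp.ext h

/-- the class of a map out of a framed object -/
noncomputable def el (F : FF n P) : (P ⟶ X) →+ PI X :=
  (ofd n).comp (Preadditive.leftComp X (frIso (fr T n) F rfl).hom)

theorem el_def (F : FF n P) (a : P ⟶ X) : el F a = ofd n ((frIso (fr T n) F rfl).hom ≫ a) := rfl

theorem el_comp {F : FF m P} {G : FF n Q} (h : m = n) {f : P ⟶ Q} (hf : IsFr F G f) (a : Q ⟶ X) :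
    el F (f ≫ a) = el G a := by
  subst h
  rw [el_def, el_def, ← Category.assoc,
    (IsFr.comp rfl rfl (isFr_frIso_hom _ F rfl) hf).eq_frIso rfl]

theorem el_fr (k : ℤ) (a : (𝟙_ T)⟦k⟧ ⟶ X) : el (fr T k) a = ofd k a := by
  rw [el_def, ← (IsFr.id (fr T k)).eq_frIso rfl, Category.id_comp]

theorem el_injective (F : FF n P) : Function.Injective (el (X := X) F) := fun a b h => by
  have h1 := congrArg (co n) h
  rwa [el_def, el_def, co_of, co_of, cancel_epi] at h1

theorem el_eq_zero {F : FF n P} {a : P ⟶ X} (h : el F a = 0) : a = 0 :=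
  el_injective F (h.trans (map_zero _).symm)

@[elab_as_elim]
theorem ind {p : PI X → Prop} (h0 : p 0) (h1 : ∀ k a, p (el (fr T k) a))
    (ha : ∀ x y, p x → p y → p (x + y)) (x : PI X) : p x :=
  DirectSum.induction_on (motive := p) x h0 (fun k a => el_fr k a ▸ h1 k a) ha

theorem hext {A : Type*} [AddCommGroup A] {f g : PI X →+ A}
    (h : ∀ k a, f (el (fr T k) a) = g (el (fr T k) a)) (x : PI X) : f x = g x := by
  induction x using ind with
  | h0 => rw [map_zero, map_zero]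
  | h1 k a => exact h k a
  | ha x y h h' => rw [map_add, map_add, h, h']

/-- an additive map given on the homogeneous elements -/
noncomputable def dsc {A : Type*} [AddCommGroup A] (f : ∀ k : ℤ, ((𝟙_ T)⟦k⟧ ⟶ X) →+ A) :
    PI X →+ A := DirectSum.toAddMonoid f

theorem desc_el {A : Type*} [AddCommGroup A] (f : ∀ k : ℤ, ((𝟙_ T)⟦k⟧ ⟶ X) →+ A) (k a) :
    dsc f (el (fr T k) a) = f k a := by
  rw [el_fr]
  exact DirectSum.toAddMonoid_of f k a

/-- functoriality -/
noncomputable def pf (f : X ⟶ Y) : PI X →+ PI Y :=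
  dsc fun k => (el (fr T k)).comp (Preadditive.rightComp _ f)

theorem pf_el (f : X ⟶ Y) (F : FF n P) (a : P ⟶ X) : pf f (el F a) = el F (a ≫ f) := by
  rw [← el_comp rfl (isFr_frIso_hom (fr T n) F rfl), pf, desc_el,
    ← el_comp rfl (isFr_frIso_hom (fr T n) F rfl), ← Category.assoc]
  rfl

theorem pf_pf (f : X ⟶ Y) (g : Y ⟶ Z) (x : PI X) : pf g (pf f x) = pf (f ≫ g) x :=
  hext (f := (pf g).comp (pf f)) (fun k a => by simp [pf_el]) x

theorem pf_id (x : PI X) : pf (𝟙 X) x = x :=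
  hext (g := AddMonoidHom.id _) (fun k a => by simp [pf_el]) x

theorem pf_add (f g : X ⟶ Y) (x : PI X) : pf (f + g) x = pf f x + pf g x :=
  hext (g := pf f + pf g) (fun k a => by simp [pf_el]) x

theorem pf_zsmul (r : ℤ) (f : X ⟶ Y) (x : PI X) : pf (r • f) x = r • pf f x :=
  hext (g := r • pf f) (fun k a => by simp [pf_el]) x

theorem pf_zero (x : PI X) : pf (0 : X ⟶ Y) x = 0 :=
  hext (g := 0) (fun k a => by simp [pf_el]) x

theorem pf_sub (f g : X ⟶ Y) (x : PI X) : pf (f - g) x = pf f x - pf g x :=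
  hext (g := pf f - pf g) (fun k a => by simp [pf_el]) x

theorem co_pf (f : X ⟶ Y) (k : ℤ) (x : PI X) : co k (pf f x) = co k x ≫ f :=
  hext (f := (co k).comp (pf f)) (g := (Preadditive.rightComp _ f).comp (co k)) (fun l a => by
    change co k (pf f (el _ a)) = co k (el _ a) ≫ f
    rw [pf_el, el_fr, el_fr]
    by_cases h : k = l
    · subst h
      rw [co_of, co_of]
    · rw [co_of_ne h, co_of_ne h, zero_comp]) x

variable (X) in
/-- the elements of degree `k` -/
noncomputable def Dg (k : ℤ) : AddSubgroup (PI X) := (ofd k).range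

theorem el_mem (F : FF n P) (a : P ⟶ X) : el F a ∈ Dg X n := ⟨_, rfl⟩

theorem exists_el (F : FF n P) {x : PI X} (h : x ∈ Dg X n) : ∃ a, el F a = x := by
  obtain ⟨a, rfl⟩ := h
  exact ⟨(frIso (fr T n) F rfl).inv ≫ a, by rw [el_def, Iso.hom_inv_id_assoc]⟩

theorem pf_mem (f : X ⟶ Y) {x : PI X} (h : x ∈ Dg X n) : pf f x ∈ Dg Y n := by
  obtain ⟨a, rfl⟩ := exists_el (fr T n) h
  exact pf_el f _ a ▸ el_mem _ _

theorem of_co {x : PI X} (h : x ∈ Dg X n) : ofd n (co n x) = x := by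
  obtain ⟨a, rfl⟩ := h
  rw [co_of]

theorem co_ne {x : PI X} (h : x ∈ Dg X n) (h' : m ≠ n) : co m x = 0 := by
  obtain ⟨a, rfl⟩ := h
  exact co_of_ne h' a

/-- the external product -/
noncomputable def xp : PI X →+ PI Y →+ PI (X ⊗ Y) :=
  dsc fun m => (dsc fun n => AddMonoidHom.mk' (fun b => AddMonoidHom.mk'
    (fun a => el ((fr T m).tensor (fr T n)) (a ⊗ₘ b)) fun a a' => by
      rw [MonoidalPreadditive.add_tensor, map_add]) fun b b' => by
    ext a
    simp [MonoidalPreadditive.tensor_add]).flip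

theorem xp_el (F : FF m P) (G : FF n Q) (a : P ⟶ X) (b : Q ⟶ Y) :
    xp (el F a) (el G b) = el (F.tensor G) (a ⊗ₘ b) := by
  have h := isFr_frIso_hom (fr T m) F rfl
  have h' := isFr_frIso_hom (fr T n) G rfl
  rw [← el_comp rfl h, ← el_comp rfl h', ← el_comp rfl (IsFr.tensor rfl rfl h h'), xp, desc_el,
    AddMonoidHom.flip_apply, desc_el, tensorHom_comp_tensorHom]
  rfl

theorem hext₂ {A : Type*} [AddCommGroup A] {f g : PI X →+ PI Y →+ A}
    (h : ∀ k a l b, f (el (fr T k) a) (el (fr T l) b) = g (el (fr T k) a) (el (fr T l) b))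
    (x : PI X) (y : PI Y) : f x y = g x y :=
  DFunLike.congr_fun (hext (fun k a => AddMonoidHom.ext (hext (h k a))) x) y

theorem xp_mem {x : PI X} {y : PI Y} (h : x ∈ Dg X m) (h' : y ∈ Dg Y n) :
    xp x y ∈ Dg _ (m + n) := by
  obtain ⟨a, rfl⟩ := exists_el (fr T m) h
  obtain ⟨b, rfl⟩ := exists_el (fr T n) h'
  exact xp_el _ _ a b ▸ el_mem _ _

theorem xp_pf {X' Y' : T} (f : X ⟶ X') (g : Y ⟶ Y') (x : PI X) (y : PI Y) :
    xp (pf f x) (pf g y) = pf (f ⊗ₘ g) (xp x y) :=
  hext₂ (f := (xp.comp (pf f)).compl₂ (pf g)) (g := xp.compr₂ (pf (f ⊗ₘ g)))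
    (fun k a l b => by simp [pf_el, xp_el]) x y

theorem xp_left {X' : T} (f : X ⟶ X') (x : PI X) (y : PI Y) :
    xp (pf f x) y = pf (f ▷ Y) (xp x y) := by
  rw [← tensorHom_id, ← xp_pf, pf_id]

theorem xp_right {Y' : T} (g : Y ⟶ Y') (x : PI X) (y : PI Y) :
    xp x (pf g y) = pf (X ◁ g) (xp x y) := by
  rw [← id_tensorHom, ← xp_pf, pf_id]

theorem xp_assoc (x : PI X) (y : PI Y) (z : PI Z) :
    pf (α_ X Y Z).hom (xp (xp x y) z) = xp x (xp y z) := by
  induction x using ind with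
  | h0 => simp
  | ha x x' h h' => simp only [map_add, AddMonoidHom.add_apply, h, h']
  | h1 k a =>
    refine hext₂ (f := ((xp.comp (xp (el (fr T k) a))).compr₂ (pf (α_ X Y Z).hom)))
      (g := xp.compr₂ (xp (el (fr T k) a))) (fun l b j c => ?_) y z
    simp only [AddMonoidHom.compr₂_apply, AddMonoidHom.comp_apply, xp_el, pf_el]
    rw [associator_naturality, el_comp (by ring) (isFr_associator _ _ _)]

variable (T) in
/-- the fundamental class of the unit -/
noncomputable def on : PI (𝟙_ T) := el (Fr.unit _) (𝟙 _)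

theorem on_xp (x : PI X) : xp (on T) x = pf (λ_ X).inv x :=
  hext (fun k a => by
    rw [on, xp_el, pf_el, ← el_comp (zero_add _) (isFr_leftUnitor (fr T k))]
    simp) x

theorem xp_on (x : PI X) : xp x (on T) = pf (ρ_ X).inv x :=
  hext (f := xp.flip (on T)) (fun k a => by
    rw [AddMonoidHom.flip_apply, on, xp_el, pf_el,
      ← el_comp (add_zero _) (isFr_rightUnitor (fr T k))]
    simp) x

theorem xp_comm {x : PI X} {y : PI Y} (h : x ∈ Dg X m) (h' : y ∈ Dg Y n) :
    pf (β_ X Y).hom (xp x y) = ((m * n).negOnePow : ℤ) • xp y x := by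
  obtain ⟨a, rfl⟩ := exists_el (fr T m) h
  obtain ⟨b, rfl⟩ := exists_el (fr T n) h'
  rw [xp_el, xp_el, pf_el, BraidedCategory.braiding_naturality,
    ← el_comp (add_comm _ _) (sg_fr (fr T m) (fr T n)), Preadditive.zsmul_comp, map_zsmul,
    smul_smul, sq_neg, one_smul]

variable {N N' : T} [MonObj N] [MonObj N']

noncomputable instance : Ring (PI N) where
  mul x y := pf μ[N] (xp x y)
  one := pf η[N] (on T)
  left_distrib x y z := by
    change pf _ (xp x (y + z)) = pf _ _ + pf _ _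
    rw [map_add, map_add]
  right_distrib x y z := by
    change pf _ (xp (x + y) z) = pf _ _ + pf _ _
    rw [map_add, AddMonoidHom.add_apply, map_add]
  zero_mul x := by
    change pf _ (xp 0 x) = 0
    simp
  mul_zero x := by
    change pf _ (xp x 0) = 0
    simp
  mul_assoc x y z := by
    change pf _ (xp (pf _ _) z) = pf _ (xp x (pf _ _))
    rw [xp_left, xp_right, ← xp_assoc, pf_pf, pf_pf, pf_pf, MonObj.mul_assoc]
  one_mul x := by
    change pf _ (xp (pf _ _) x) = x
    rw [xp_left, on_xp, pf_pf, pf_pf, MonObj.one_mul, Iso.inv_hom_id, pf_id]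
  mul_one x := by
    change pf _ (xp x (pf _ _)) = x
    rw [xp_right, xp_on, pf_pf, pf_pf, MonObj.mul_one, Iso.inv_hom_id, pf_id]

theorem mul_eq (x y : PI N) : x * y = pf μ[N] (xp x y) := rfl

theorem one_eq : (1 : PI N) = el (Fr.unit _) η[N] := (pf_el _ _ _).trans (by simp)

theorem mul_dg {x y : PI N} (h : x ∈ Dg N m) (h' : y ∈ Dg N n) : x * y ∈ Dg N (m + n) :=
  pf_mem _ (xp_mem h h')

theorem one_dg : (1 : PI N) ∈ Dg N 0 := one_eq (N := N) ▸ el_mem _ _

theorem mul_comm_of [IsCommMonObj N] {x y : PI N} (h : x ∈ Dg N m) (h' : y ∈ Dg N n) :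
    x * y = ((m * n).negOnePow : ℤ) • (y * x) := by
  rw [mul_eq, mul_eq, ← map_zsmul, ← xp_comm h h', pf_pf, IsCommMonObj.mul_comm]

/-- the ring map induced by a map of monoids -/
noncomputable def mapR (f : N ⟶ N') [IsMonHom f] : PI N →+* PI N' where
  __ := pf f
  map_one' := by
    change pf f (pf _ _) = pf _ _
    rw [pf_pf, IsMonHom.one_hom]
  map_mul' x y := by
    change pf f (pf _ _) = pf _ (xp (pf f x) (pf f y))
    rw [xp_pf, pf_pf, pf_pf, IsMonHom.mul_hom]

theorem pf_mul (f : N ⟶ N') [IsMonHom f] (x y : PI N) : pf f (x * y) = pf f x * pf f y :=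
  (mapR f).map_mul x y

theorem pf_one (f : N ⟶ N') [IsMonHom f] : pf f (1 : PI N) = 1 := (mapR f).map_one

end PI

/-- monoids of characteristic three -/
class Ch3 (N : T) [MonObj N] : Prop where
  three : (3 : ℤ) • η[N] = 0

theorem three_pi (N : T) [MonObj N] [Ch3 N] : ((3 : ℕ) : PI N) = 0 := by
  rw [← nsmul_one, ← natCast_zsmul, PI.one_eq, ← map_zsmul, Nat.cast_ofNat, Ch3.three, map_zero]

noncomputable instance piAlg (N : T) [MonObj N] [Ch3 N] : Algebra F3 (PI N) :=
  ZMod.algebra' (PI N) (ringChar (PI N)) (ringChar.dvd (three_pi N))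

/-- the algebra map induced by a map of monoids -/
noncomputable def mapA {N N' : T} [MonObj N] [MonObj N'] [Ch3 N] [Ch3 N'] (f : N ⟶ N')
    [IsMonHom f] : PI N →ₐ[F3] PI N' where
  __ := PI.mapR f
  commutes' := RingHom.congr_fun (RingHom.ext_zmod ((PI.mapR f).comp (algebraMap F3 _)) _)

theorem mapA_apply {N N' : T} [MonObj N] [MonObj N'] [Ch3 N] [Ch3 N'] (f : N ⟶ N')
    [IsMonHom f] (x : PI N) : mapA f x = PI.pf f x := rfl

theorem comm_F3 {N : T} [MonObj N] [IsCommMonObj N] [Ch3 N] {m n : ℤ} {x y : PI N}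
    (h : x ∈ PI.Dg N m) (h' : y ∈ PI.Dg N n) : x * y = (-1 : F3) ^ (m * n) • (y * x) := by
  rw [PI.mul_comm_of h h', ← Int.cast_smul_eq_zsmul F3, Int.cast_negOnePow]

/-! ### The even part -/

variable (T) in
/-- the framing of the even sphere `S^2` -/
noncomputable def f2 : FF 2 (stdEven T).L := ((Fr.self _).tensor (Fr.self _)).cast rfl

variable (T) in
/-- the framings of the even spheres -/
noncomputable def fe (n : ℤ) : FF (2 * n) ((stdEven T).S n) :=
  (exists_cmp (f2 T) ((stdEven T).fr n)).choose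

theorem cmp_fe (n : ℤ) : Cmp (f2 T) ((stdEven T).fr n) (fe T n) :=
  (exists_cmp (f2 T) ((stdEven T).fr n)).choose_spec

/-- the even part of the homotopy ring -/
noncomputable def io {N : T} [MonObj N] : HRing (stdEven T) N →+* PI N :=
  DirectSum.toSemiring (fun n => PI.el (fe T n))
    ((PI.el_comp (mul_zero _) (Cmp.isFr rfl (mul_zero _).symm rfl (cmp_fe 0) Cmp.unit
      (stdEven T).isFr_zeroIso') _).trans PI.one_eq.symm) fun {m n} a b => by
    rw [PI.mul_eq, PI.xp_el, PI.pf_el]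
    exact (congrArg _ (Category.assoc _ _ _)).trans (PI.el_comp (mul_add _ _ _)
      (Cmp.isFr rfl (mul_add _ _ _).symm rfl (cmp_fe _)
        (Cmp.tensor rfl rfl (cmp_fe m) (cmp_fe n)) (IsFr.inv' rfl ((stdEven T).isFr_mu m n _ rfl))) _)

theorem io_of {N : T} [MonObj N] (n : ℤ) (a : (stdEven T).S n ⟶ N) :
    io (HRing.of (stdEven T) N n a) = PI.el (fe T n) a := DirectSum.toSemiring_of _ _ _ _ _

theorem map_io {N N' : T} [MonObj N] [MonObj N'] (f : N ⟶ N') [IsMonHom f]
    (x : HRing (stdEven T) N) : PI.pf f (io x) = io (HRing.map f x) :=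
  RingHom.congr_fun (HRing.ringHom_ext (f := (PI.mapR f).comp io) (g := io.comp (HRing.map f))
    fun n a => by
      rw [RingHom.comp_apply, RingHom.comp_apply, HRing.map_of, io_of, io_of]
      exact PI.pf_el _ _ _) x

theorem co_io {N : T} [MonObj N] (n : ℤ) (x : HRing (stdEven T) N) :
    PI.co (2 * n) (io x) = (frIso (fr T _) (fe T n) rfl).hom ≫ x n := by
  induction x using DirectSum.induction_on with
  | zero => simp
  | add x y h h' => rw [map_add, map_add, h, h', DirectSum.add_apply, Preadditive.comp_add]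
  | of m a =>
    refine (congrArg _ (io_of m a)).trans ?_
    by_cases h : n = m
    · subst h
      rw [PI.el_def, PI.co_of, DirectSum.of_eq_same]
    · rw [PI.co_ne (PI.el_mem _ _) (by omega), DirectSum.of_eq_of_ne _ _ _ h, comp_zero]

theorem io_injective {N : T} [MonObj N] : Function.Injective (io (N := N)) := fun x y h =>
  DFinsupp.ext fun n => by
    have h1 := congrArg (PI.co (2 * n)) h
    rwa [co_io, co_io, cancel_epi] at h1

theorem io_comm {N : T} [MonObj N] [IsCommMonObj N] (x : HRing (stdEven T) N) (y : PI N) :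
    io x * y = y * io x := by
  induction x using DirectSum.induction_on with
  | zero => simp
  | add x x' h h' => rw [map_add, add_mul, mul_add, h, h']
  | of m a =>
    induction y using PI.ind with
    | h0 => simp
    | ha y y' h h' => rw [add_mul, mul_add, h, h']
    | h1 k b =>
      have h : io (DirectSum.of _ m a) ∈ PI.Dg N (2 * m) := io_of m a ▸ PI.el_mem _ _
      rw [PI.mul_comm_of h (PI.el_mem _ _), Int.negOnePow_even _ ((even_two_mul m).mul_right k),
        Units.val_one, one_smul]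

end Vale.Agent.N236
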