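import Vale.Agent.P236K.St.Defs
import Mathlib.RingTheory.FreeRing
import Mathlib.Algebra.Ring.NegOnePow
import Mathlib.Algebra.BigOperators.NatAntidiagonal
import Mathlib.RingTheory.TwoSidedIdeal.Operations

/-!
# P236, statement layer: the cobar complex of the dual Steenrod algebra and the `E_2` term

Algebra.  All cochains live in the free ring on the generators `(k, i, false)`, which is `ξ_{i+1}`
in the tensor factor `k`, and `(k, i, true)`, which is `τ_i` in the tensor factor `k`.  Modulo the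
ideal `Idl` (three and the sign rule), `Deg s t` is the part of degree `t` of the `s`-fold graded
tensor power of Milnor's algebra `A = F_3[ξ_1, ξ_2, …] ⊗ Λ[τ_0, τ_1, …]`; `face` are the cofaces of
the cobar construction, `Zc s t / Bc s t` is `Ext^{s,t}`, and `bb j` is the cocycle `b_j`.

Topology.  `pw H s` is the smash power `H ∧ ⋯ ∧ H` (`s + 1` factors), `cf` inserts the unit,
`Z1 A s n / B1 A s n` is the `E_2` term of an Adams tower and `pr` projects `pw H s` onto `E_1`.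
-/

noncomputable section

open Finset FreeRing

namespace Vale.Agent.N236

namespace Xt

/-- the degrees `|ξ_i| = 2 (3 ^ i - 1)` and `|τ_i| = 2 * 3 ^ i - 1` -/
def wt (a : ℕ × ℕ × Bool) : ℤ := if a.2.2 then 2 * 3 ^ a.2.1 - 1 else 2 * (3 ^ (a.2.1 + 1) - 1)

/-- the ideal of the relations `3 = 0` and `a b = (-1) ^ (|a| |b|) b a` -/
def Idl : TwoSidedIdeal (FreeRing (ℕ × ℕ × Bool)) :=
  .span {x | x = 3 ∨ ∃ a b, x = of a * of b - (wt a * wt b).negOnePow • (of b * of a)}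

/-- the span of the words of degree `t` in the generators of the factors `k < s` -/
def Deg (s : ℕ) (t : ℤ) : AddSubgroup (FreeRing (ℕ × ℕ × Bool)) :=
  .closure {x | ∃ l : List (ℕ × ℕ × Bool),
    (∀ a ∈ l, a.1 < s) ∧ (l.map wt).sum = t ∧ x = (l.map of).prod}

/-- `ξ_i` in the factor `k` (`ξ_0 = 1`) -/
def xi (k i : ℕ) : FreeRing (ℕ × ℕ × Bool) := if i = 0 then 1 else of (k, i - 1, false)

/-- The coface `j` on the generator `a` of the factor `k`: it moves to the factor `k + 1` if `j ≤ k`,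
it stays if `k + 1 < j`, and for `j = k + 1` Milnor's coproduct
`Δ τ_n = τ_n ⊗ 1 + ∑ ξ_{n-i} ^ (3 ^ i) ⊗ τ_i`, `Δ ξ_n = ∑ ξ_{n-i} ^ (3 ^ i) ⊗ ξ_i` is applied. -/
def img (j : ℕ) (a : ℕ × ℕ × Bool) : FreeRing (ℕ × ℕ × Bool) :=
  if j ≤ a.1 then of (a.1 + 1, a.2) else if a.1 + 1 < j then of a else
    if a.2.2 then of a + ∑ p ∈ antidiagonal a.2.1, xi a.1 p.1 ^ 3 ^ p.2 * of (j, p.2, true)
    else ∑ p ∈ antidiagonal (a.2.1 + 1), xi a.1 p.1 ^ 3 ^ p.2 * xi j p.2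

/-- the coface `j` of the cobar construction -/
def face (j : ℕ) := FreeRing.lift (img j)

/-- the cobar differential: the alternating sum of the cofaces -/
def dC (s : ℕ) (z : FreeRing (ℕ × ℕ × Bool)) := ∑ j ∈ range (s + 2), (-1 : ℤ) ^ j • face j z

/-- the cocycles of bidegree `(s, t)` -/
def Zc (s : ℕ) (t : ℤ) := {z ∈ Deg s t | dC s z ∈ Idl}

/-- the coboundaries of bidegree `(s, t)` -/
def Bc (s : ℕ) (t : ℤ) := {z | z ∈ Idl ∨ ∃ r, s = r + 1 ∧ ∃ y ∈ Deg r t, z - dC r y ∈ Idl}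

/-- the cocycle `b_j = ∑_{0 < i < 3} (1 / 3) (3 choose i) [ξ_1 ^ (i 3 ^ j) | ξ_1 ^ ((3 - i) 3 ^ j)]` -/
def bb (j : ℕ) :=
  ∑ i ∈ Ioo 0 3, (Nat.choose 3 i / 3) • (xi 0 1 ^ (i * 3 ^ j) * xi 1 1 ^ ((3 - i) * 3 ^ j))

end Xt

open CategoryTheory MonoidalCategory Vale.Agent.P251.St Vale.Agent.P251.St.SHCat
  Vale.Agent.P236Z.St Vale.Agent.P236K.St

variable {T : SHCat}

/-- `f` is additive and induces an isomorphism `Z / B ≅ Z' / B'`. -/
def Xt.Ind {P Y : T.C} (f : FreeRing (ℕ × ℕ × Bool) → Hom P Y) (Z B : Set (FreeRing (ℕ × ℕ × Bool)))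
    (Z' B' : Set (Hom P Y)) : Prop :=
  (∀ a b, f (a + b) = f a + f b) ∧ Set.MapsTo f Z Z' ∧ (∀ z ∈ Z, f z ∈ B' ↔ z ∈ B) ∧
    ∀ x ∈ Z', ∃ z ∈ Z, x - f z ∈ B'

/-- the smash power `H ∧ ⋯ ∧ H` with `s + 1` factors -/
def pw (H : T.C) (s : ℕ) : T.C := s.rec H fun _ Y => ten H Y

/-- the product ring structure of the smash power -/
instance pwMon (H : T.C) [h : MonObj H] (s : ℕ) : MonObj (pw H s) :=
  s.rec h fun s m => @Mon.instMonObjTensorObj _ _ _ _ H (pw H s) h m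

/-- the coface `j`: insertion of the unit `u` in the position `j` -/
def cf {H : T.C} (u : Hom T.one H) (s : ℕ) : ℕ → Hom (pw H s) (pw H (s + 1)) :=
  s.rec (fun j => j.casesOn (hur u H) fun _ => comp (hur u H) (symm H H))
    fun s f j => j.casesOn (hur u (pw H (s + 1))) fun j => tenHom (ident H) (f j)

/-- the iterated suspension of a map -/
def susM (s : ℕ) {P Y : T.C} : Hom P Y → Hom (sus^[s] P) (sus^[s] Y) :=
  s.rec (motive := fun s => ∀ P Y : T.C, Hom P Y → Hom (sus^[s] P) (sus^[s] Y)) (fun _ _ f => f)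
    (fun _ q P Y f => q (sus P) (sus Y) (f⟦(1 : ℤ)⟧')) P Y

/-- the canonical isomorphism `H ∧ Σ^s Y ⟶ Σ^s (H ∧ Y)` -/
def exchN (H : T.C) (s : ℕ) : ∀ Y : T.C, Hom (ten H (sus^[s] Y)) (sus^[s] (ten H Y)) :=
  s.rec (fun Y => ident (ten H Y)) fun s q Y => comp (q (sus Y)) (susM s (exch H Y))

variable {H : T.C} {u : Hom T.one H} (A : AdamsTower u)

/-- The projection `H ∧ ⋯ ∧ H ⟶ Σ^s (H ∧ X s)` onto the `E_1` term, induced by the connecting
maps of the tower. -/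
def pr (s : ℕ) : Hom (pw H s) (sus^[s] (ten H (A.X s))) :=
  s.rec (comp (hur A.base.inv H) (symm (A.X 0) H)) fun s q =>
    comp (tenHom (ident H) (comp q (susM s (A.d s)))) (exchN H (s + 1) (A.X (s + 1)))

/-- the first differential `H ∧ X s ⟶ Σ X (s + 1) ⟶ Σ (H ∧ X (s + 1))` -/
def d1 (s : ℕ) : Hom (ten H (A.X s)) (sus (ten H (A.X (s + 1)))) :=
  comp (A.d s) (susM 1 (hur u (A.X (s + 1))))

/-- the `d_1`-cocycles in `E_1^{s, n + s} = π_n (H ∧ X s)` -/
def Xt.Z1 (s : ℕ) (n : ℤ) : Set (Hom (sph T n) (ten H (A.X s))) := {x | comp x (d1 A s) = 0}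

/-- the `d_1`-boundaries: the classes whose suspension is `d_1` of a class of `π_{n+1}` -/
def Xt.B1 (s : ℕ) (n : ℤ) : Set (Hom (sph T n) (ten H (A.X s))) :=
  s.casesOn {0} fun s => {x | ∃ y, susM 1 x = comp y (d1 A s)}

end Vale.Agent.N236
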