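import Vale.Agent.N236.Ser

/-!
# P236: the classes `ξ_i` and `τ_i` in the homotopy of `H ⊗ H` and their coproducts
-/

open CategoryTheory MonoidalCategory MonObj Limits Pretriangulated Finset

set_option linter.unusedSectionVars false

universe u

namespace Vale.Agent.N236

open Vale.Agent.P251 Vale.Agent.P251.S Vale.Agent.P251.T Vale.Agent.P251.M Vale.Agent.P251.F
  Vale.Agent.P251.I Vale.Agent.P251.H Vale.Agent.P257.H80 Vale.Agent.P236K.St5
  Vale.Agent.P236K.St Vale.Agent.P236Z Vale.Agent.P217 PI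

variable {T : Type u} [Category.{0} T] [Preadditive T] [HasZeroObject T]
    [HasShift T ℤ] [∀ n : ℤ, (shiftFunctor T n).Additive] [Pretriangulated T] [IsTriangulated T]
    [MonoidalCategory T] [SymmetricCategory T] [TensorTriangulated T] [MonoidalClosed T]
    [HasCoproducts.{0} T] [HasProducts.{0} T] [StableCat T] [LocallySmall.{0} T]

section pi

variable {X Y Z P : T} {n : ℤ}

theorem pf_exact {f : X ⟶ Y} {g : Y ⟶ Z} {h : Z ⟶ X⟦(1 : ℤ)⟧} (D : P251.H.Dist f g h) (y : PI Y)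
    (hy : pf g y = 0) : ∃ x, pf f x = y := by
  classical
  change y ∈ (pf f).range
  have h1 : y = ∑ k ∈ DFinsupp.support (β := fun k : ℤ => ((𝟙_ T)⟦k⟧ ⟶ Y)) y, ofd k (co k y) :=
    (DirectSum.sum_support_of (β := fun k : ℤ => ((𝟙_ T)⟦k⟧ ⟶ Y)) y).symm
  rw [h1]
  refine sum_mem fun k _ => ?_
  obtain ⟨a, ha⟩ := D.lift₂ (co k y) (by rw [← co_pf, hy, map_zero])
  exact ⟨el (fr T k) a, by rw [pf_el, ha, el_fr]⟩

theorem pf_of_co (f : X ⟶ Y) (k : ℤ) (x : PI X) :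
    pf f (ofd k (co k x)) = ofd k (co k (pf f x)) := by
  rw [co_pf, ← el_fr, ← el_fr, pf_el]

/-- the odd part -/
noncomputable def od : PI X →+ PI X := dsc fun k => if Odd k then el (fr T k) else 0

theorem od_of_mem {x : PI X} (h : x ∈ Dg X n) : od x = if Odd n then x else 0 := by
  obtain ⟨a, rfl⟩ := exists_el (fr T n) h
  rw [od, desc_el]
  split_ifs <;> rfl

theorem od_pf (f : X ⟶ Y) (x : PI X) : od (pf f x) = pf f (od x) :=
  hext (f := od.comp (pf f)) (g := (pf f).comp od) (fun k a => by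
    rw [AddMonoidHom.comp_apply, AddMonoidHom.comp_apply, od_of_mem (pf_mem f (el_mem _ _)), od_of_mem (el_mem _ _), apply_ite (pf f), map_zero]) x

theorem od_zero (h : P251.X.Odd0 X) (x : PI X) : od x = 0 :=
  hext (g := 0) (fun k a => by
    rw [od_of_mem (el_mem _ _)]
    split_ifs with hk
    · obtain ⟨l, rfl⟩ := hk
      rw [h l a, map_zero, map_zero]
    · rfl) x

theorem od_mul {N : T} [MonObj N] (x : PI N) (y : HRing (stdEven T) N) :
    od (x * io y) = od x * io y := by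
  induction y using DirectSum.induction_on with
  | zero => simp
  | add y y' h h' => rw [map_add, mul_add, mul_add, map_add, h, h']
  | of m a =>
    have h : io (DirectSum.of _ m a) ∈ Dg N (2 * m) := io_of m a ▸ el_mem _ _
    refine hext (f := od.comp (AddMonoidHom.mulRight _)) (g := (AddMonoidHom.mulRight _).comp od)
      (fun k b => ?_) x
    simp only [AddMonoidHom.comp_apply, AddMonoidHom.mulRight_apply]
    rw [od_of_mem (mul_dg (el_mem _ _) h), od_of_mem (el_mem _ _), ite_mul, zero_mul]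
    simp [Int.odd_add]

variable (T) in
/-- the fundamental class of the circle -/
noncomputable def sg1 : PI (S1 T) := el (Fr.self _) (𝟙 _)

end pi

variable {H : T} [MonObj H]

variable (H) in
/-- objects which are injective relative to `H` -/
def Ij (N : T) : Prop := ∀ (Y : T) (y : Y ⟶ N), ∃ y', unitMap H Y ≫ y' = y

theorem ij_of_act {N : T} (act : H ⊗ N ⟶ N) (h : unitMap H N ≫ act = 𝟙 N) : Ij H N := fun _ y =>
  ⟨H ◁ y ≫ act, by rw [← unitMap_nat_assoc, h, Category.comp_id]⟩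

theorem ij_hom {N : T} [MonObj N] (f : H ⟶ N) [IsMonHom f] : Ij H N := ij_of_act _ (unit_act f)

theorem ij_ten (Z : T) : Ij H (H ⊗ Z) := ij_of_act _ (unitMap_mulMap Z)

theorem Ij.kill {N P Y : T} (h : Ij H N) {a : P ⟶ Y} (ha : a ≫ unitMap H Y = 0) (y : Y ⟶ N) :
    a ≫ y = 0 := by
  obtain ⟨y, rfl⟩ := h Y y
  rw [reassoc_of% ha, zero_comp]

theorem eta_shift : η[H]⟦(1 : ℤ)⟧' = unitMap H (S1 T) ≫ (TensorTriangulated.e H).hom := by
  rw [unitMap, Category.assoc, TensorTriangulated.e_naturality, TensorTriangulated.e_unit,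
    Iso.inv_hom_id_assoc]

/-- the suspension isomorphism -/
noncomputable def jj (X : T) : S1 T ⊗ X ≅ X⟦(1 : ℤ)⟧ := β_ _ _ ≪≫ TensorTriangulated.e X

@[reassoc]
theorem jj_nat {X Y : T} (f : X ⟶ Y) : (jj X).hom ≫ f⟦(1 : ℤ)⟧' = S1 T ◁ f ≫ (jj Y).hom := by
  simp [jj, ← TensorTriangulated.e_naturality]

variable {C : T} {δ : H ⟶ C} {b : C ⟶ (𝟙_ T)⟦(1 : ℤ)⟧} (hC : P251.H.Dist η[H] δ b)

section cone

include hC

theorem dl_inj {N : T} (hN : Ij H N) {a a' : C ⟶ N} (h : δ ≫ a = δ ≫ a') : a = a' := by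
  obtain ⟨c, hc⟩ := hC.desc₃ (a - a') (by rw [Preadditive.comp_sub, h, sub_self])
  rw [← sub_eq_zero, ← hc]
  refine hN.kill ?_ c
  rw [← cancel_mono (TensorTriangulated.e H).hom, Category.assoc, ← eta_shift, hC.zero₃₁, zero_comp]

theorem distX (X : T) : P251.H.Dist (unitMap H X) (δ ▷ X) (b ▷ X ≫ (jj X).hom) := by
  have h := Tr.dist_iso (tens_dist X hC) (ρ_ X).symm (β_ H X) (β_ C X) (f' := unitMap H X)
    (g' := δ ▷ X) (by simp [unitMap]) (by simp)
  have h1 : (β_ C X).hom ≫ tensδ X b ≫ ((ρ_ X).symm.inv)⟦(1 : ℤ)⟧' = b ▷ X ≫ (jj X).hom := by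
    simp [tensδ, jj, ← TensorTriangulated.e_naturality, P251.X.e_unit_inv]
  exact h1 ▸ h

end cone

variable (δ) in
open Classical in
/-- the difference of two ring maps on the cofibre of the unit -/
noncomputable def th {N : T} (f f' : H ⟶ N) : C ⟶ N :=
  if h : ∃ t, δ ≫ t = f' - f then h.choose else 0

variable {N N' : T} [MonObj N] [MonObj N'] {E E' : T}

section th

include hC

variable (f f' f'' : H ⟶ N) [IsMonHom f] [IsMonHom f'] [IsMonHom f'']

theorem th_spec : δ ≫ th δ f f' = f' - f := by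
  have h : ∃ t, δ ≫ t = f' - f := hC.desc₂ _ (by simp)
  rw [th, dif_pos h]
  exact h.choose_spec

theorem th_trans : th δ f f'' = th δ f f' + th δ f' f'' := dl_inj hC (ij_hom f) (by
  rw [Preadditive.comp_add, th_spec hC, th_spec hC, th_spec hC, sub_add_sub_cancel'])

theorem th_comp (k : N ⟶ N') [IsMonHom k] : th δ f f' ≫ k = th δ (f ≫ k) (f' ≫ k) :=
  dl_inj hC (ij_hom (f ≫ k)) (by
    rw [reassoc_of% th_spec hC f f', th_spec hC, Preadditive.sub_comp])

end th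

variable (b) in
/-- `z'` is a lift of `z` to the cofibre of the Hurewicz map -/
def Lf (z : PI E) (z' : PI (C ⊗ E)) : Prop := pf (b ▷ E) z' = xp (sg1 T) z

include hC in
theorem exists_lf {z : PI E} (h : pf (unitMap H E) z = 0) : ∃ z', Lf b z z' := by
  obtain ⟨z', hz⟩ := pf_exact (distX hC E).rot.rot (pf (jj E).hom (xp (sg1 T) z)) (by
    rw [pf_pf, Preadditive.comp_neg, jj_nat, ← zero_sub, pf_sub, pf_zero, ← pf_pf, ← xp_right, h,
      map_zero, map_zero, sub_zero])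
  exact ⟨z', (map_bij (jj E).hom).1 (by rw [pf_pf, hz])⟩

theorem Lf.map {z : PI E} {z' : PI (C ⊗ E)} (h : Lf b z z') (k : E ⟶ E') :
    Lf b (pf k z) (pf (C ◁ k) z') := by
  rw [Lf, xp_right, ← h, pf_pf, pf_pf, whisker_exchange]

variable (b) in
open Classical in
/-- the secondary operation -/
noncomputable def DD (θ : C ⟶ N) (g : E ⟶ N) (z : PI E) : PI N :=
  if h : ∃ z', Lf b z z' then od (pf ((θ ⊗ₘ g) ≫ μ[N]) h.choose) else 0

theorem DD_add_left (θ θ' : C ⟶ N) (g : E ⟶ N) (z : PI E) :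
    DD b (θ + θ') g z = DD b θ g z + DD b θ' g z := by
  unfold DD
  split_ifs
  · rw [MonoidalPreadditive.add_tensor, Preadditive.add_comp, pf_add, map_add]
  · exact (add_zero _).symm

theorem DD_map (θ : C ⟶ N) (g : E ⟶ N) (z : PI E) (k : N ⟶ N') [IsMonHom k] :
    pf k (DD b θ g z) = DD b (θ ≫ k) (g ≫ k) z := by
  unfold DD
  split_ifs
  · rw [← od_pf, pf_pf, Category.assoc, IsMonHom.mul_hom, tensorHom_comp_tensorHom_assoc]
  · exact map_zero _

theorem tri_mul {A B B' : T} (a : A ⟶ N) (c : B ⟶ N) (c' : B' ⟶ N) :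
    (α_ A B B').hom ≫ (a ⊗ₘ ((c ⊗ₘ c') ≫ μ[N])) ≫ μ[N] = (((a ⊗ₘ c) ≫ μ[N]) ⊗ₘ c') ≫ μ[N] := by
  have h1 : ((a ⊗ₘ c) ≫ μ[N]) ⊗ₘ c' = ((a ⊗ₘ c) ⊗ₘ c') ≫ μ[N] ▷ N := by
    rw [← tensorHom_id, tensorHom_comp_tensorHom, Category.comp_id]
  have h2 : a ⊗ₘ ((c ⊗ₘ c') ≫ μ[N]) = (a ⊗ₘ (c ⊗ₘ c')) ≫ N ◁ μ[N] := by
    rw [← id_tensorHom, tensorHom_comp_tensorHom, Category.comp_id]
  rw [h1, h2, Category.assoc, Category.assoc, MonObj.mul_assoc, associator_naturality_assoc]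

section DD

variable (hE : P251.X.Odd0 (H ⊗ E)) (θ : C ⟶ N) (g : E ⟶ N)

include hC hE

theorem DD_eq {z : PI E} {z' : PI (C ⊗ E)} (h : Lf b z z') :
    DD b θ g z = od (pf ((θ ⊗ₘ g) ≫ μ[N]) z') := by
  have h1 : ∃ z', Lf b z z' := ⟨z', h⟩
  obtain ⟨y, hy⟩ := pf_exact (distX hC E).rot (h1.choose - z') (by
    rw [← pf_pf, (pf (b ▷ E)).map_sub, h1.choose_spec, h, sub_self, map_zero])
  rw [DD, dif_pos h1, ← sub_eq_zero, ← map_sub, ← map_sub, ← hy, od_pf, od_pf, od_zero hE,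
    map_zero, map_zero]

theorem DD_mem {z : PI E} {k : ℤ} (hz : z ∈ Dg E k) : DD b θ g z ∈ Dg N (1 + k) := by
  by_cases h : ∃ z', Lf b z z'
  · obtain ⟨z', h⟩ := h
    have h1 : Lf b z (ofd (1 + k) (co (1 + k) z')) := by
      rw [Lf, pf_of_co, h, sg1, of_co (xp_mem (el_mem _ _) hz)]
    have h2 := pf_mem ((θ ⊗ₘ g) ≫ μ[N]) (x := ofd (1 + k) (co (1 + k) z')) ⟨_, rfl⟩
    rw [DD_eq hC hE θ g h1, od_of_mem h2]
    split_ifs
    exacts [h2, zero_mem _]
  · rw [DD, dif_neg h]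
    exact zero_mem _

theorem DD_add {z w : PI E} (hz : pf (unitMap H E) z = 0) (hw : pf (unitMap H E) w = 0) :
    DD b θ g (z + w) = DD b θ g z + DD b θ g w := by
  obtain ⟨z', hz⟩ := exists_lf hC hz
  obtain ⟨w', hw⟩ := exists_lf hC hw
  rw [DD_eq hC hE θ g hz, DD_eq hC hE θ g hw, ← map_add, ← map_add]
  exact DD_eq hC hE θ g (by rw [Lf, map_add, map_add, hz, hw])

theorem DD_mul [MonObj E] [IsMonHom g] {z : PI E} (hz : pf (unitMap H E) z = 0)
    (y : HRing (stdEven T) E) : DD b θ g (z * io y) = DD b θ g z * io (HRing.map g y) := by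
  obtain ⟨z', hz⟩ := exists_lf hC hz
  have h : Lf b (z * io y) (pf ((α_ _ _ _).hom ≫ C ◁ μ[E]) (xp z' (io y))) := by
    rw [Lf, mul_eq, xp_right, ← xp_assoc, ← hz, xp_left, pf_pf, pf_pf, pf_pf, Category.assoc,
      whisker_exchange, associator_naturality_left_assoc]
  rw [DD_eq hC hE θ g hz, DD_eq hC hE θ g h, ← od_mul, ← map_io, mul_eq, xp_pf, pf_pf, pf_pf]
  congr 3
  rw [Category.assoc, ← id_tensorHom, tensorHom_comp_tensorHom_assoc, IsMonHom.mul_hom,
    Category.id_comp, tri_mul]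

theorem DD_nat {E₀ : T} (k : E₀ ⟶ E) (h₀ : P251.X.Odd0 (H ⊗ E₀)) {z : PI E₀}
    (hz : pf (unitMap H E₀) z = 0) : DD b θ g (pf k z) = DD b θ (k ≫ g) z := by
  obtain ⟨z', hz⟩ := exists_lf hC hz
  rw [DD_eq hC hE θ g (hz.map k), DD_eq hC h₀ θ _ hz, pf_pf, ← id_tensorHom,
    tensorHom_comp_tensorHom_assoc, Category.id_comp]

end DD

variable {F : SpaceFunctor T} {e : F.S.obj CCF ≅ (stdEven T).L} {D : MUData T}
  [IsCommMonObj H] [IsCommMonObj N] [IsCommMonObj N'] (hU : MUUniv e D) (hH : Tr.IsHF 3 η[H])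
  (u : D.R ⟶ H) [IsMonHom u]

variable (D) in
/-- the coefficients of the `3`-series -/
noncomputable def ww (d : ℕ) : HRing (stdEven T) D.R := PowerSeries.coeff d (multSeries D.law.toFG 3)

theorem map_ww (a : D.R ⟶ N) [IsMonHom a] (d : ℕ) :
    HRing.map a (ww D d) = PowerSeries.coeff d (multSeries (lawOf a).toFG 3) := by
  rw [lawOf, Law.map_toFG, ← map_multSeries, PowerSeries.coeff_map, ww]

theorem ww_mem (d : ℕ) : io (ww D (d + 1)) ∈ Dg D.R (2 * d) := by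
  obtain ⟨a, ha⟩ := D.ev_wt 0 _ _ (isWt_w d)
  have h : ww D (d + 1) = HRing.of (stdEven T) D.R d (a ≫ amOne D.R) := by
    rw [← HRing.map_of, ← ha, ww, MUData.law, MUData.law1, Law.map_toFG, Law.map_toFG,
      ← map_multSeries, ← map_multSeries, PowerSeries.coeff_map, PowerSeries.coeff_map]
    rfl
  rw [h, io_of]
  exact el_mem _ _

/-- the class `ξ_n` -/
noncomputable def XI (f f' : H ⟶ N) [IsMonHom f] [IsMonHom f'] (n : ℕ) : PI N :=
  io (PowerSeries.coeff (3 ^ n) (ser (u ≫ f) (u ≫ f')).val)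

variable (δ b) in
/-- the class `τ_n` -/
noncomputable def TAU (f f' : H ⟶ N) (n : ℕ) : PI N := DD b (th δ f f') (u ≫ f) (io (ww D (3 ^ n)))

variable (f f' f'' : H ⟶ N) [IsMonHom f] [IsMonHom f'] [IsMonHom f'']

theorem XI_zero : XI u f f' 0 = 1 := (congrArg io (ser_strict _ _)).trans io.map_one

theorem XI_congr {g g' : H ⟶ N} [IsMonHom g] [IsMonHom g'] (h : f = g) (h' : f' = g') (n : ℕ) :
    XI u f f' n = XI u g g' n := by
  subst h h'
  rfl

theorem XI_map (k : N ⟶ N') [IsMonHom k] (n : ℕ) :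
    pf k (XI u f f' n) = XI u (f ≫ k) (f' ≫ k) n := by
  rw [XI, XI, map_io, ser_congr _ _ (Category.assoc u f k).symm (Category.assoc u f' k).symm,
    ser_comp]
  rfl

theorem XI_mem (n : ℕ) : XI u f f' (n + 1) ∈ Dg N (2 * (3 ^ (n + 1) - 1)) := by
  have h4 : 3 ≤ 3 ^ (n + 1) := Nat.le_self_pow (by omega) 3
  obtain ⟨m, hm⟩ : ∃ m, 3 ^ (n + 1) = m + 1 + 1 := ⟨3 ^ (n + 1) - 2, by omega⟩
  obtain ⟨a, ha⟩ := isHomog_ser (u ≫ f) (u ≫ f') m
  have h : (3 : ℤ) ^ (n + 1) - 1 = (m + 1 : ℕ) := by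
    rw [sub_eq_iff_eq_add]
    exact_mod_cast hm
  rw [XI, hm, h]
  exact (congrArg io ha).trans (io_of _ _) ▸ el_mem _ _

include hC in
theorem TAU_map (k : N ⟶ N') [IsMonHom k] (n : ℕ) :
    pf k (TAU δ b u f f' n) = TAU δ b u (f ≫ k) (f' ≫ k) n := by
  rw [TAU, TAU, DD_map, th_comp hC, Category.assoc]

include hU hH

theorem ser_add : ser (u ≫ f) (u ≫ f') • P251.F.addLaw (HRing (stdEven T) N) = P251.F.addLaw _ := by
  rw [← law_add hU hH u f, ser_smul, law_add hU hH, law_add hU hH]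

theorem XI_trans (n : ℕ) : XI u f f'' n =
    ∑ p ∈ antidiagonal n, XI u f f' p.1 ^ 3 ^ p.2 * XI u f' f'' p.2 := by
  rw [XI, ser_trans _ (u ≫ f'), coeff_mul_val (three_ring (three_hom f (BD.three_H hH)))
    (ser_add hU hH u f' f''), map_sum]
  exact sum_congr rfl fun p _ => by rw [map_mul, map_pow]; rfl

include u f in
theorem map_ww_zero (a : D.R ⟶ N) [IsMonHom a] (d : ℕ) : HRing.map a (ww D d) = 0 := by
  rw [map_ww]
  rcases d with _ | d
  · exact (PowerSeries.coeff_zero_eq_constantCoeff_apply _).trans (constantCoeff_multSeries _ _)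
  refine Ideal.mem_bot.1 ((IF_le_iff 3 _ (d + 1) ⊥).2 (fun i hi => ?_)
    (coeff_multSeries_mem 3 _ (d + 1) _ (Nat.not_dvd_of_pos_of_lt d.succ_pos
      (Nat.lt_pow_self (by norm_num)))))
  refine P251.X.vv_lawOf_lt (u ≫ f) a (fun i _ => ?_) hi
  exact (congrArg (vv 3 i) (law_add hU hH u f)).trans
    (vv_add (three_ring (three_hom f (BD.three_H hH))) i)

include u in
theorem ww_unit (d : ℕ) : pf (unitMap H D.R) (io (ww D d)) = 0 :=
  (map_io (inrM H D.R) _).trans (by rw [map_ww_zero hU hH u (inlM H D.R), map_zero])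

include u in
theorem oddR : P251.X.Odd0 (H ⊗ D.R) := odd_R hU u (BD.odd_H hH)

include hC

include u in
theorem DD_ww_mem (θ : C ⟶ N) (g : D.R ⟶ N) (n : ℕ) :
    DD b θ g (io (ww D (3 ^ n))) ∈ Dg N (2 * 3 ^ n - 1) := by
  obtain ⟨m, hm⟩ : ∃ m, 3 ^ n = m + 1 := ⟨3 ^ n - 1, by have : 0 < 3 ^ n := by positivity
                                                        omega⟩
  have h : 2 * (3 : ℤ) ^ n - 1 = 1 + 2 * m := by
    rw [show (3 : ℤ) ^ n = m + 1 by exact_mod_cast hm]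
    ring
  rw [hm, h]
  exact DD_mem hC (oddR hU hH u) θ g (ww_mem m)

theorem DD_ww_zero (θ : C ⟶ N) (d : ℕ) (hd : ∀ i, d ≠ 3 ^ i) :
    DD b θ (u ≫ f) (io (ww D d)) = 0 := by
  have ho := oddR hU hH u
  have h0 : DD b θ (u ≫ f) 0 = 0 := by
    rw [DD_eq hC ho θ _ (z' := 0) ((map_zero _).trans (map_zero _).symm), map_zero, map_zero]
  rcases d with _ | d
  · rw [ww, PowerSeries.coeff_zero_eq_constantCoeff_apply, constantCoeff_multSeries, io.map_zero, h0]
  have key : ∀ x ∈ IF 3 D.law.toFG (d + 1), pf (unitMap H D.R) (io x) = 0 ∧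
      co (1 + 2 * d) (DD b θ (u ≫ f) (io x)) = 0 := by
    intro x hx
    induction hx using Submodule.span_induction with
    | mem x hx =>
      obtain ⟨i, -, rfl⟩ := hx
      refine ⟨ww_unit hU hH u _, co_ne (DD_ww_mem hC hU hH u θ _ i) fun h => hd i ?_⟩
      have h1 : ((d + 1 : ℕ) : ℤ) = 3 ^ i := by push_cast; omega
      exact_mod_cast h1
    | zero => rw [map_zero, map_zero, h0, map_zero]; exact ⟨rfl, rfl⟩
    | add x y _ _ h h' =>
      rw [map_add, map_add, DD_add hC ho θ _ h.1 h'.1, map_add, h.1, h.2, h'.1, h'.2]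
      exact ⟨add_zero _, add_zero _⟩
    | smul y x _ h =>
      obtain ⟨m, hm⟩ := pi_H hH (io (HRing.map u y))
      rw [smul_eq_mul, mul_comm, map_mul, DD_mul hC ho θ _ h.1, HRing.map_comp, RingHom.comp_apply,
        ← map_io, hm, map_zsmul, pf_one, mul_smul_comm, _root_.mul_one, map_zsmul, h.2, smul_zero]
      exact ⟨(pf_mul (inrM H D.R) _ _).trans (by erw [h.1]; rw [zero_mul]), rfl⟩
  rw [← of_co (DD_mem hC ho θ _ (ww_mem d)), (key (ww D (d + 1)) (coeff_multSeries_mem 3 _ (d + 1) _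
    (Nat.not_dvd_of_pos_of_lt d.succ_pos (Nat.lt_pow_self (by norm_num))))).2, map_zero]

theorem DD_ser (θ : C ⟶ N) (n : ℕ) : DD b θ (u ≫ f) (io (ww D (3 ^ n))) =
    ∑ p ∈ antidiagonal n, XI u f f' p.1 ^ 3 ^ p.2 * DD b θ (u ≫ f') (io (ww D (3 ^ p.2))) := by
  have ho := oddR hU hH u
  have ho' : P251.X.Odd0 (H ⊗ (D.R ⊗ D.R)) := fun l a => by
    rw [← cancel_mono (α_ _ _ _).inv, zero_comp]
    exact odd_R hU (inrM H D.R) ho l _
  let g := descM (u ≫ f) (u ≫ f')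
  let I := RingHom.ker (HRing.map (E := stdEven T) (inrM H (D.R ⊗ D.R)))
  have hI : ∀ x ∈ I, pf (unitMap H (D.R ⊗ D.R)) (io x) = 0 := fun x hx =>
    (map_io (inrM H _) x).trans (by rw [RingHom.mem_ker.1 hx, map_zero])
  have hW : ∀ (a : D.R ⟶ D.R ⊗ D.R) [IsMonHom a] (d : ℕ),
      PowerSeries.coeff d (multSeries (lawOf a).toFG 3) ∈ I := fun a _ d => by
    rw [← map_ww, RingHom.mem_ker, map_map_eq rfl, map_ww_zero hU hH u (inlM H _)]
  have hD : ∀ (a : D.R ⟶ D.R ⊗ D.R) [IsMonHom a] (d : ℕ), DD b θ g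
      (io (PowerSeries.coeff d (multSeries (lawOf a).toFG 3))) = DD b θ (a ≫ g) (io (ww D d)) :=
    fun a _ d => by rw [← map_ww, ← map_io, DD_nat hC ho' θ g a ho (ww_unit hU hH u d)]
  have h := der_series (I := I) (g := HRing.map g) (δ := fun x => DD b θ g (io x))
    (fun x hx y hy => by rw [map_add, DD_add hC ho' θ g (hI x hx) (hI y hy)])
    (fun x hx y => by rw [map_mul, DD_mul hC ho' θ g (hI x hx)])
    (fun x hx => by rw [← map_map_eq (inrM_descM f g), RingHom.mem_ker.1 hx, map_zero])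
    (ser_strict (inlM D.R D.R) (inrM D.R D.R)) (hW (inlM D.R D.R)) (hW (inrM D.R D.R))
    (constantCoeff_multSeries _ _) (by
      rw [← ser_smul (inlM D.R D.R) (inrM D.R D.R)]
      exact smul_multSeries _ (lawOf (inlM D.R D.R)) 3) (3 ^ n)
  simp only [hD, ← ser_comp, g, inlM_descM, inrM_descM] at h
  rw [h, sum_pow3 (three_ring (three_hom f (BD.three_H hH)))
    (fun d x => DD b θ (u ≫ f') (io (ww D d)) * io x)
    fun d x hd => by rw [DD_ww_zero hC hU hH u f' θ d hd, zero_mul]]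
  exact sum_congr rfl fun p _ => by rw [← io_comm, map_pow]; rfl

theorem TAU_trans (n : ℕ) : TAU δ b u f f'' n = TAU δ b u f f' n +
    ∑ p ∈ antidiagonal n, XI u f f' p.1 ^ 3 ^ p.2 * TAU δ b u f' f'' p.2 := by
  rw [TAU, th_trans hC f f' f'', DD_add_left, DD_ser hC hU hH u f f' (th δ f' f'')]
  rfl

omit hU hH hC in
include F in
theorem end_S1 (w : S1 T ⟶ S1 T) : ∃ m : ℤ, w = m • 𝟙 _ := by
  obtain ⟨w, rfl⟩ := (shiftFunctor T (1 : ℤ)).map_surjective w
  obtain ⟨m, rfl⟩ := exists_int_unit F w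
  exact ⟨m, by rw [Functor.map_zsmul, CategoryTheory.Functor.map_id]⟩

omit hU in
include F D in
theorem hurewicz_ne {z : S1 T ⟶ C} (hz : z ≫ b = (3 : ℤ) • 𝟙 _) : z ≫ unitMap H C ≠ 0 := by
  intro h
  have c1 : Conn 1 (S1 T) := D.conn_unit.shift 1 1 rfl
  have hc : ∀ k : ℤ, k < 2 → ∀ y : (𝟙_ T)⟦k⟧ ⟶ C, ∃ a : (𝟙_ T)⟦k⟧ ⟶ S1 T, y = a ≫ z := by
    intro k hk y
    have key : ∀ y : (𝟙_ T)⟦k⟧ ⟶ C, y ≫ b = 0 → y = 0 := fun y hy => by
      obtain ⟨x, rfl⟩ := hC.lift₃ y hy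
      by_cases h0 : k = 0
      · subst h0
        obtain ⟨m, hm⟩ := hH.gen ((shiftFunctorZero T ℤ).inv.app _ ≫ x)
        rw [← cancel_epi ((shiftFunctorZero T ℤ).inv.app _), reassoc_of% hm, Preadditive.zsmul_comp,
          hC.zero₁₂, smul_zero, comp_zero]
      · rw [hH.conc k h0 x, zero_comp]
    by_cases h1 : k = 1
    · subst h1
      obtain ⟨m, hm⟩ := end_S1 (F := F) (y ≫ b)
      obtain ⟨l, rfl⟩ := (hH.ord m).1 ((shiftFunctor T (1 : ℤ)).map_injective (by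
        rw [Functor.map_zsmul, Functor.map_zero, ← Category.id_comp (η[H]⟦(1 : ℤ)⟧'),
          ← Preadditive.zsmul_comp, ← hm, Category.assoc, hC.zero₃₁, comp_zero]))
      refine ⟨l • 𝟙 _, sub_eq_zero.1 (key _ ?_)⟩
      rw [Preadditive.sub_comp, hm, Category.assoc, hz, Preadditive.zsmul_comp, Category.id_comp,
        smul_smul, mul_comm, Nat.cast_ofNat, sub_self]
    · exact ⟨0, (key y (c1 k (by omega) _)).trans zero_comp.symm⟩
  have cC : Conn 1 C := fun k hk y => by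
    obtain ⟨a, rfl⟩ := hc k (by omega) y
    rw [c1 k hk a, zero_comp]
  obtain ⟨Q, p, d, hQ⟩ := exists_fibre z
  have cQ : Conn 1 Q := fun k hk x => by
    let c := (shiftFunctorAdd' T k 1 (k + 1) rfl).app (𝟙_ T)
    obtain ⟨y, hy⟩ := hQ.lift₁ (c.hom ≫ x⟦(1 : ℤ)⟧') (by
      rw [Category.assoc, ← Functor.map_comp, c1 k hk (x ≫ p), Functor.map_zero, comp_zero])
    obtain ⟨a, rfl⟩ := hc _ (by omega) y
    apply (shiftFunctor T (1 : ℤ)).map_injective
    rw [← cancel_epi c.hom, ← hy, Category.assoc, hQ.zero₂₃, Functor.map_zero, comp_zero, comp_zero]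
  obtain ⟨_, E⟩ := Tr.dist_tensL hQ H
  obtain ⟨y, hy⟩ := E.lift₂ (unitMap H _) (by rw [← unitMap_nat, h])
  obtain ⟨x, rfl⟩ := (distX hC Q).lift₂ y (P257.H762.BigCell.conn' D.conn_unit
    ((P257.H762.bigCell_of_conn D.conn_unit cC).tensor (P257.H762.bigCell_of_conn D.conn_unit cQ)
      2 rfl) 1 (by norm_num) _)
  obtain ⟨m, hm⟩ := end_S1 (F := F) (x ≫ p)
  have h1 : m * 3 = 0 := eq_zero_of_zsmul_id F _ ((shiftFunctor T (1 : ℤ)).map_injective (by
    rw [Functor.map_zsmul, CategoryTheory.Functor.map_id, Functor.map_zero, mul_smul, ← hz,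
      ← Category.id_comp (z ≫ b), ← Preadditive.zsmul_comp, ← hm, Category.assoc,
      reassoc_of% hQ.zero₁₂, zero_comp, comp_zero]))
  rw [Category.assoc, ← unitMap_nat, reassoc_of% hm, show m = 0 by omega, zero_smul,
    zero_comp] at hy
  exact absurd ((hH.ord 1).1 ((shiftFunctor T (1 : ℤ)).map_injective (by
    rw [one_smul, eta_shift, ← hy, zero_comp, Functor.map_zero]))) (by norm_num)

theorem tau_zero_ne : TAU δ b u (inlM H H) (inrM H H) 0 ≠ 0 := by
  intro h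
  obtain ⟨z, hz⟩ := hC.lift₁ ((3 : ℤ) • 𝟙 _) (by
    rw [Preadditive.zsmul_comp, Category.id_comp, ← Functor.map_zsmul, BD.three_H hH,
      Functor.map_zero])
  have h1 : io (ww D (3 ^ 0)) = (3 : ℤ) • (1 : PI D.R) :=
    (congrArg io (vv_zero 3 D.law)).trans (by rw [map_natCast]; simp)
  have h2 : Lf b (io (ww D (3 ^ 0))) (xp (pf z (sg1 T)) 1) := by
    rw [Lf, ← xp_left, pf_pf, hz, pf_zsmul, pf_id, h1, map_zsmul, map_zsmul,
      AddMonoidHom.smul_apply]
  rw [TAU, DD_eq hC (oddR hU hH u) _ _ h2, ← pf_pf, ← xp_pf, ← mul_eq, pf_one, _root_.mul_one,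
    pf_pf, sg1, pf_el, od_of_mem (el_mem _ _), if_pos odd_one, Category.id_comp] at h
  refine hurewicz_ne (F := F) (D := D) hC hH hz ?_
  rw [← dl_inj hC (ij_ten C) (a := th δ (inlM H H) (inrM H H) ≫ H ◁ δ) (a' := unitMap H C) (by
    rw [reassoc_of% th_spec hC (inlM H H) (inrM H H), Preadditive.sub_comp, unitMap_nat, inlM,
      Category.assoc, ← MonoidalCategory.whiskerLeft_comp, hC.zero₁₂,
      MonoidalPreadditive.whiskerLeft_zero, comp_zero, sub_zero]
    rfl), reassoc_of% el_eq_zero h, zero_comp]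

end Vale.Agent.N236
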